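import Vale.Agent.P073.H73.K2A

/-!
# P073, block B00: the interface of the theorem with 3-cells (branch B, `p ≥ 3`)

The twin `K3C` of `H73.K2C`.  Three classes of cells of the mesh:

* `P`: protected cells, which are cubes mapped onto the middle cubes of tiles by diagonal maps;
* `Z`: drawn cells, which are dyadic cubes with images in the shells of the processed tiles;
* all other (passive) cells, which may have any position.

`J₀` are the processed tiles, `J ⊇ J₀` the tiles with protected cell.  The map is changed only near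
the boundaries of the tiles of `J₀`.

It is used twice.  Round 1: `J = J₀` is a block of tiles of the same size (equal to the cells of
the domain), `h` is the identity near the middle cubes, and the cells outside are passive.
Round 2: `J` contains all tiles which touch `J₀`, and all cells near `J₀` are drawn.
-/

open Set Metric Topology
open scoped ENNReal

namespace Vale.Agent.P073.H304

open Vale.Agent.P073
open Vale.Agent.P073.St (V)
open Vale.Agent.P073.H73 (Mesh sqr ctr onSeg)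
open _root_.P073 (ConHomeo)
open _root_.P073.Net (len dyc dyo IsTile SizeFn)

/-- `G` is a bounded upper semicontinuous bound of the local Lipschitz constant of `g` on `Q` -/
structure LipBd (g : V → V) (Q : Set V) (G : V → ℝ) : Prop where
  usc : UpperSemicontinuousOn G Q
  nonneg : ∀ x ∈ Q, 0 ≤ G x
  bdd : BddAbove (G '' Q)
  lip : ∀ x ∈ Q, ∀ᶠ y in 𝓝[Q] x, ‖g y - g x‖ ≤ G x * ‖y - x‖

/-- points at relative distance at most `c` from the boundaries of the tiles in `J` -/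
def Nb (w : V) (J : Set (ℕ × (Fin 3 → ℤ))) (c : ℝ) : Set V :=
  {y | ∃ t ∈ J, ∃ x ∈ frontier (dyc w t.1 t.2), ‖y - x‖ ≤ c / 2 ^ t.1}

/-- `e` is an edge of the mesh: a maximal segment which is contained in a face, and in every face
which meets the open segment -/
structure IsEdge {Ω : Set V} (M : Mesh Ω) (e : V × V) : Prop where
  ne : e.1 ≠ e.2
  sub : ∃ k, segment ℝ e.1 e.2 ⊆ intrinsicFrontier ℝ (M.F k)
  edge : ∀ l, (M.F l ∩ openSegment ℝ e.1 e.2).Nonempty → segment ℝ e.1 e.2 ⊆ M.F l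
  max : ∀ e' : V × V, segment ℝ e.1 e.2 ⊆ segment ℝ e'.1 e'.2 →
    (∀ l, (M.F l ∩ openSegment ℝ e'.1 e'.2).Nonempty → segment ℝ e'.1 e'.2 ⊆ M.F l) →
    segment ℝ e'.1 e'.2 ⊆ segment ℝ e.1 e.2

/-- the middle cube of the tile -/
noncomputable def mid (w : V) (η : ℝ) (t : ℕ × (Fin 3 → ℤ)) : Set V :=
  closedBall (ctr w t.1 t.2) ((1 - η) / 2 / 2 ^ t.1)

/-- Input. `v` is the origin of the dyadic cubes of the domain. -/
structure In {Ω Λ : Set V} (η δ c₀ : ℝ) (v w : V) (ρ : V → ℝ) (M : Mesh Ω) (h : V → V)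
    (J₀ J : Set (ℕ × (Fin 3 → ℤ))) (P Z : Set M.ι) : Prop where
  tile : ∀ t ∈ J, IsTile ρ w t.1 t.2
  sub : J₀ ⊆ J
  /-- the neighbours of the processed tiles have a protected cell, or have the same size -/
  nbr : ∀ t ∈ J₀, ∀ t' : ℕ × (Fin 3 → ℤ), IsTile ρ w t'.1 t'.2 →
    (dyc w t.1 t.2 ∩ dyc w t'.1 t'.2).Nonempty → t' ∈ J ∨ t'.1 = t.1
  /-- protected cells are mapped onto middle cubes by diagonal maps -/
  prot : ∀ i ∈ P, ∃ t ∈ J, ∃ (a : V) (r : ℝ) (s : V), 0 < r ∧ (∀ j, s j = 1 ∨ s j = -1) ∧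
    M.Q i = closedBall a r ∧
    ∀ x ∈ M.Q i, ∀ j, h x j = ctr w t.1 t.2 j + (1 - η) / 2 / 2 ^ t.1 / r * s j * (x j - a j)
  surj : ∀ t ∈ J, ∃ i ∈ P, h '' M.Q i = mid w η t
  /-- the other cells near `J₀` are dyadic cubes with small images -/
  cube : ∀ i, i ∉ P → (h '' M.Q i ∩ Nb w J₀ c₀).Nonempty → ∃ m z, M.Q i = dyc v m z
  small : ∀ i, i ∉ P → ∀ t ∈ J₀, (h '' M.Q i ∩ Nb w {t} c₀).Nonempty →
    ∀ x ∈ M.Q i, ∀ y ∈ M.Q i, ‖h x - h y‖ ≤ δ / 2 ^ t.1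
  /-- the faces near `J₀` are dyadic squares -/
  face : ∀ k, (h '' M.F k ∩ Nb w J₀ c₀).Nonempty → ∃ s : AB.Idx × Fin 3, M.F k = AB.squ v s
  /-- drawn cells, in the shells of the processed tiles -/
  drawn : ∀ i ∈ Z, i ∉ P ∧ h '' M.Q i ⊆ Nb w J₀ η

/-- `C` is an admissible constant for the set `S`: `D'` if `S` meets a face in `Y`, otherwise `D` -/
def Cst {Ω : Set V} (M : Mesh Ω) (Y : Set M.κ) (D D' : ℝ) (S : Set V) (C : ℝ) : Prop :=
  D' ≤ C ∨ (D ≤ C ∧ ∀ k ∈ Y, Disjoint (M.F k) S)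

/-- the cell `i` is `B`-small: oscillation of `h`, and total length of `h` on the edges -/
def Small {Ω : Set V} (M : Mesh Ω) (h : V → V) (i : M.ι) (B : ℝ) : Prop :=
  (∀ x ∈ M.Q i, ∀ y ∈ M.Q i, ‖h x - h y‖ ≤ B) ∧
  ∃ E : Finset (V × V), (∀ e, IsEdge M e → segment ℝ e.1 e.2 ⊆ M.Q i → e ∈ E) ∧
    ∑ e ∈ E, len (onSeg h e) (Icc 0 1) ≤ ENNReal.ofReal B

/-- thin box over the face of the tile `t` with normal direction `l`, on the side `s`, at relative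
distance `m` from the edges of the tile -/
def Plate (w : V) (m : ℝ) (t : ℕ × (Fin 3 → ℤ)) (l : Fin 3) (s : ℝ) : Set V :=
  {y | |y l - (ctr w t.1 t.2 l + s / 2 / 2 ^ t.1)| ≤ m / 8 / 2 ^ t.1 ∧
    ∀ j, j ≠ l → |y j - ctr w t.1 t.2 j| ≤ (1 - 2 * m) / 2 / 2 ^ t.1}

/-- Output. `Y` are the sharp faces, see `H239.SharpOut`.

* `off`: nothing changes away from the boundaries of the tiles of `J₀`;
* `close`: closeness relative to the sizes of the tiles of `J₀`;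
* `prot`: `g` is Lipschitz relative to `h` on the protected cells;
* `lip`: if all neighbours of the processed tiles have a protected cell (Round 2), then `g` is
  Lipschitz on every cell such that `h` is Lipschitz on the neighbouring cells;
* `edge`: the length of every edge is controlled;
* `elip`: the speed on the edges with images in the shells of the processed tiles;
* `osc`: the images of the cells are as small as the lengths of the edges and the oscillation of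
  `h`, on the cell itself and, for a passive cell, on the passive cells in the neighbourhood; or
  the cell is passive and its images under `h` and `g` are contained in the same thin box over a
  face of a processed tile;
* `flip`, `face`: Lipschitz constant and energy on the faces of the drawn cells;
* `drawn`: energy of the drawn cells, with an upper semicontinuous local Lipschitz bound (so that
  the cell can be subdivided later). -/
structure Out {Ω Λ : Set V} (p D D' η c₀ m : ℝ) (w : V) (ρ : V → ℝ) (M : Mesh Ω) (h : V → V)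
    (J₀ J : Set (ℕ × (Fin 3 → ℤ))) (P Z : Set M.ι) (Y : Set M.κ) (ε : M.κ → ℝ)
    (g : ConHomeo Ω Λ) : Prop where
  off : ∀ x ∈ Ω, h x ∉ Nb w J₀ c₀ → g.toFun x = h x
  close : ∀ x ∈ Ω, ∀ t ∈ J₀, h x ∈ Nb w {t} c₀ → ‖g.toFun x - h x‖ ≤ D / 2 ^ t.1
  prot : ∀ i ∈ P, ∀ x ∈ M.Q i, ∀ y ∈ M.Q i, ‖g.toFun x - g.toFun y‖ ≤ D * ‖h x - h y‖
  lip : (∀ t ∈ J₀, ∀ t' : ℕ × (Fin 3 → ℤ), IsTile ρ w t'.1 t'.2 →
      (dyc w t.1 t.2 ∩ dyc w t'.1 t'.2).Nonempty → t' ∈ J) →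
    ∀ i, i ∉ P → ∀ K > 0, (∀ i', (M.Q i ∩ M.Q i').Nonempty →
      ∀ x ∈ M.Q i', ∀ y ∈ M.Q i', ‖h x - h y‖ ≤ K * ‖x - y‖) →
    ∀ C, Cst M Y D D' (M.Q i) C →
    ∀ x ∈ M.Q i, ∀ y ∈ M.Q i, ‖g.toFun x - g.toFun y‖ ≤ C * K * ‖x - y‖
  edge : ∀ k, ∀ e, IsEdge M e → segment ℝ e.1 e.2 ⊆ M.F k →
    len (onSeg g.toFun e) (Icc 0 1) ≤
      ENNReal.ofReal D * len (onSeg h e) (Icc 0 1) + ENNReal.ofReal (ε k)
  elip : ∀ k, ∀ e, IsEdge M e → segment ℝ e.1 e.2 ⊆ M.F k →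
    h '' segment ℝ e.1 e.2 ⊆ Nb w J₀ η → ∀ C, Cst M Y D D' (segment ℝ e.1 e.2) C →
    ∀ ℓ : ℝ, len (onSeg h e) (Icc 0 1) ≤ ENNReal.ofReal ℓ →
    ∀ x ∈ segment ℝ e.1 e.2, ∀ y ∈ segment ℝ e.1 e.2,
      ‖g.toFun x - g.toFun y‖ ≤ C * ((ℓ + ε k) / ‖e.2 - e.1‖) * ‖x - y‖
  osc : ∀ i, i ∉ P → ∀ C, Cst M Y D D' (M.Q i) C → ∀ B > 0, Small M h i B →
    (i ∉ Z → ∀ i', i' ∉ P → i' ∉ Z → ∀ t ∈ J₀, (h '' M.Q i ∩ Nb w {t} c₀).Nonempty →
      (∃ x ∈ M.Q i, ∃ y ∈ M.Q i', ‖h x - h y‖ ≤ c₀ / 2 ^ t.1) → Small M h i' B) →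
    (∀ x ∈ M.Q i, ∀ y ∈ M.Q i, ‖g.toFun x - g.toFun y‖ ≤ C * B) ∨
      (i ∉ Z ∧ ∃ t ∈ J₀, ∃ (l : Fin 3) (s : ℝ), (s = 1 ∨ s = -1) ∧
        h '' M.Q i ⊆ Plate w m t l s ∧ g.toFun '' M.Q i ⊆ Plate w m t l s)
  flip : ∀ k, (∃ i ∈ Z, M.F k ⊆ M.Q i) → ∀ C, Cst M Y D D' (M.F k) C →
    ∀ (E : Finset (V × V)) (ℓ : V × V → ℝ≥0∞) (K : ℝ), H73.Adapted M k E →
    (∀ e ∈ E, len (onSeg h e) (Icc 0 1) ≤ ℓ e ∧
      ℓ e + ENNReal.ofReal (ε k) ≤ ENNReal.ofReal (K * ‖e.2 - e.1‖)) →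
    ∀ x ∈ M.F k, ∀ y ∈ M.F k, ‖g.toFun x - g.toFun y‖ ≤ C * K * ‖x - y‖
  face : ∀ k, (∃ i ∈ Z, M.F k ⊆ M.Q i) → ∀ C, Cst M Y D D' (M.F k) C →
    ∃ G : V → ℝ, LipBd g.toFun (M.F k) G ∧
    ∀ (E : Finset (V × V)) (ℓ : V × V → ℝ≥0∞) (a : V) (l : Fin 3) (σ : ℝ), 0 < σ →
      M.F k = sqr a l σ → H73.Adapted M k E → (∀ e ∈ E, len (onSeg h e) (Icc 0 1) ≤ ℓ e) →
      ∫⁻ x in SQ.cube a σ, ENNReal.ofReal (G (Function.update x l (a l)) ^ p) ≤
        ENNReal.ofReal (C * σ ^ 2) * ∑ e ∈ E, ENNReal.ofReal (‖e.2 - e.1‖ ^ (1 - p)) *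
          (ℓ e + ENNReal.ofReal (ε k * ‖e.2 - e.1‖ / σ)) ^ p
  drawn : ∀ i ∈ Z, ∀ C, Cst M Y D D' (M.Q i) C → ∃ G : V → ℝ, LipBd g.toFun (M.Q i) G ∧
    ∀ (v : V) (m : ℕ) (z : Fin 3 → ℤ), M.Q i = dyc v m z →
    ∀ (E : {k // M.F k ⊆ M.Q i} → Finset (V × V)) (σ : {k // M.F k ⊆ M.Q i} → ℝ)
      (ℓ : V × V → ℝ≥0∞), (∀ k, H73.Adapted M k.1 (E k)) →
      (∀ k, 0 < σ k ∧ ∃ a l, M.F k.1 = sqr a l (σ k)) →
      (∀ k, ∀ e ∈ E k, len (onSeg h e) (Icc 0 1) ≤ ℓ e) →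
      ∫⁻ x in M.Q i, ENNReal.ofReal (G x ^ p) ≤ ENNReal.ofReal (C / 2 ^ m) *
        ∑' k, ENNReal.ofReal (σ k) * ∑ e ∈ E k, ENNReal.ofReal (‖e.2 - e.1‖ ^ (1 - p)) *
          (ℓ e + ENNReal.ofReal (ε k.1 * ‖e.2 - e.1‖ / σ k)) ^ p

end Vale.Agent.P073.H304
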