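import Vale.Agent.P073.H304.R1CostA

/-!
# P073, branch B, [R1-COST]: the mesh sums of the map after Round 1 over the refined partition
-/

open Set Metric Topology Filter MeasureTheory
open scoped ENNReal

namespace Vale.Agent.P073.H304

open Vale.Agent.P073
open Vale.Agent.P073.St (V)
open Vale.Agent.P073.SQ (ev)
open Vale.Agent.P073.H73 (MinEdge segP onSeg)
open Vale.Agent.P073.AB Vale.Agent.P073.AB.P86
open Vale.Agent.P073.H194 (refine Big cellT)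
open Vale.Agent.P073.H193 (refine_cases specRefine exists_sub q_eq)
open _root_.P073.Net (dyc dyo len var)
open _root_.P073 (ConHomeo)

/-- the lengths of the edges -/
noncomputable def elen (h : V → V) (v : V) (e : Idx × Fin 3) : ℝ≥0∞ :=
  len (onSeg h (segP v e)) (Icc 0 1)

variable {Ω Λ : Set V} {v : V} {I P : Set Idx} {n : Idx → ℕ} {p : ℝ}

theorem elen_le_lip {h : V → V} {e : Idx × Fin 3} {K : ℝ} (hK : 0 ≤ K) {S : Set V}
    (he : edge v e ⊆ S) (h1 : ∀ x ∈ S, ∀ y ∈ S, ‖h x - h y‖ ≤ K * ‖x - y‖) :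
    elen h v e ≤ ENNReal.ofReal (2 * K) * ENNReal.ofReal (1 / 2 ^ e.1.1) := by
  have h2 := len_le_lip (h := h) (e := segP v e) hK fun x hx y hy => by
    rw [H687.segment_segP] at hx hy
    exact h1 x (he hx) y (he hy)
  rw [H687.norm_segP, ENNReal.ofReal_mul (by positivity)] at h2
  exact h2

/-- **a subdivided cell with a usc local Lipschitz bound** -/
theorem sum_meshsum_le (hp : 1 ≤ p) (h : ConHomeo Ω Λ) (hΩ : IsOpen Ω) {m : ℕ} {z : Fin 3 → ℤ}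
    (hz : dyc v m z ⊆ Ω) {G : V → ℝ} (hG : LipBd h.toFun (dyc v m z) G) {t : ℝ≥0∞}
    (ht : t ≠ 0) :
    ∀ᶠ k in atTop, ∀ (I : Set Idx), Part Ω v I → ∀ S : Finset (Fin 3 → ℤ),
      (∀ w ∈ S, (k, w) ∈ I ∧ dyc v k w ⊆ dyc v m z) →
      ∑ w ∈ S, meshsum p v I (elen h.toFun v) (k, w) ≤
        24 * (2 ^ p * (∫⁻ x in dyc v m z, ENNReal.ofReal (G x ^ p)) + t) := by
  have hp0 : 0 ≤ p := by linarith
  obtain ⟨b, hb⟩ := hG.bdd
  have hcont : Continuous fun x : ℝ => (2 * ENNReal.ofReal x) ^ p :=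
    ENNReal.continuous_rpow_const.comp
      ((ENNReal.continuous_const_mul (by norm_num)).comp ENNReal.continuous_ofReal)
  have hmono : Monotone fun x : ℝ => (2 * ENNReal.ofReal x) ^ p := by
    intro a b hab
    show (2 * ENNReal.ofReal a) ^ p ≤ (2 * ENNReal.ofReal b) ^ p
    gcongr
  have hu : UpperSemicontinuousOn (fun x => (2 * ENNReal.ofReal (G x)) ^ p) (dyc v m z) :=
    hcont.comp_upperSemicontinuousOn hG.usc hmono
  have hB : (2 * ENNReal.ofReal b) ^ p ≠ ⊤ :=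
    ENNReal.rpow_ne_top_of_nonneg hp0 (ENNReal.mul_ne_top (by norm_num) ENNReal.ofReal_ne_top)
  have hΦ : ∀ x ∈ dyc v m z, (2 * ENNReal.ofReal (G x)) ^ p ≤ (2 * ENNReal.ofReal b) ^ p :=
    fun x hx => hmono (hb (mem_image_of_mem G hx))
  filter_upwards [r1_sum hu hB hΦ ht] with k hk
  intro I hI S hS
  refine (Finset.sum_le_sum fun w hw => ?_).trans ((hk Ω I hΩ hI S hS).trans (le_of_eq ?_))
  · refine H687.cell_sum_le hp hΩ hI (k, w) (fun x => 2 * ENNReal.ofReal (G x)) _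
      fun s _ hs2 e _ hes => ?_
    have h1 := len_le_eInt h hG hz (e := e) (hes.trans (hs2.trans (hS w hw).2))
    refine h1.trans (le_of_eq ?_)
    unfold eInt
    rw [lintegral_const_mul' _ _ (by norm_num)]
    ring
  · congr 2
    rw [← lintegral_const_mul' _ _ (ENNReal.rpow_ne_top_of_nonneg hp0 (by norm_num))]
    refine setLIntegral_congr_fun (_root_.P073.Gauge.O407.isCompact_dyc v m z).measurableSet
      fun x hx => ?_
    rw [ENNReal.mul_rpow_of_nonneg _ _ hp0, ENNReal.ofReal_rpow_of_nonneg (hG.nonneg x hx) hp0]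

/-- What is known about the map `h₁` after Round 1 on the divided cubes: `Z k` are the drawn cells
of the block `k`, `G k` the cubes in its protected cells. -/
structure R1F (p : ℝ) (v : V) (I : Set Idx) {K : Type} (Z G : K → Set Idx) (h₁ : V → V)
    (C ω : K → ℝ) (a : Idx → ℝ≥0∞) : Prop where
  subZ : ∀ k, Z k ⊆ I
  subG : ∀ k, G k ⊆ I
  C0 : ∀ k, 0 ≤ C k
  w0 : ∀ k, 0 ≤ ω k
  /-- drawn cells -/
  drawn : ∀ k, ∀ i ∈ Z k, ∃ L : V → ℝ, LipBd h₁ (dyc v i.1 i.2) L ∧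
    ∫⁻ x in dyc v i.1 i.2, ENNReal.ofReal (L x ^ p) ≤ a i
  /-- squares of drawn cells -/
  sq : ∀ k, ∀ i ∈ Z k, ∀ s, MinSq v I s → squ v s ⊆ dyc v i.1 i.2 →
    ∀ x ∈ squ v s, ∀ y ∈ squ v s, ‖h₁ x - h₁ y‖ ≤ ω k * ‖x - y‖
  /-- protected cells -/
  prot : ∀ k, ∀ i ∈ G k, ∀ x ∈ dyc v i.1 i.2, ∀ y ∈ dyc v i.1 i.2,
    ‖h₁ x - h₁ y‖ ≤ C k * ‖x - y‖

/-- sums over the cells in a divided cube -/
theorem tsum_refine_le (hI : Part Ω v I) (hB : Big v I P ∅ n) {q : Idx} (hq : q ∈ I \ P)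
    {g : Idx → ℝ≥0∞} {b : ℝ≥0∞}
    (h : ∀ S : Finset (Fin 3 → ℤ), (∀ w ∈ S, (n q, w) ∈ refine v I P ∅ n ∧
      dyc v (n q) w ⊆ dyc v q.1 q.2) → ∑ w ∈ S, g (n q, w) ≤ b) :
    ∑' r : {r : Idx // r ∈ refine v I P ∅ n ∧ dyc v r.1 r.2 ⊆ dyc v q.1 q.2}, g r.1 ≤ b := by
  classical
  rw [ENNReal.tsum_eq_iSup_sum]
  refine iSup_le fun T => ?_
  have hgen : ∀ r : {r : Idx // r ∈ refine v I P ∅ n ∧ dyc v r.1 r.2 ⊆ dyc v q.1 q.2},
      r.1 = (n q, r.1.2) := fun r => Prod.ext (gen_of_refine hI hB hq r.2.1 r.2.2) rfl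
  have hinj : Function.Injective
      fun r : {r : Idx // r ∈ refine v I P ∅ n ∧ dyc v r.1 r.2 ⊆ dyc v q.1 q.2} => r.1.2 := by
    intro r r' hr
    apply Subtype.ext
    rw [hgen r, hgen r']
    exact congrArg _ hr
  have h1 := h (T.image fun r => r.1.2) fun w hw => by
    obtain ⟨r, -, rfl⟩ := Finset.mem_image.1 hw
    have h2 := hgen r
    constructor
    · rw [← h2]; exact r.2.1
    · have h3 := r.2.2
      rw [h2] at h3
      exact h3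
  rw [Finset.sum_image fun a _ b _ hab => hinj hab] at h1
  refine le_trans (le_of_eq (Finset.sum_congr rfl fun r _ => ?_)) h1
  rw [← hgen r]

/-- **[R1-COST]** -/
theorem r1_cost (hp : 1 ≤ p) (hΩ : IsOpen Ω) (hI : Part Ω v I) {K : Type} {Z G : K → Set Idx}
    (h₁ : ConHomeo Ω Λ) {C ω : K → ℝ} {a : Idx → ℝ≥0∞} (F : R1F p v I Z G h₁.toFun C ω a)
    (hP : P ⊆ I) (hZG : ∀ i ∈ I \ P, (∃ k, i ∈ Z k) ∨ ∃ k, i ∈ G k) (th : Idx → ℕ)
    {t : Idx → ℝ≥0∞} (ht : ∀ i, t i ≠ 0) :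
    ∃ n : Idx → ℕ, Big v I P ∅ n ∧ (∀ i, th i ≤ n i) ∧
      (∀ k, ∀ i ∈ Z k, i ∉ P →
        ∑' r : {r : Idx // r ∈ refine v I P ∅ n ∧ dyc v r.1 r.2 ⊆ dyc v i.1 i.2},
          meshsum p v (refine v I P ∅ n) (elen h₁.toFun v) r.1 ≤ 24 * (2 ^ p * a i + t i)) ∧
      (∀ k, ∀ i ∈ G k, ∀ r ∈ refine v I P ∅ n, dyc v r.1 r.2 ⊆ dyc v i.1 i.2 →
        meshsum p v (refine v I P ∅ n) (elen h₁.toFun v) r ≤
          24 * ENNReal.ofReal (2 * C k) ^ p * ENNReal.ofReal ((1 / 2 ^ r.1) ^ 3)) ∧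
      ∀ i ∈ P, ∀ κ : ℝ, 0 ≤ κ →
        (∀ k, (∃ q ∈ Z k, (dyc v q.1 q.2 ∩ dyc v i.1 i.2).Nonempty) → ω k ≤ κ) →
        (∀ k, (∃ q ∈ G k, (dyc v q.1 q.2 ∩ dyc v i.1 i.2).Nonempty) → C k ≤ κ) →
        meshsum p v (refine v I P ∅ n) (elen h₁.toFun v) i ≤
          meshsum p v I (elen h₁.toFun v) i +
            24 * ENNReal.ofReal (2 * κ) ^ p * ENNReal.ofReal ((1 / 2 ^ i.1) ^ 3) := by
  classical
  -- the generations
  have hmin : ∀ i ∈ I, ∃ m : ℕ, ∀ s, MinSq v I s → squ v s ⊆ dyc v i.1 i.2 → s.1.1 ≤ m := by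
    intro i hi
    obtain ⟨m, hm⟩ := ((finite_minSq hI hi).image fun s => s.1.1).bddAbove
    exact ⟨m, fun s hs hsi => hm ⟨s, ⟨hs, hsi⟩, rfl⟩⟩
  choose! m₀ hm₀ using hmin
  have hev : ∀ i : Idx, ∃ m : ℕ, ∀ m' ≥ m, (∃ k, i ∈ Z k) → i ∈ I → ∀ (J : Set Idx), Part Ω v J →
      ∀ S : Finset (Fin 3 → ℤ), (∀ w ∈ S, (m', w) ∈ J ∧ dyc v m' w ⊆ dyc v i.1 i.2) →
      ∑ w ∈ S, meshsum p v J (elen h₁.toFun v) (m', w) ≤ 24 * (2 ^ p * a i + t i) := by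
    intro i
    by_cases h : (∃ k, i ∈ Z k) ∧ i ∈ I
    · obtain ⟨⟨k, hk⟩, hi⟩ := h
      obtain ⟨L, hL, hL2⟩ := F.drawn k i hk
      obtain ⟨m, hm⟩ := eventually_atTop.1
        (sum_meshsum_le hp h₁ hΩ (hI.sub i hi) hL (ht i))
      refine ⟨m, fun m' hm' _ _ J hJ S hS => (hm m' hm' J hJ S hS).trans ?_⟩
      gcongr
    · exact ⟨0, fun m' _ h1 h2 => absurd ⟨h1, h2⟩ h⟩
  choose m₁ hm₁ using hev
  set n : Idx → ℕ := fun i => max (max i.1 (th i)) (max (m₀ i) (m₁ i)) with hn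
  have hB : Big v I P ∅ n := by
    refine ⟨hP, fun q _ => ?_, fun b hb => absurd hb (notMem_empty _),
      fun b hb => absurd hb (notMem_empty _)⟩
    exact (le_max_left _ _).trans (le_max_left _ _)
  have hI₂ := specRefine Ω v I P ∅ n hΩ hI hB
  refine ⟨n, hB, fun i => (le_max_right _ _).trans (le_max_left _ _), ?_, ?_, ?_⟩
  · intro k i hi hiP
    have hiI := F.subZ k hi
    exact tsum_refine_le hI hB ⟨hiI, hiP⟩ fun S hS => hm₁ i (n i)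
      ((le_max_right _ _).trans (le_max_right _ _)) ⟨k, hi⟩ hiI _ hI₂ S hS
  · intro k i hi r hr hri
    exact meshsum_le_lip hp hΩ hI₂ hr fun e _ he => elen_le_lip (F.C0 k) (he.trans hri)
      (F.prot k i hi)
  · intro i hi κ hκ hωκ hCκ
    refine meshsum_refine_le hp hΩ hI hB (Or.inl (Or.inl hi)) ?_ fun e _ _ _ => le_rfl
    rintro e he hei ⟨q, hq, heq⟩
    have hne : i ≠ q := fun h => hq.2 (h ▸ hi)
    have hmeet : (dyc v q.1 q.2 ∩ dyc v i.1 i.2).Nonempty := by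
      obtain ⟨y, hy⟩ := Gr.edge_nonempty v e
      exact ⟨y, heq hy, hei hy⟩
    rcases hZG q hq with ⟨k, hk⟩ | ⟨k, hk⟩
    · obtain ⟨s, hs, hsq, hes⟩ := edge_in_sq hΩ hI hB he hq (hP hi) hne heq hei fun s hs hsq =>
        (hm₀ q hq.1 s hs hsq).trans ((le_max_left _ _).trans (le_max_right _ _))
      refine elen_le_lip hκ hes fun x hx y hy => (F.sq k q hk s hs hsq x hx y hy).trans ?_
      gcongr
      exact hωκ k ⟨q, hk, hmeet⟩
    · refine elen_le_lip hκ heq fun x hx y hy => (F.prot k q hk x hx y hy).trans ?_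
      gcongr
      exact hCκ k ⟨q, hk, hmeet⟩

end Vale.Agent.P073.H304
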