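import Vale.Agent.P073.H304.R1
import Vale.Agent.P073.Gauge.Cells110

/-!
# P073, branch B, Round 1: the deep cubes
-/

open Set Metric Topology
open scoped ENNReal

namespace Vale.Agent.P073.H304

open Vale.Agent.P073
open Vale.Agent.P073.St (V)
open Vale.Agent.P073.H73 (Mesh ctr)
open _root_.P073 (ConHomeo)
open _root_.P073.Net (dyc dyo)

theorem dyc_eq_closedBall (v : V) (n : ℕ) (z : Fin 3 → ℤ) :
    dyc v n z = closedBall (ctr v n z) (1 / 2 / 2 ^ n) := by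
  ext x
  rw [mem_closedBall, dist_pi_le_iff (by positivity)]
  refine forall_congr' fun k => ?_
  have e2 : ((z k : ℝ) + 1) / 2 ^ n = z k / 2 ^ n + 1 / 2 ^ n := add_div _ _ _
  have e3 : ((z k : ℝ) + 1 / 2) / 2 ^ n = z k / 2 ^ n + 1 / 2 / 2 ^ n := add_div _ _ _
  have e4 : (1 : ℝ) / 2 ^ n = 1 / 2 / 2 ^ n + 1 / 2 / 2 ^ n := by ring
  rw [Real.dist_eq, abs_le]
  simp only [ctr]
  constructor
  · rintro ⟨h1, h2⟩; constructor <;> linarith
  · rintro ⟨h1, h2⟩; constructor <;> linarith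

/-- the deep cube of a cell does not meet the zone -/
theorem notMem_Nb {v : V} {n : ℕ} {B : Set (Fin 3 → ℤ)} {c : ℝ} (hc : 0 < c) {z : Fin 3 → ℤ}
    {x : V} (hx : x ∈ closedBall (ctr v n z) ((1 - 3 * c) / 2 / 2 ^ n)) : x ∉ Nb v (bl n B) c := by
  rintro ⟨t, ⟨ht, -⟩, y, hy, hxy⟩
  rw [ht] at hy hxy
  have hp : (0:ℝ) < 2 ^ n := by positivity
  -- `y` is not an interior point of the cube `z`
  have h1 : y ∉ dyo v n z := by
    intro h2
    have hcl : IsClosed (dyc v n t.2) := by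
      rw [dyc_eq_closedBall]; exact isClosed_closedBall
    by_cases hz : z = t.2
    · subst hz
      rw [hcl.frontier_eq, _root_.P073.Gauge.C110.interior_dyc] at hy
      exact hy.2 h2
    · have h3 := _root_.P073.Gauge.C110.disjoint_dyc v n hz
      rw [_root_.P073.Gauge.C110.interior_dyc] at h3
      exact Set.disjoint_left.1 h3 (hcl.frontier_subset hy) h2
  apply h1
  intro k
  have h4 := (dist_pi_le_iff (by
    have := dist_nonneg.trans (mem_closedBall.1 hx); exact this)).1 (mem_closedBall.1 hx) k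
  have h5 : |x k - y k| ≤ c / 2 ^ n := (norm_le_pi_norm (x - y) k).trans hxy
  rw [Real.dist_eq, abs_le] at h4
  rw [abs_le] at h5
  simp only [ctr] at h4
  have e2 : ((z k : ℝ) + 1) / 2 ^ n = z k / 2 ^ n + 1 / 2 ^ n := add_div _ _ _
  have e3 : ((z k : ℝ) + 1 / 2) / 2 ^ n = z k / 2 ^ n + 1 / 2 / 2 ^ n := add_div _ _ _
  have e4 : (1 : ℝ) / 2 ^ n = 1 / 2 / 2 ^ n + 1 / 2 / 2 ^ n := by ring
  have e5 : (1 - 3 * c) / 2 / 2 ^ n = 1 / 2 / 2 ^ n - 3 / 2 * (c / 2 ^ n) := by ring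
  have e6 : 0 < c / 2 ^ n := by positivity
  constructor <;> linarith [h4.1, h4.2, h5.1, h5.2]

variable {Ω Λ : Set V} {J : ℝ → ℕ} {Mg Δ : ℝ → ℝ} {v : V} {M : Mesh Ω} {h : ConHomeo Ω Λ}
  {p D : ℝ} {𝓑 : Blocks Λ J Δ v M h.toFun} {ε : M.κ → ℝ} {h₁ : ConHomeo Ω Λ}
  {g : ∀ k, ConHomeo Ω (af (𝓑.L k) (𝓑.b k) ⁻¹' Λ)}

/-- the deep cubes of the cells of the blocks -/
noncomputable def Blocks.deep (𝓑 : Blocks Λ J Δ v M h.toFun) (k : 𝓑.K) (z : Fin 3 → ℤ) : Set V :=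
  closedBall (ctr v (𝓑.n k) z) ((1 - 3 * 𝓑.c₀ k) / 2 / 2 ^ 𝓑.n k)

/-- the frontier of a cell is in the zone -/
theorem frontier_subset_Nb {v : V} {n : ℕ} {B : Set (Fin 3 → ℤ)} {c : ℝ} (hc : 0 ≤ c)
    {z : Fin 3 → ℤ} (hz : z ∈ B) : frontier (dyc v n z) ⊆ Nb v (bl n B) c := fun y hy =>
  ⟨(n, z), ⟨rfl, hz⟩, y, hy, by simpa using by positivity⟩

/-- the cells of a block are contained in the cube of the block -/
theorem Blocks.cell_subset (𝓑 : Blocks Λ J Δ v M h.toFun) {k : 𝓑.K} {z : Fin 3 → ℤ}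
    (hz : z ∈ 𝓑.B k) : dyc v (𝓑.n k) z ⊆ ball (𝓑.a k) (𝓑.r k) := by
  intro x hx
  have h0 : ∀ j : Fin 3, ∀ i, i ≠ j → |x i - 𝓑.a k i| < 𝓑.r k := by
    intro j i hij
    have h1 : Function.update x j (v j + z j / 2 ^ 𝓑.n k) ∈ frontier (dyc v (𝓑.n k) z) := by
      have hcl : IsClosed (dyc v (𝓑.n k) z) := by
        rw [dyc_eq_closedBall]; exact isClosed_closedBall
      rw [hcl.frontier_eq, _root_.P073.Gauge.C110.interior_dyc]
      refine ⟨fun l => ?_, fun h5 => ?_⟩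
      · rcases eq_or_ne l j with rfl | hlj
        · rw [Function.update_self]
          refine ⟨le_rfl, ?_⟩
          gcongr
          linarith
        · rw [Function.update_of_ne hlj]
          exact hx l
      · have h6 := (h5 j).1
        rw [Function.update_self] at h6
        exact lt_irrefl _ h6
    have h2 := 𝓑.zone k (frontier_subset_Nb (𝓑.pos k).le hz h1)
    rw [mem_ball, dist_pi_lt_iff (𝓑.rpos k)] at h2
    have h3 := h2 i
    rwa [Function.update_of_ne hij, Real.dist_eq] at h3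
  rw [mem_ball, dist_pi_lt_iff (𝓑.rpos k)]
  intro i
  rw [Real.dist_eq]
  exact h0 (i + 1) i (by fin_cases i <;> decide)

/-- the protected cell of a cell of the block contains the deep cube -/
theorem Blocks.exists_prot (hJ : ∀ k, 1 / 2 ^ J (𝓑.c₀ k) < 𝓑.c₀ k) {k : 𝓑.K} {z : Fin 3 → ℤ}
    (hz : z ∈ 𝓑.B k) : ∃ i ∈ 𝓑.P k, 𝓑.deep k z ⊆ M.Q i := by
  obtain ⟨i, hi, hQ⟩ := (𝓑.inp k).surj z hz
  refine ⟨i, hi, ?_⟩
  rw [hQ]
  refine closedBall_subset_closedBall ?_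
  have h1 := hJ k
  have h2 := 𝓑.pos k
  gcongr
  linarith

/-- on the deep cubes nothing changes, and the map is affine -/
theorem R1Out.deep_eq (H : R1Out p D Mg 𝓑 ε h₁ g) (hJ : ∀ k, 1 / 2 ^ J (𝓑.c₀ k) < 𝓑.c₀ k) {k : 𝓑.K}
    {z : Fin 3 → ℤ} (hz : z ∈ 𝓑.B k) {x : V} (hx : x ∈ 𝓑.deep k z) :
    h₁.toFun x = af (𝓑.L k) (𝓑.b k) x ∧ h.toFun x = af (𝓑.L k) (𝓑.b k) x := by
  obtain ⟨i, hi, hsub⟩ := Blocks.exists_prot hJ hz
  have h1 : afi (𝓑.L k) (𝓑.b k) (h.toFun x) = x := (𝓑.inp k).id i hi x (hsub hx)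
  have h2 : h.toFun x = af (𝓑.L k) (𝓑.b k) x := by
    rw [← af_afi (𝓑.L k) (𝓑.b k) (h.toFun x), h1]
  have hxΩ : x ∈ Ω := M.sub i (hsub hx)
  have h3 : x ∉ Nb v (bl (𝓑.n k) (𝓑.B k)) (𝓑.c₀ k) := notMem_Nb (𝓑.pos k) hx
  have h4 : (g k).toFun x = x := by
    rw [(H.out k).off x hxΩ (by rw [Function.comp_apply, h1]; exact h3), Function.comp_apply, h1]
  have hb : x ∈ closedBall (𝓑.a k) (𝓑.r k) := by
    refine ball_subset_closedBall (𝓑.cell_subset hz ?_)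
    rw [dyc_eq_closedBall]
    refine closedBall_subset_closedBall ?_ hx
    have h5 := 𝓑.pos k
    gcongr
    linarith
  exact ⟨by rw [H.eq k x hxΩ (by rw [h1]; exact hb), h4], h2⟩

end Vale.Agent.P073.H304
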