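import Vale.Agent.P073.H304.SpecB

/-!
# P073, block B00: the output of `K3C` without the oscillation, and the clause on the oscillation

* `OutB`: all fields of `Out` except `osc` (`m` is a dummy argument);
* `Seg`: every point of a face of the cell is joined with the boundary of the face by a short
  segment;
* `OscOut`: oscillation of the cells.
-/

open Set Metric Topology MeasureTheory
open scoped ENNReal

namespace Vale.Agent.P073.H304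

open Vale.Agent.P073
open Vale.Agent.P073.St (V)
open Vale.Agent.P073.H73 (Mesh sqr onSeg)
open _root_.P073 (ConHomeo)
open _root_.P073.Net (len dyc IsTile)

/-- Output, see `Out`. All fields except `osc`; the argument `m` is not used. -/
structure OutB {Ω Λ : Set V} (p D D' η c₀ _m : ℝ) (w : V) (ρ : V → ℝ) (M : Mesh Ω) (h : V → V)
    (J₀ J : Set (ℕ × (Fin 3 → ℤ))) (P Z : Set M.ι) (Y : Set M.κ) (ε : M.κ → ℝ)
    (g : ConHomeo Ω Λ) : Prop where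
  off : ∀ x ∈ Ω, h x ∉ Nb w J₀ c₀ → g.toFun x = h x
  close : ∀ x ∈ Ω, ∀ t ∈ J₀, h x ∈ Nb w {t} c₀ → ‖g.toFun x - h x‖ ≤ D / 2 ^ t.1
  prot : ∀ i ∈ P, ∀ x ∈ M.Q i, ∀ y ∈ M.Q i, ‖g.toFun x - g.toFun y‖ ≤ D * ‖h x - h y‖
  lip : (∀ t ∈ J₀, ∀ t' : ℕ × (Fin 3 → ℤ), IsTile ρ w t'.1 t'.2 →
      (dyc w t.1 t.2 ∩ dyc w t'.1 t'.2).Nonempty → t' ∈ J) →
    ∀ i, i ∉ P → ∀ K > 0, (∀ i', (M.Q i ∩ M.Q i').Nonempty →
      ∀ x ∈ M.Q i', ∀ y ∈ M.Q i', ‖h x - h y‖ ≤ K * ‖x - y‖) →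
    ∀ C, Cst M Y D D' (M.Q i) C →
    ∀ x ∈ M.Q i, ∀ y ∈ M.Q i, ‖g.toFun x - g.toFun y‖ ≤ C * K * ‖x - y‖
  edge : ∀ k, ∀ e, IsEdge M e → segment ℝ e.1 e.2 ⊆ M.F k →
    len (onSeg g.toFun e) (Icc 0 1) ≤
      ENNReal.ofReal D * len (onSeg h e) (Icc 0 1) + ENNReal.ofReal (ε k)
  elip : ∀ k, ∀ e, IsEdge M e → segment ℝ e.1 e.2 ⊆ M.F k →
    h '' segment ℝ e.1 e.2 ⊆ Nb w J₀ η → ∀ C, Cst M Y D D' (segment ℝ e.1 e.2) C →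
    ∀ ℓ : ℝ, len (onSeg h e) (Icc 0 1) ≤ ENNReal.ofReal ℓ →
    ∀ x ∈ segment ℝ e.1 e.2, ∀ y ∈ segment ℝ e.1 e.2,
      ‖g.toFun x - g.toFun y‖ ≤ C * ((ℓ + ε k) / ‖e.2 - e.1‖) * ‖x - y‖
  flip : ∀ k, (∃ i ∈ Z, M.F k ⊆ M.Q i) → ∀ C, Cst M Y D D' (M.F k) C →
    ∀ (E : Finset (V × V)) (ℓ : V × V → ℝ≥0∞) (K : ℝ), H73.Adapted M k E →
    (∀ e ∈ E, len (onSeg h e) (Icc 0 1) ≤ ℓ e ∧
      ℓ e + ENNReal.ofReal (ε k) ≤ ENNReal.ofReal (K * ‖e.2 - e.1‖)) →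
    ∀ x ∈ M.F k, ∀ y ∈ M.F k, ‖g.toFun x - g.toFun y‖ ≤ C * K * ‖x - y‖
  face : ∀ k, (∃ i ∈ Z, M.F k ⊆ M.Q i) → ∀ C, Cst M Y D D' (M.F k) C →
    ∃ G : V → ℝ, LipBd g.toFun (M.F k) G ∧
    ∀ (E : Finset (V × V)) (ℓ : V × V → ℝ≥0∞) (a : V) (l : Fin 3) (σ : ℝ), 0 < σ →
      M.F k = sqr a l σ → H73.Adapted M k E → (∀ e ∈ E, len (onSeg h e) (Icc 0 1) ≤ ℓ e) →
      ∫⁻ x in SQ.cube a σ, ENNReal.ofReal (G (Function.update x l (a l)) ^ p) ≤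
        ENNReal.ofReal (C * σ ^ 2) * ∑ e ∈ E, ENNReal.ofReal (‖e.2 - e.1‖ ^ (1 - p)) *
          (ℓ e + ENNReal.ofReal (ε k * ‖e.2 - e.1‖ / σ)) ^ p
  drawn : ∀ i ∈ Z, ∀ C, Cst M Y D D' (M.Q i) C → ∃ G : V → ℝ, LipBd g.toFun (M.Q i) G ∧
    ∀ (v : V) (m : ℕ) (z : Fin 3 → ℤ), M.Q i = dyc v m z →
    ∀ (E : {k // M.F k ⊆ M.Q i} → Finset (V × V)) (σ : {k // M.F k ⊆ M.Q i} → ℝ)
      (ℓ : V × V → ℝ≥0∞), (∀ k, H73.Adapted M k.1 (E k)) →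
      (∀ k, 0 < σ k ∧ ∃ a l, M.F k.1 = sqr a l (σ k)) →
      (∀ k, ∀ e ∈ E k, len (onSeg h e) (Icc 0 1) ≤ ℓ e) →
      ∫⁻ x in M.Q i, ENNReal.ofReal (G x ^ p) ≤ ENNReal.ofReal (C / 2 ^ m) *
        ∑' k, ENNReal.ofReal (σ k) * ∑ e ∈ E k, ENNReal.ofReal (‖e.2 - e.1‖ ^ (1 - p)) *
          (ℓ e + ENNReal.ofReal (ε k.1 * ‖e.2 - e.1‖ / σ k)) ^ p

theorem Out.toB {Ω Λ : Set V} {p D D' η c₀ m m' : ℝ} {w : V} {ρ : V → ℝ} {M : Mesh Ω} {h : V → V}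
    {J₀ J : Set (ℕ × (Fin 3 → ℤ))} {P Z : Set M.ι} {Y : Set M.κ} {ε : M.κ → ℝ} {g : ConHomeo Ω Λ}
    (H : Out p D D' η c₀ m w ρ M h J₀ J P Z Y ε g) :
    OutB p D D' η c₀ m' w ρ M h J₀ J P Z Y ε g :=
  ⟨H.off, H.close, H.prot, H.lip, H.edge, H.elip, H.flip, H.face, H.drawn⟩

/-- every point of a face of the cell `i` is joined with the boundary of the face by a segment whose
image under `h` has length at most `B` -/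
def Seg {Ω : Set V} (M : Mesh Ω) (h : V → V) (i : M.ι) (B : ℝ) : Prop :=
  ∀ k, M.F k ⊆ M.Q i → ∀ x ∈ M.F k, ∃ y ∈ intrinsicFrontier ℝ (M.F k),
    len (onSeg h (x, y)) (Icc 0 1) ≤ ENNReal.ofReal B

/-- oscillation of the cells: the images of the cells are as small as the
lengths of the edges and the oscillation of `h`, on the cell itself and, for a passive cell, the
lengths of segments in its faces, and on the passive cells in the neighbourhood -/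
def OscOut {Ω : Set V} (D D' c₀ : ℝ) (w : V) (M : Mesh Ω) (h : V → V)
    (J₀ : Set (ℕ × (Fin 3 → ℤ))) (P Z : Set M.ι) (Y : Set M.κ) (g : V → V) : Prop :=
  ∀ i, i ∉ P → ∀ C, Cst M Y D D' (M.Q i) C → ∀ B > 0, Small M h i B →
    (i ∉ Z → Seg M h i B ∧ ∀ i', i' ∉ P → i' ∉ Z → ∀ t ∈ J₀, (h '' M.Q i ∩ Nb w {t} c₀).Nonempty →
      (∃ x ∈ M.Q i, ∃ y ∈ M.Q i', ‖h x - h y‖ ≤ c₀ / 2 ^ t.1) → Small M h i' B) →
    ∀ x ∈ M.Q i, ∀ y ∈ M.Q i, ‖g x - g y‖ ≤ C * B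

theorem OutB.empty {Ω Λ : Set V} {p D D' η c₀ m : ℝ} {w : V} {ρ : V → ℝ} {M : Mesh Ω} {h : V → V}
    {J₀ J : Set (ℕ × (Fin 3 → ℤ))} {P Z : Set M.ι} {ε : M.κ → ℝ} {g : ConHomeo Ω Λ}
    (H : OutB p D D' η c₀ m w ρ M h J₀ J P Z ∅ ε g) :
    OutB p D D η c₀ m w ρ M h J₀ J P Z ∅ ε g := by
  have key : ∀ {S : Set V} {C : ℝ}, Cst M ∅ D D S C → Cst M ∅ D D' S C := by
    intro S C h
    right
    rcases h with h | h
    · exact ⟨h, fun k hk => absurd hk (notMem_empty k)⟩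
    · exact h
  exact ⟨H.off, H.close, H.prot, fun a i b K c d C e => H.lip a i b K c d C (key e), H.edge,
    fun k e a b c C d => H.elip k e a b c C (key d),
    fun k a C b => H.flip k a C (key b), fun k a C b => H.face k a C (key b),
    fun i a C b => H.drawn i a C (key b)⟩

theorem OscOut.empty {Ω : Set V} {D D' c₀ : ℝ} {w : V} {M : Mesh Ω} {h : V → V}
    {J₀ : Set (ℕ × (Fin 3 → ℤ))} {P Z : Set M.ι} {g : V → V}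
    (H : OscOut D D' c₀ w M h J₀ P Z ∅ g) : OscOut D D c₀ w M h J₀ P Z ∅ g :=
  fun i hi C hC => H i hi C (Or.inr (by
    rcases hC with h | h
    · exact ⟨h, fun k hk => absurd hk (notMem_empty k)⟩
    · exact h))

/-- fewer drawn cells -/
theorem OscOut.mono_Z {Ω : Set V} {D D' c₀ : ℝ} {w : V} {M : Mesh Ω} {h : V → V}
    {J₀ : Set (ℕ × (Fin 3 → ℤ))} {P Z Z' : Set M.ι} {Y : Set M.κ} {g : V → V}
    (H : OscOut D D' c₀ w M h J₀ P Z' Y g) (hZ : Z ⊆ Z') : OscOut D D' c₀ w M h J₀ P Z Y g :=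
  fun i hi C hC B hB hs hsp => H i hi C hC B hB hs fun hiZ' =>
    ⟨(hsp fun hiZ => hiZ' (hZ hiZ)).1, fun i' h1 h2 =>
      (hsp fun hiZ => hiZ' (hZ hiZ)).2 i' h1 fun h3 => h2 (hZ h3)⟩

end Vale.Agent.P073.H304
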