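import Vale.Agent.P073.H212.Sharp3
import Vale.Agent.P073.H304.OutB

/-!
# P073, block B00: `K3C`, the theorem with 3-cells (branch B, `p ≥ 3`)

`D` is universal; `D'` (for the cells which meet a sharp face) and `r` depend on `μ` only; the shell
parameter is `η = 1 / 2 ^ j`, the map is changed only in the zone of relative width `c₀` (`m` is a
dummy). Output: `OutB`, and

* for `b = true` (Round 2) the sharp clauses `H212.SharpOut3`;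
* for `b = false` (Round 1: `J = J₀`, equal tiles, `Y = ∅`) the oscillation `OscOut`.
-/

open Set Metric Topology
open scoped ENNReal

namespace Vale.Agent.P073.H304

open Vale.Agent.P073
open Vale.Agent.P073.St (V)
open Vale.Agent.P073.H73 (Mesh)
open _root_.P073 (ConHomeo)
open _root_.P073.Net (SizeFn)

/-- **[K3C]**, the core with 3-cells, `p > 2`. -/
def K3C (p : ℝ) : Prop :=
  ∃ D > 0, ∀ μ > 0, ∃ D' ≥ D, ∃ r > 0, ∀ c₀ : ℝ, 0 < c₀ → c₀ ≤ 1 / 64 →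
    ∃ j : ℕ, 1 / 2 ^ j < c₀ ∧ ∃ δ > 0, ∃ m : ℝ, 0 < m ∧ m ≤ c₀ ∧
    ∀ (Ω Λ : Set V), St.IsBoundedDomain Ω → St.IsBoundedDomain Λ →
    ∀ (v w : V) (ρ : V → ℝ), SizeFn Λ ρ →
    ∀ (M : Mesh Ω) (h : ConHomeo Ω Λ) (J₀ J : Set (ℕ × (Fin 3 → ℤ))) (P Z : Set M.ι),
    In (Λ := Λ) (1 / 2 ^ j) δ c₀ v w ρ M h.toFun J₀ J P Z →
    ∀ (Y : Set M.κ) (ε : M.κ → ℝ), (∀ k, 0 < ε k) → ∀ b : Bool,
    ∃ g : ConHomeo Ω Λ, OutB p D D' (1 / 2 ^ j) c₀ m w ρ M h.toFun J₀ J P Z Y ε g ∧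
      (b = true → H212.SharpOut3 p D c₀ δ μ r w ρ M h.toFun J₀ Y ε g) ∧
      (b = false → J = J₀ → (∀ t ∈ J₀, ∀ t' ∈ J₀, t'.1 = t.1) → Y = ∅ →
        OscOut D D' c₀ w M h.toFun J₀ P Z Y g.toFun)

end Vale.Agent.P073.H304
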