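import Vale.Agent.P073.H304.SpecB
import Vale.Agent.P073.H687.LenSeg

/-!
# P073, branch B: the length of a conical map on an edge, from a local Lipschitz bound
-/

open Set Metric Topology Filter MeasureTheory
open scoped ENNReal

namespace Vale.Agent.P073.H304

open Vale.Agent.P073
open Vale.Agent.P073.St (V)
open Vale.Agent.P073.SQ (ev)
open Vale.Agent.P073.AB
open _root_.P073 (ConHomeo)
open Vale.Agent.P073.H73 (segP onSeg)
open _root_.P073.Net (len dyc dyo)
open _root_.P073.Gauge (gam)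
open _root_.P073.Gauge.C110 (mem_edge_iff ev_apply)
open _root_.P073.Gauge.O407 (jInt eInt_eq)

theorem lineDeriv_le_of_lip {g : V → V} {x w : V} {c : ℝ} (hc : 0 ≤ c)
    (h : ∀ᶠ t : ℝ in 𝓝 0, ‖g (x + t • w) - g x‖ ≤ c * |t|) : ‖lineDeriv ℝ g x w‖ ≤ c := by
  unfold lineDeriv
  refine norm_deriv_le_of_lip' hc ?_
  filter_upwards [h] with t ht
  simpa using ht

theorem norm_ev (j : Fin 3) : ‖ev j‖ = 1 := by
  refine le_antisymm ?_ ?_
  · rw [pi_norm_le_iff_of_nonneg zero_le_one]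
    intro k
    rw [ev_apply]
    split_ifs <;> simp
  · have h := norm_le_pi_norm (ev j) j
    rw [ev_apply] at h
    simpa using h

variable {Ω Λ : Set V}

/-- **length of an edge** from a local Lipschitz bound -/
theorem len_le_eInt (h : ConHomeo Ω Λ) {Q : Set V} {G : V → ℝ} (hG : LipBd h.toFun Q G)
    (hQ : Q ⊆ Ω) {v : V} {e : Idx × Fin 3} (he : edge v e ⊆ Q) :
    len (onSeg h.toFun (segP v e)) (Icc 0 1) ≤ 2 * eInt v e fun x => ENNReal.ofReal (G x) := by
  refine (H687.len_onSeg_le h (he.trans hQ)).trans ?_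
  gcongr 2 * ?_
  rw [eInt_eq, eInt_eq]
  gcongr
  unfold jInt
  rw [← restrict_Ioo_eq_restrict_Icc (a := (0:ℝ)) (b := 1)]
  refine setLIntegral_mono' measurableSet_Ioo fun t ht => ?_
  refine ENNReal.ofReal_le_ofReal ?_
  have hx : gam v e t ∈ Q := he (mem_edge_iff.2 ⟨t, Ioo_subset_Icc_self ht, rfl⟩)
  refine lineDeriv_le_of_lip (hG.nonneg _ hx) ?_
  have h1 := hG.lip _ hx
  rw [eventually_nhdsWithin_iff] at h1
  have hcont : Tendsto (fun s : ℝ => gam v e t + s • ev e.2) (𝓝 0) (𝓝 (gam v e t)) := by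
    have : Continuous fun s : ℝ => gam v e t + s • ev e.2 := by fun_prop
    have h2 := this.tendsto 0
    simpa using h2
  have hp : (0:ℝ) < 2 ^ e.1.1 := by positivity
  have hin : ∀ᶠ s : ℝ in 𝓝 0, t + 2 ^ e.1.1 * s ∈ Icc (0:ℝ) 1 := by
    have : Continuous fun s : ℝ => t + 2 ^ e.1.1 * s := by fun_prop
    have h2 := this.tendsto 0
    simp only [mul_zero, add_zero] at h2
    exact h2 (Icc_mem_nhds ht.1 ht.2)
  filter_upwards [hcont.eventually h1, hin] with s h2 h3
  have h4 : gam v e t + s • ev e.2 = gam v e (t + 2 ^ e.1.1 * s) := by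
    simp only [gam]
    rw [add_smul, mul_comm, ← smul_smul, smul_smul (2 ^ e.1.1 : ℝ), mul_one_div_cancel hp.ne',
      one_smul, add_assoc]
  have h5 := h2 (by rw [h4]; exact he (mem_edge_iff.2 ⟨_, h3, rfl⟩))
  rwa [add_sub_cancel_left, norm_smul, norm_ev, mul_one, Real.norm_eq_abs] at h5

end Vale.Agent.P073.H304
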