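import Vale.Agent.P073.H304.MSum
import Vale.Agent.P073.H304.LipLen

/-!
# P073, branch B, [R1-COST]: edges of the refined partition in the boundary of a divided cube
-/

open Set Metric Topology Filter MeasureTheory
open scoped ENNReal

namespace Vale.Agent.P073.H304

open Vale.Agent.P073
open Vale.Agent.P073.St (V)
open Vale.Agent.P073.SQ (ev)
open Vale.Agent.P073.H73 (MinEdge segP onSeg)
open Vale.Agent.P073.AB Vale.Agent.P073.AB.P86
open Vale.Agent.P073.H194 (refine Big cellT)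
open Vale.Agent.P073.H193 (refine_cases specRefine exists_sub q_eq)
open _root_.P073.Net (dyc dyo len var)
open _root_.P073.Net.NC (dyA dyB)

/-- the length of a Lipschitz map on a segment -/
theorem len_le_lip {h : V → V} {e : V × V} {K : ℝ} (hK : 0 ≤ K)
    (h1 : ∀ x ∈ segment ℝ e.1 e.2, ∀ y ∈ segment ℝ e.1 e.2, ‖h x - h y‖ ≤ K * ‖x - y‖) :
    len (onSeg h e) (Icc 0 1) ≤ ENNReal.ofReal (2 * K * ‖e.2 - e.1‖) := by
  have hγ : ∀ t ∈ Icc (0:ℝ) 1, e.1 + t • (e.2 - e.1) ∈ segment ℝ e.1 e.2 := by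
    intro t ht
    rw [segment_eq_image']
    exact ⟨t, ht, rfl⟩
  refine (_root_.P073.Net.len_le_var _ _).trans ?_
  have h2 : var (onSeg h e) (Icc 0 1) ≤
      ENNReal.ofReal (K * ‖e.2 - e.1‖) * eVariationOn (id : ℝ → ℝ) (Icc 0 1) := by
    refine _root_.P073.Net.eVariationOn_le_of_edist fun s hs t ht => ?_
    rw [edist_dist, edist_dist, dist_eq_norm, Real.dist_eq, ← ENNReal.ofReal_mul (by positivity)]
    refine ENNReal.ofReal_le_ofReal ((h1 _ (hγ s hs) _ (hγ t ht)).trans (le_of_eq ?_))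
    rw [add_sub_add_left_eq_sub, ← sub_smul, norm_smul, Real.norm_eq_abs]
    simp only [id]
    ring
  have h3 : eVariationOn (id : ℝ → ℝ) (Icc 0 1) ≤ 1 := by
    have := (monotone_id.monotoneOn (Icc (0:ℝ) 1)).eVariationOn_le (a := 0) (b := 1)
      ⟨le_rfl, zero_le_one⟩ ⟨zero_le_one, le_rfl⟩
    simpa using this
  calc 2 * var (onSeg h e) (Icc 0 1) ≤ 2 * (ENNReal.ofReal (K * ‖e.2 - e.1‖) * 1) := by
        gcongr
        exact h2.trans (by gcongr)
    _ = ENNReal.ofReal (2 * K * ‖e.2 - e.1‖) := by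
        rw [mul_one, mul_assoc, ENNReal.ofReal_mul (by norm_num : (0:ℝ) ≤ 2), ENNReal.ofReal_ofNat]

variable {Ω : Set V} {v : V} {I P : Set Idx} {n : Idx → ℕ}

/-- cells in a divided cube -/
theorem gen_of_refine (hI : Part Ω v I) (hB : Big v I P ∅ n) {q : Idx} (hq : q ∈ I \ P)
    {r : Idx} (hr : r ∈ refine v I P ∅ n) (hrq : dyc v r.1 r.2 ⊆ dyc v q.1 q.2) : r.1 = n q := by
  rcases refine_cases hB hr with h | ⟨q', hq', h, h0⟩
  · have := eq_of_sub hI (hB.sub h) hq.1 hrq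
    exact absurd (this ▸ h) hq.2
  · have h1 : q = q' := q_eq hI hq.1 hq'.1 hrq h
    subst h1
    rcases h0 with ⟨h0, -⟩ | ⟨h0, -⟩
    · exact absurd h0 (Set.notMem_empty _)
    · exact h0

/-- a minimal edge of the refined partition in a divided cube and in another cube of the partition
is contained in a minimal square of the partition -/
theorem edge_in_sq (hΩ : IsOpen Ω) (hI : Part Ω v I) (hB : Big v I P ∅ n) {e : Idx × Fin 3}
    (he : MinEdge v (refine v I P ∅ n) e) {q i : Idx} (hq : q ∈ I \ P) (hi : i ∈ I)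
    (hne : i ≠ q) (h1 : edge v e ⊆ dyc v q.1 q.2) (h2 : edge v e ⊆ dyc v i.1 i.2)
    (hth : ∀ s, MinSq v I s → squ v s ⊆ dyc v q.1 q.2 → s.1.1 ≤ n q) :
    ∃ s, MinSq v I s ∧ squ v s ⊆ dyc v q.1 q.2 ∧ edge v e ⊆ squ v s := by
  obtain ⟨hx, ha, hb⟩ := Gr.mid_spec v e
  obtain ⟨x, hxe⟩ : ∃ x, x = Gr.mid v e := ⟨_, rfl⟩
  rw [← hxe] at hx ha hb
  obtain ⟨r, hr, hxr, hrq⟩ := exists_cell_in hI hB hq (h1 hx)
  have h3 := edge_gen_le (H687.edge_sub_of_inner he hr hx ha hb hxr)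
  rw [gen_of_refine hI hB hq hr hrq] at h3
  -- the face
  have hnot : x ∉ dyo v q.1 q.2 := fun h =>
    disjoint_left.1 (hI.disj q hq.1 i hi hne.symm) h (h2 hx)
  have hxq := h1 hx
  obtain ⟨l, hl⟩ : ∃ l, x l = v l + q.2 l / 2 ^ q.1 ∨ x l = v l + (q.2 l + 1) / 2 ^ q.1 := by
    by_contra hcon
    push Not at hcon
    exact hnot fun l => ⟨lt_of_le_of_ne (hxq l).1 (hcon l).1.symm,
      lt_of_le_of_ne (hxq l).2 (hcon l).2⟩
  have hlk : l ≠ e.2 := by
    rintro rfl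
    have h4 := h1 (left_mem_segment ℝ _ _) e.2
    have h5 := h1 (right_mem_segment ℝ _ _) e.2
    have e1 : (pt v e.1.1 e.1.2 + (1 / 2 ^ e.1.1 : ℝ) • ev e.2) e.2 =
        v e.2 + ((e.1.2 e.2 : ℝ) + 1) / 2 ^ e.1.1 := by
      simp [pt, _root_.P073.Gauge.C110.ev_apply]
      ring
    rw [e1] at h5
    have e2 : pt v e.1.1 e.1.2 e.2 = v e.2 + (e.1.2 e.2 : ℝ) / 2 ^ e.1.1 := rfl
    rw [e2] at h4
    rcases hl with hl | hl <;> linarith [h4.1, h5.2]
  obtain ⟨s0, hf, hs0l, hxs0⟩ : ∃ s0 : Idx × Fin 3, FaceOf s0 q ∧ s0.2 = l ∧ x ∈ squ v s0 := by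
    rcases hl with hl | hl
    · refine ⟨(q, l), ⟨rfl, Or.inl rfl, fun j _ => rfl⟩, rfl, hl, fun j _ => hxq j⟩
    · refine ⟨((q.1, Function.update q.2 l (q.2 l + 1)), l), ⟨rfl, Or.inr (by simp),
        fun j hj => by simp [show j ≠ l from hj]⟩, rfl, ?_, fun j hj => ?_⟩
      · simp only [Function.update_self]
        rw [hl]
        push_cast
        ring
      · have hj' : j ≠ l := hj
        simp only [Function.update_of_ne hj']
        exact hxq j
  obtain ⟨s, hs, hxs, hss⟩ := H687.face_cover hΩ hI hf hq.1 hxs0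
  have hsq : squ v s ⊆ dyc v q.1 q.2 := hss.trans (H687.face_sub_dyc hf)
  have hle : s.1.1 ≤ e.1.1 := (hth s hs hsq).trans h3
  have hsl : s.2 = l := (H193.normal_of_sub hss).trans hs0l
  refine ⟨s, hs, hsq, fun y hy => ?_⟩
  rw [Gr.mem_edge] at hx hy
  have hl' : s.2 ≠ e.2 := by rw [hsl]; exact hlk
  refine ⟨by rw [hy.1 _ hl', ← hx.1 _ hl']; exact hxs.1, fun j hj => ?_⟩
  by_cases hje : j = e.2
  · subst hje
    have a1 := hxs.2 _ hj
    have b1 : (s.1.2 e.2 : ℝ) / 2 ^ s.1.1 ≤ e.1.2 e.2 / 2 ^ e.1.1 :=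
      dyB hle (by linarith [a1.1])
    have b2 : ((e.1.2 e.2 : ℝ) + 1) / 2 ^ e.1.1 ≤ ((s.1.2 e.2 + 1 : ℤ) : ℝ) / 2 ^ s.1.1 :=
      dyA hle (by push_cast; linarith [a1.2])
    push_cast at b2
    constructor <;> linarith [hy.2.1, hy.2.2]
  · rw [hy.1 j hje, ← hx.1 j hje]
    exact hxs.2 j hj

end Vale.Agent.P073.H304
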