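import Vale.Agent.P073.H304.Round1
import Vale.Agent.P073.H212.Repl
import Vale.Agent.P073.SCH.LocConeImage

/-!
# P073, branch B, Round 1: gluing over all blocks
-/

open Set Metric Topology
open scoped ENNReal

namespace Vale.Agent.P073.H304

open Vale.Agent.P073
open Vale.Agent.P073.St (V)
open _root_.P073 (ConHomeo ConicalOn LocCone)

variable {Ω Λ : Set V}

theorem locCone_closedBall (a : V) {r : ℝ} (hr : 0 ≤ r) : LocCone (closedBall a r) := by
  have h : closedBall a r = Icc (fun k => a k - r) (fun k => a k + r) := by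
    ext x
    rw [mem_closedBall, dist_pi_le_iff hr, mem_Icc, Pi.le_def, Pi.le_def, ← forall_and]
    refine forall_congr' fun k => ?_
    rw [Real.dist_eq, abs_le]
    constructor <;> rintro ⟨h1, h2⟩ <;> constructor <;> linarith
  rw [h]
  exact _root_.P073.locCone_Icc_pi _ _

/-- gluing: `g k = h` (in the coordinates `k`) off the open ball, the images of the closed balls
are disjoint -/
theorem exists_glue_af {K : Type*} (hΩ : IsOpen Ω) (hΛ : IsOpen Λ) (h : ConHomeo Ω Λ)
    (L : K → V ≃L[ℝ] V) (b a : K → V) (r : K → ℝ) (hr : ∀ k, 0 < r k)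
    (hsub : ∀ k, closedBall (a k) (r k) ⊆ af (L k) (b k) ⁻¹' Λ)
    (hdis : ∀ k l, k ≠ l → Disjoint (af (L k) (b k) '' closedBall (a k) (r k))
      (af (L l) (b l) '' closedBall (a l) (r l)))
    (hlf : ∀ y ∈ Λ, ∃ O ∈ 𝓝 y, {k | (af (L k) (b k) '' closedBall (a k) (r k) ∩ O).Nonempty}.Finite)
    (g : ∀ k, ConHomeo Ω (af (L k) (b k) ⁻¹' Λ))
    (hg : ∀ k, ∀ x ∈ Ω, afi (L k) (b k) (h.toFun x) ∉ ball (a k) (r k) →
      (g k).toFun x = afi (L k) (b k) (h.toFun x)) :
    ∃ g' : ConHomeo Ω Λ,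
      (∀ k, ∀ x ∈ Ω, afi (L k) (b k) (h.toFun x) ∈ closedBall (a k) (r k) →
        g'.toFun x = af (L k) (b k) ((g k).toFun x)) ∧
      ∀ x ∈ Ω, (∀ k, afi (L k) (b k) (h.toFun x) ∉ ball (a k) (r k)) →
        g'.toFun x = h.toFun x := by
  classical
  -- the affine homeomorphisms of the space
  set A : ∀ k, ConHomeo (af (L k) (b k) ⁻¹' Λ) Λ := fun k => afH (L k) (b k) hΛ with hA
  -- the balls in the target, the compact sets in the domain
  set R : K → Set V := fun k => af (L k) (b k) '' closedBall (a k) (r k) with hR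
  have hcb : ∀ k, _root_.P073.ConicalSet (closedBall (a k) (r k)) := fun k =>
    _root_.P073.Convex.conicalSet (convex_closedBall _ _)
  set ψ : ∀ k, ConHomeo (closedBall (a k) (r k))
      (((A k).trans h.symm).toFun '' closedBall (a k) (r k)) := fun k =>
    ((A k).trans h.symm).restr (hcb k) (hsub k) with hψ
  set U : K → Set V := fun k => ((A k).trans h.symm).toFun '' closedBall (a k) (r k) with hU
  have hUmem : ∀ k x, x ∈ U k ↔ x ∈ Ω ∧ afi (L k) (b k) (h.toFun x) ∈ closedBall (a k) (r k) := by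
    intro k x
    constructor
    · rintro ⟨y, hy, rfl⟩
      have h1 : af (L k) (b k) y ∈ Λ := hsub k hy
      refine ⟨h.mapsTo_inv h1, ?_⟩
      show afi (L k) (b k) (h.toFun (h.invFun (af (L k) (b k) y))) ∈ _
      rw [h.right_inv h1, afi_af]
      exact hy
    · rintro ⟨hx, hy⟩
      refine ⟨_, hy, ?_⟩
      show h.invFun (af (L k) (b k) (afi (L k) (b k) (h.toFun x))) = x
      rw [af_afi, h.left_inv hx]
  have hUc : ∀ k, IsCompact (U k) := fun k =>
    (ψ k).isCompact_right (isCompact_closedBall _ _)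
  have hUΩ : ∀ k, U k ⊆ Ω := fun k x hx => ((hUmem k x).1 hx).1
  have hLC : ∀ k, LocCone (U k) := fun k =>
    _root_.P073.LocCone.of_conHomeo (isCompact_closedBall (a k) (r k))
      (locCone_closedBall (a k) (hr k).le) (ψ k)
  have hhU : ∀ k, h.toFun '' U k = R k := by
    intro k
    ext y
    constructor
    · rintro ⟨x, hx, rfl⟩
      obtain ⟨h1, h2⟩ := (hUmem k x).1 hx
      exact ⟨_, h2, af_afi _ _ _⟩
    · rintro ⟨z, hz, rfl⟩
      refine ⟨h.invFun (af (L k) (b k) z), (hUmem k _).2 ⟨h.mapsTo_inv (hsub k hz), ?_⟩,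
        h.right_inv (hsub k hz)⟩
      rw [h.right_inv (hsub k hz), afi_af]
      exact hz
  have hdU : ∀ k l, k ≠ l → Disjoint (U k) (U l) := by
    intro k l hkl
    rw [Set.disjoint_left]
    intro x hx hx'
    have h1 : h.toFun x ∈ R k := by rw [← hhU]; exact mem_image_of_mem _ hx
    have h2 : h.toFun x ∈ R l := by rw [← hhU]; exact mem_image_of_mem _ hx'
    exact Set.disjoint_left.1 (hdis k l hkl) h1 h2
  have hlfU : ∀ z ∈ Ω, ∃ O ∈ 𝓝 z, {k | (U k ∩ O).Nonempty}.Finite := by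
    intro z hz
    obtain ⟨O, hO, hf⟩ := hlf (h.toFun z) (h.mapsTo hz)
    refine ⟨Ω ∩ h.toFun ⁻¹' O, Filter.inter_mem (hΩ.mem_nhds hz)
      ((h.cont.continuousAt (hΩ.mem_nhds hz)).preimage_mem_nhds hO), hf.subset ?_⟩
    rintro k ⟨x, hx, hx'⟩
    refine ⟨h.toFun x, ?_, hx'.2⟩
    have h1 : h.toFun x ∈ R k := by rw [← hhU]; exact mem_image_of_mem _ hx
    exact h1
  -- interior and frontier of `U k`
  have hopen : ∀ k, IsOpen {x ∈ Ω | afi (L k) (b k) (h.toFun x) ∈ ball (a k) (r k)} := by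
    intro k
    have h1 : ContinuousOn (fun x => afi (L k) (b k) (h.toFun x)) Ω :=
      (continuous_afi (L k) (b k)).comp_continuousOn h.cont
    exact h1.isOpen_inter_preimage hΩ isOpen_ball
  have hfr : ∀ k, ∀ x ∈ frontier (U k), x ∈ U k ∧
      afi (L k) (b k) (h.toFun x) ∉ ball (a k) (r k) := by
    intro k x hx
    have h1 : x ∈ U k := (hUc k).isClosed.frontier_subset hx
    refine ⟨h1, fun h2 => ?_⟩
    refine hx.2 (mem_interior.2 ⟨_, fun y hy => (hUmem k y).2 ⟨hy.1, ball_subset_closedBall hy.2⟩,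
      hopen k, ⟨hUΩ k h1, h2⟩⟩)
  -- the replacements
  have hgU : ∀ k, ((g k).trans (A k)).toFun '' U k = h.toFun '' U k := by
    intro k
    have hoff : ∀ x ∈ Ω, x ∉ U k → ((g k).trans (A k)).toFun x = h.toFun x := by
      intro x hx hxU
      show af (L k) (b k) ((g k).toFun x) = _
      rw [hg k x hx fun h2 => hxU ((hUmem k x).2 ⟨hx, ball_subset_closedBall h2⟩), af_afi]
    ext y
    constructor
    · rintro ⟨x, hx, rfl⟩
      by_contra hne
      have h1 : ((g k).trans (A k)).toFun x ∈ Λ := ((g k).trans (A k)).mapsTo (hUΩ k hx)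
      set x' := h.invFun (((g k).trans (A k)).toFun x) with hx'
      have h2 : x' ∈ Ω := h.mapsTo_inv h1
      have h3 : h.toFun x' = ((g k).trans (A k)).toFun x := h.right_inv h1
      have h4 : x' ∉ U k := fun h5 => hne ⟨x', h5, h3⟩
      have h5 := hoff x' h2 h4
      rw [h3] at h5
      have h6 := ((g k).trans (A k)).left_inv.injOn h2 (hUΩ k hx) h5
      exact h4 (h6 ▸ hx)
    · rintro ⟨x, hx, rfl⟩
      by_contra hne
      have h1 : h.toFun x ∈ Λ := h.mapsTo (hUΩ k hx)
      set x' := ((g k).trans (A k)).invFun (h.toFun x) with hx'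
      have h2 : x' ∈ Ω := ((g k).trans (A k)).mapsTo_inv h1
      have h3 : ((g k).trans (A k)).toFun x' = h.toFun x := ((g k).trans (A k)).right_inv h1
      have h4 : x' ∉ U k := fun h5 => hne ⟨x', h5, h3⟩
      have h5 := hoff x' h2 h4
      rw [h3] at h5
      have h6 := h.left_inv.injOn (hUΩ k hx) h2 h5
      exact h4 (h6 ▸ hx)
  set G : ∀ k, ConHomeo (U k) (h.toFun '' U k) := fun k =>
    (((g k).trans (A k)).restr (hLC k).conicalSet (hUΩ k)).cast rfl (hgU k) with hG
  obtain ⟨g', h1, -, h3, -⟩ := _root_.P073.H212.exists_replace hΩ hΛ h hUc hUΩ hLC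
    hlfU
    (fun k l hkl => (hdU k l hkl).mono_left interior_subset) G (fun k x hx => by
      obtain ⟨h1, h2⟩ := hfr k x hx
      show af (L k) (b k) ((g k).toFun x) = h.toFun x
      rw [hg k x (hUΩ k h1) h2, af_afi])
  refine ⟨g', fun k x hx hy => ?_, fun x hx hy => ?_⟩
  · exact h1 k ((hUmem k x).2 ⟨hx, hy⟩)
  · by_cases h4 : ∃ k, x ∈ U k
    · obtain ⟨k, hk⟩ := h4
      have h5 : g'.toFun x = af (L k) (b k) ((g k).toFun x) := h1 k hk
      rw [h5, hg k x hx (hy k), af_afi]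
    · refine h3 ⟨hx, fun h5 => ?_⟩
      obtain ⟨k, hk⟩ := mem_iUnion.1 h5
      exact h4 ⟨k, interior_subset hk⟩

end Vale.Agent.P073.H304
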