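import Vale.Agent.P073.H304.SegJoin
import Vale.Agent.P073.H761.GenFam

/-!
# P073, block B09, [JOIN]: the family `Fam` from the convergence on the net

`fmat φ x`: the matrix of `fderiv ℝ φ x` (so `cl (fmat φ x) = fderiv ℝ φ x` at every point).
-/

namespace Vale.Agent.P073.H304

open MeasureTheory Set Filter Topology Metric Vale.Agent.P073.St Vale.Agent.P073.AB
open Vale.Agent.P073.SQ (ev)
open Vale.Agent.P073.H73 (onSeg)
open Vale.Agent.P073.H989 (ratBoxes Bz)
open Vale.Agent.P073.H761 (NetConv)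
open _root_.P073.Net (dyc dyo len)
open _root_.P073 (ConHomeo)
open scoped ENNReal

/-- the matrix of the derivative -/
noncomputable def fmat (φ : V → V) (x : V) : Mat := fun i j => fderiv ℝ φ x (ev j) i

theorem cl_fmat (φ : V → V) (x : V) : cl (fmat φ x) = fderiv ℝ φ x := by
  have h : ∀ j, cl (fmat φ x) (ev j) = fderiv ℝ φ x (ev j) := by
    intro j
    funext i
    have h1 : cl (fmat φ x) (ev j) i = ∑ l, fmat φ x i l * ev j l := rfl
    rw [h1]
    simp [fmat, SQ.ev, Pi.single_apply]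
  ext w
  have hw : w = ∑ j, w j • ev j := by
    funext i
    simp [SQ.ev, Finset.sum_apply, Pi.single_apply]
  conv_lhs => rw [hw]
  conv_rhs => rw [hw]
  simp only [map_sum, map_smul, h]

theorem norm_sub_ev_le (A B : V →L[ℝ] V) (j : Fin 3) : ‖A (ev j) - B (ev j)‖ ≤ ‖A - B‖ := by
  have h := (A - B).le_opNorm (ev j)
  rwa [S293.ev_norm, mul_one] at h

/-- the family from the convergence on the net -/
theorem fam_of {q : ℝ} {Ω : Set V} {v : V} {nn : ℕ → ℕ} {R : Set V} {f : V → V} {F : V → Mat}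
    (φ : ℕ → ConHomeo R (f '' R)) (hc : ∀ j : ℕ, Bz R f (φ j).toFun (1 / ((j:ℝ) + 1)))
    (hn : NetConv q v R (fun j => fderiv ℝ (φ j).toFun) fun x => cl (F x))
    (hr : ∀ j, RatGood v Ω (hyb1 R (φ j).toFun f) (hyb1 R (fmat (φ j).toFun) F))
    (hs : ∀ B > 0, ∀ᶠ l in atTop, ∀ᶠ j in atTop, SegIn v R (φ j).toFun (nn l) B) :
    Fam Ω v nn R f F (fun j => (φ j).toFun) fun j => fmat (φ j).toFun := by
  refine ⟨fun j => ⟨φ j, rfl⟩, hc, fun e _ => ?_, hr, hs⟩
  refine tendsto_of_tendsto_of_tendsto_of_le_of_le tendsto_const_nhds (hn.edge1 e)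
    (fun _ => bot_le) fun j => ?_
  refine S293.eInt_mono v e fun x => ?_
  by_cases hx : x ∈ R
  · rw [indicator_of_mem hx, indicator_of_mem hx, cl_fmat, ← ofReal_norm]
    exact ENNReal.ofReal_le_ofReal (norm_sub_ev_le _ _ _)
  · rw [indicator_of_notMem hx]
    exact bot_le

end Vale.Agent.P073.H304
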