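import Vale.Agent.P073.AB.Sum308d
import Vale.Agent.P073.Gauge.Cells110
import Vale.Agent.P073.Gauge.Of407c

/-!
# P073: upper Darboux sums of a bounded upper semicontinuous function over dyadic cubes
-/

open Set Metric Topology Filter MeasureTheory
open scoped ENNReal

namespace Vale.Agent.P073.H304

open Vale.Agent.P073
open Vale.Agent.P073.St (V)
open _root_.P073.Net (dyc dyo)

section gen

variable {X : Type*} [PseudoMetricSpace X] {Q : Set X} {Φ : X → ℝ≥0∞} {B : ℝ≥0∞}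

/-- supremum over the part of the open ball in `Q` -/
noncomputable def supU (Q : Set X) (Φ : X → ℝ≥0∞) (r : ℝ) (x : X) : ℝ≥0∞ :=
  ⨆ y ∈ Q ∩ ball x r, Φ y

theorem le_supU {r : ℝ} {x y : X} (hy : y ∈ Q) (h : dist y x < r) : Φ y ≤ supU Q Φ r x :=
  le_iSup₂_of_le (f := fun y (_ : y ∈ Q ∩ ball x r) => Φ y) y ⟨hy, h⟩ le_rfl

theorem supU_le {r : ℝ} {x : X} {c : ℝ≥0∞} (h : ∀ y ∈ Q, dist y x < r → Φ y ≤ c) :
    supU Q Φ r x ≤ c :=
  iSup₂_le fun y hy => h y hy.1 hy.2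

theorem measurable_supU [MeasurableSpace X] [OpensMeasurableSpace X] (Q : Set X) (Φ : X → ℝ≥0∞)
    (r : ℝ) : Measurable (supU Q Φ r) := by
  refine measurable_of_Ioi fun c => ?_
  have h : supU Q Φ r ⁻¹' Ioi c = ⋃ y ∈ {y ∈ Q | c < Φ y}, ball y r := by
    ext x
    simp only [mem_preimage, mem_Ioi, supU, lt_iSup_iff, mem_iUnion, mem_inter_iff, mem_ball,
      exists_prop]
    constructor
    · rintro ⟨y, ⟨h1, h2⟩, h3⟩
      exact ⟨y, ⟨h1, h3⟩, by rwa [dist_comm]⟩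
    · rintro ⟨y, ⟨h1, h3⟩, h2⟩
      exact ⟨y, ⟨h1, by rwa [dist_comm]⟩, h3⟩
  rw [h]
  exact (isOpen_biUnion fun y _ => isOpen_ball).measurableSet

theorem tendsto_supU (hu : UpperSemicontinuousOn Φ Q) {x : X} (hx : x ∈ Q) {r : ℕ → ℝ}
    (hr : ∀ n, 0 < r n) (hr0 : Tendsto r atTop (𝓝 0)) :
    Tendsto (fun n => supU Q Φ (r n) x) atTop (𝓝 (Φ x)) := by
  refine tendsto_order.2 ⟨fun c hc => Eventually.of_forall fun n =>
    hc.trans_le (le_supU hx (by rw [dist_self]; exact hr n)), fun c hc => ?_⟩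
  obtain ⟨c', h1, h2⟩ := exists_between hc
  have h3 := hu x hx c' h1
  rw [eventually_nhdsWithin_iff, Metric.eventually_nhds_iff] at h3
  obtain ⟨d, hd, h4⟩ := h3
  filter_upwards [hr0.eventually_lt_const hd] with n hn
  exact (supU_le fun y hy hyx => (h4 (hyx.trans hn) hy).le).trans_lt h2

theorem tendsto_lintegral_supU [MeasurableSpace X] [OpensMeasurableSpace X] {μ : Measure X}
    (hQm : MeasurableSet Q) (hQ : μ Q ≠ ⊤)
    (hu : UpperSemicontinuousOn Φ Q) (hB : B ≠ ⊤) (hΦ : ∀ x ∈ Q, Φ x ≤ B) {r : ℕ → ℝ}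
    (hr : ∀ n, 0 < r n) (hr0 : Tendsto r atTop (𝓝 0)) :
    Tendsto (fun n => ∫⁻ x in Q, supU Q Φ (r n) x ∂μ) atTop (𝓝 (∫⁻ x in Q, Φ x ∂μ)) := by
  refine tendsto_lintegral_of_dominated_convergence (fun _ => B)
    (fun n => measurable_supU Q Φ (r n)) (fun n => Eventually.of_forall fun x =>
      supU_le fun y hy _ => hΦ y hy) ?_ ?_
  · rw [lintegral_const, Measure.restrict_apply_univ]
    exact ENNReal.mul_ne_top hB hQ
  · filter_upwards [ae_restrict_mem hQm] with x hx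
    exact tendsto_supU hu hx hr hr0

/-- **upper Darboux sums** over families of small sets with disjoint interiors -/
theorem darb_gen [MeasurableSpace X] [OpensMeasurableSpace X] {μ : Measure X}
    (hQm : MeasurableSet Q) (hQ : μ Q ≠ ⊤)
    (hu : UpperSemicontinuousOn Φ Q) (hB : B ≠ ⊤) (hΦ : ∀ x ∈ Q, Φ x ≤ B) {r : ℕ → ℝ}
    (hr : ∀ n, 0 < r n) (hr0 : Tendsto r atTop (𝓝 0)) {ε : ℝ≥0∞} (hε : ε ≠ 0) :
    ∀ᶠ n in atTop, ∀ {ι : Type} (S : Finset ι) (q : ι → Set X),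
      (∀ i ∈ S, q i ⊆ Q ∧ NullMeasurableSet (q i) μ ∧ ∀ x ∈ q i, ∀ y ∈ q i, dist x y < r n) →
      (∀ i ∈ S, ∀ j ∈ S, i ≠ j → μ (q i ∩ q j) = 0) →
      ∑ i ∈ S, μ (q i) * ⨆ x ∈ q i, Φ x ≤ (∫⁻ x in Q, Φ x ∂μ) + ε := by
  have hfin : ∫⁻ x in Q, Φ x ∂μ ≠ ⊤ := by
    refine ne_top_of_le_ne_top (ENNReal.mul_ne_top hB hQ) ?_
    calc ∫⁻ x in Q, Φ x ∂μ ≤ ∫⁻ _x in Q, B ∂μ := setLIntegral_mono' hQm hΦ
      _ = B * μ Q := by rw [lintegral_const, Measure.restrict_apply_univ]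
  have h1 := (tendsto_lintegral_supU hQm hQ hu hB hΦ hr hr0).eventually_le_const
    (ENNReal.lt_add_right hfin hε)
  filter_upwards [h1] with n hn
  intro ι S q hq hd
  refine le_trans ?_ hn
  calc ∑ i ∈ S, μ (q i) * ⨆ x ∈ q i, Φ x
      ≤ ∑ i ∈ S, ∫⁻ x in q i, supU Q Φ (r n) x ∂μ := by
        refine Finset.sum_le_sum fun i hi => ?_
        have h2 : μ (q i) * ⨆ x ∈ q i, Φ x = ∫⁻ _x in q i, (⨆ x ∈ q i, Φ x) ∂μ := by
          rw [lintegral_const, Measure.restrict_apply_univ, mul_comm]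
        rw [h2]
        refine lintegral_mono_ae ?_
        filter_upwards [ae_restrict_mem₀ (hq i hi).2.1] with x hx
        exact iSup₂_le fun y hy => le_supU ((hq i hi).1 hy) ((hq i hi).2.2 y hy x hx)
    _ = ∫⁻ x in ⋃ i ∈ S, q i, supU Q Φ (r n) x ∂μ := by
        rw [lintegral_biUnion_finset₀]
        · intro i hi j hj hij
          exact hd i hi j hj hij
        · exact fun i hi => (hq i hi).2.1
    _ ≤ ∫⁻ x in Q, supU Q Φ (r n) x ∂μ :=
        lintegral_mono_set (iUnion₂_subset fun i hi => (hq i hi).1)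

end gen

/-- **[DARB]** upper Darboux sums over the dyadic cubes of one generation -/
theorem darb {v : V} {m : ℕ} {z : Fin 3 → ℤ} {Φ : V → ℝ≥0∞}
    (hu : UpperSemicontinuousOn Φ (dyc v m z)) {B : ℝ≥0∞} (hB : B ≠ ⊤)
    (hΦ : ∀ x ∈ dyc v m z, Φ x ≤ B) {ε : ℝ≥0∞} (hε : ε ≠ 0) :
    ∀ᶠ n in atTop, ∀ S : Finset (Fin 3 → ℤ), (∀ w ∈ S, dyc v n w ⊆ dyc v m z) →
      ∑ w ∈ S, ENNReal.ofReal (1 / 8 ^ n) * ⨆ x ∈ dyc v n w, Φ x ≤
        (∫⁻ x in dyc v m z, Φ x) + ε := by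
  have hc : ∀ n w, IsClosed (dyc v n w) := fun n w => (_root_.P073.Gauge.O407.isCompact_dyc v n w).isClosed
  have hr0 : Tendsto (fun n : ℕ => (2 : ℝ) / 2 ^ n) atTop (𝓝 0) := by
    have h := (tendsto_pow_atTop_nhds_zero_of_lt_one (r := (1 / 2 : ℝ)) (by norm_num)
      (by norm_num)).const_mul 2
    simp only [mul_zero] at h
    refine h.congr fun n => ?_
    rw [div_pow, one_pow, mul_one_div]
  have h1 := darb_gen (μ := volume) (hc m z).measurableSet
    (by rw [AB.S308.volume_dyc]; exact ENNReal.ofReal_ne_top) hu hB hΦ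
    (r := fun n : ℕ => (2 : ℝ) / 2 ^ n) (fun n => by positivity) hr0 hε
  filter_upwards [h1] with n hn
  intro S hS
  have h2 := hn S (fun w => dyc v n w) (fun w hw => ⟨hS w hw, (hc n w).measurableSet.nullMeasurableSet,
    fun x hx y hy => ?_⟩) ?_
  · simpa only [AB.S308.volume_dyc] using h2
  · rw [dist_eq_norm]
    refine (_root_.P073.Net.NC.dist_le hx hy).trans_lt ?_
    gcongr
    norm_num
  · intro w _ w' _ hne
    have h3 : dyc v n w ∩ dyc v n w' ⊆ frontier (dyc v n w) := by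
      intro x hx
      rw [(hc n w).frontier_eq]
      exact ⟨hx.1, fun h4 => Set.disjoint_left.1 (_root_.P073.Gauge.C110.disjoint_dyc v n hne) hx.2 h4⟩
    refine measure_mono_null h3 ?_
    rw [(hc n w).frontier_eq, measure_sdiff interior_subset
      isOpen_interior.measurableSet.nullMeasurableSet, _root_.P073.Gauge.C110.interior_dyc, AB.S308.volume_dyo, AB.S308.volume_dyc,
      tsub_self]
    rw [_root_.P073.Gauge.C110.interior_dyc, AB.S308.volume_dyo]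
    exact ENNReal.ofReal_ne_top

end Vale.Agent.P073.H304
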