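import Vale.Agent.P073.H304.LipLen

/-!
# P073, branch B: the energy on a square face, from a local Lipschitz bound
-/

open Set Metric Topology Filter MeasureTheory
open scoped ENNReal

namespace Vale.Agent.P073.H304

open Vale.Agent.P073
open Vale.Agent.P073.St (V)
open Vale.Agent.P073.SQ (ev cube)
open Vale.Agent.P073.H73 (sqr faceL)

theorem cube_eq_closedBall (a : V) {σ : ℝ} (hσ : 0 ≤ σ) : cube a σ = closedBall a σ := by
  ext x
  rw [mem_closedBall, dist_pi_le_iff hσ]
  exact forall_congr' fun k => by rw [Real.dist_eq]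

/-- the energy of `g` on a square face is bounded by the integral of a local Lipschitz bound -/
theorem faceL_le {g : V → V} {a : V} {l : Fin 3} {σ : ℝ} (hσ : 0 < σ) {G : V → ℝ}
    (hG : LipBd g (sqr a l σ) G) {p : ℝ} (hp : 0 ≤ p) :
    faceL p g a l σ ≤ 2 * ∫⁻ x in cube a σ, ENNReal.ofReal (G (Function.update x l (a l)) ^ p) := by
  unfold faceL
  have h1 : ∀ j ∈ (Finset.univ : Finset (Fin 3)).erase l, ∫⁻ x in cube a σ,
      ENNReal.ofReal (‖lineDeriv ℝ g (Function.update x l (a l)) (ev j)‖ ^ p) ≤
      ∫⁻ x in cube a σ, ENNReal.ofReal (G (Function.update x l (a l)) ^ p) := by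
    intro j hj
    have hjl : j ≠ l := (Finset.mem_erase.1 hj).1
    refine lintegral_mono_ae ?_
    have hms : MeasurableSet (cube a σ) := by
      rw [cube_eq_closedBall a hσ.le]; exact measurableSet_closedBall
    have h2 : ∀ᵐ x ∂(volume : Measure V), x ∉ sphere a σ :=
      measure_eq_zero_iff_ae_notMem.1 (Measure.addHaar_sphere volume a σ)
    filter_upwards [ae_restrict_mem hms, ae_restrict_of_ae h2] with x hx hx'
    have hxb : x ∈ ball a σ := by
      rw [cube_eq_closedBall a hσ.le] at hx
      exact lt_of_le_of_ne (mem_closedBall.1 hx) hx'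
    have hlt : ∀ k, |x k - a k| < σ := by
      intro k
      have h3 := (dist_pi_lt_iff hσ).1 (mem_ball.1 hxb) k
      rwa [Real.dist_eq] at h3
    set y : V := Function.update x l (a l) with hy
    have hyl : y l = a l := by rw [hy, Function.update_self]
    have hylt : ∀ k, |y k - a k| < σ := by
      intro k
      by_cases hk : k = l
      · subst hk; rw [hyl, sub_self, abs_zero]; exact hσ
      · rw [hy, Function.update_of_ne hk]; exact hlt k
    have hyF : y ∈ sqr a l σ := ⟨hyl, fun k => (hylt k).le⟩
    gcongr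
    refine lineDeriv_le_of_lip (hG.nonneg _ hyF) ?_
    have h4 := hG.lip _ hyF
    rw [eventually_nhdsWithin_iff] at h4
    have hcont : Continuous fun s : ℝ => y + s • ev j := by fun_prop
    have h5 : Tendsto (fun s : ℝ => y + s • ev j) (𝓝 0) (𝓝 y) := by
      simpa using hcont.tendsto 0
    have h6 : ∀ᶠ s : ℝ in 𝓝 0, ∀ k, |(y + s • ev j) k - a k| < σ := by
      rw [Filter.eventually_all]
      intro k
      have h7 : Continuous fun s : ℝ => |(y + s • ev j) k - a k| := by fun_prop
      have h8 := h7.tendsto 0
      simp only [zero_smul, add_zero] at h8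
      exact h8.eventually_lt_const (hylt k)
    filter_upwards [h5.eventually h4, h6] with s h7 h8
    have h9 : y + s • ev j ∈ sqr a l σ := by
      refine ⟨?_, fun k => (h8 k).le⟩
      rw [Pi.add_apply, Pi.smul_apply, _root_.P073.Gauge.C110.ev_apply, if_neg (Ne.symm hjl),
        smul_zero, add_zero]
      exact hyl
    have h10 := h7 h9
    rwa [add_sub_cancel_left, norm_smul, norm_ev, mul_one, Real.norm_eq_abs] at h10
  refine (Finset.sum_le_sum h1).trans ?_
  rw [Finset.sum_const, nsmul_eq_mul, Finset.card_erase_of_mem (Finset.mem_univ l)]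
  simp

end Vale.Agent.P073.H304
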