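import Vale.Agent.P073.H989.NetInF
import Vale.Agent.P073.H622.H0
import Vale.Agent.P073.H803.SegNet

/-!
# P073, block B09, [JOIN]: tools

* `eInt_le_sum_ind`: edge integrals over finitely many open sets, no measurability;
* `near0_trans`: `Near0` through an intermediate map;
* `exists_passive`, `exists_rfun`: passive cubes in the boxes, and the function `r`;
* `finite_edges_meet`: finitely many edges of `I` meet a compact set.
-/

namespace Vale.Agent.P073.H304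

open MeasureTheory Set Filter Topology Metric Vale.Agent.P073.St Vale.Agent.P073.AB
open Vale.Agent.P073.SQ (ev)
open Vale.Agent.P073.AB.S293 (gam)
open Vale.Agent.P073.H696 (Boxes HF am blk blkS Dom IsNear)
open Vale.Agent.P073.H989 (Near0)
open Vale.Agent.P073.H726 (LBOn)
open _root_.P073.Net (dyc dyo)
open _root_.P073 (ConHomeo)
open scoped ENNReal

/-! ### Edge integrals -/

theorem continuous_gam (v : V) (e : Idx × Fin 3) : Continuous (gam v e) := by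
  unfold S293.gam
  fun_prop

theorem gam_mem (v : V) (e : Idx × Fin 3) {t : ℝ} (ht : t ∈ Icc (0:ℝ) 1) :
    gam v e t ∈ edge v e := by
  unfold S293.gam edge
  rw [segment_eq_image']
  exact ⟨t, ht, by simp⟩

/-- the integral over an edge of a function which vanishes outside of finitely many open sets -/
theorem eInt_le_sum_ind {ι : Type*} (S : Finset ι) {R : ι → Set V} (hR : ∀ k ∈ S, IsOpen (R k))
    (v : V) (e : Idx × Fin 3) {G : V → ℝ≥0∞}
    (h0 : ∀ x ∈ edge v e, (∀ k ∈ S, x ∉ R k) → G x = 0) :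
    eInt v e G ≤ ∑ k ∈ S, eInt v e ((R k).indicator G) := by
  classical
  set T : S → Set ℝ := fun k => gam v e ⁻¹' R k.1 with hT
  have hTm : ∀ k, MeasurableSet (T k) := fun k =>
    ((hR k.1 k.2).preimage (continuous_gam v e)).measurableSet
  set U : Set ℝ := ⋃ k, T k with hU
  have hUm : MeasurableSet U := MeasurableSet.iUnion hTm
  set g : ℝ → ℝ≥0∞ := fun t => G (gam v e t) with hg
  have h1 : ∫⁻ t in Icc (0:ℝ) 1, g t ≤ ∑ k : S, ∫⁻ t in Icc (0:ℝ) 1, (T k).indicator g t := by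
    have e1 := lintegral_inter_add_diff (μ := volume) g (Icc (0:ℝ) 1) hUm
    have e2 : ∫⁻ t in Icc (0:ℝ) 1 \ U, g t = 0 := by
      rw [setLIntegral_congr_fun (measurableSet_Icc.diff hUm) (g := fun _ => 0) ?_]
      · simp
      · intro t ht
        refine h0 _ (gam_mem v e ht.1) fun k hk hx => ht.2 ?_
        exact mem_iUnion.2 ⟨⟨k, hk⟩, hx⟩
    rw [← e1, e2, add_zero]
    have e3 : Icc (0:ℝ) 1 ∩ U = ⋃ k, Icc (0:ℝ) 1 ∩ T k := by rw [hU, inter_iUnion]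
    rw [e3]
    refine (lintegral_iUnion_le _ _).trans ?_
    rw [tsum_fintype]
    refine Finset.sum_le_sum fun k _ => ?_
    rw [setLIntegral_indicator (hTm k), inter_comm]
  unfold eInt
  calc ENNReal.ofReal (1 / 2 ^ e.1.1) * ∫⁻ t in Icc (0:ℝ) 1, g t
      ≤ ENNReal.ofReal (1 / 2 ^ e.1.1) * ∑ k : S, ∫⁻ t in Icc (0:ℝ) 1, (T k).indicator g t := by
        gcongr
    _ = ∑ k : S, ENNReal.ofReal (1 / 2 ^ e.1.1) * ∫⁻ t in Icc (0:ℝ) 1, (T k).indicator g t :=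
        Finset.mul_sum _ _ _
    _ = _ := by
        rw [← Finset.sum_coe_sort S]
        rfl

/-- `Near0` through an intermediate map -/
theorem near0_trans {v : V} {I : Set Idx} {Ω : Set V} {f ft : V → V} {F Ft : V → Mat}
    {m : V → ℝ} {δ : Idx × Fin 3 → ℝ} {h : V → V} (rat : RatGood v Ω f F)
    (rat' : RatGood v Ω ft Ft) (hI : ∀ q ∈ I, dyc v q.1 q.2 ⊆ Ω) (hδ : ∀ e, 0 < δ e)
    (H : Near0 v I ft Ft Ω (fun x => m x / 2) (fun e => δ e / 2) h)
    (H' : ∀ x ∈ Ω, ‖ft x - f x‖ ≤ m x / 2)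
    (He : ∀ e : Idx × Fin 3, (∃ q ∈ I, EdgeOf e q) → (∀ x ∈ edge v e, ‖ft x - f x‖ ≤ δ e / 2) ∧
      eInt v e (fun x => ENNReal.ofReal ‖cl (Ft x) (ev e.2) - cl (F x) (ev e.2)‖) ≤
        ENNReal.ofReal (δ e / 2)) :
    Near0 v I f F Ω m δ h := by
  refine ⟨fun x hx => ?_, fun e he => ⟨fun x hx => ?_, ?_⟩⟩
  · have h1 := norm_sub_le_norm_sub_add_norm_sub (h x) (ft x) (f x)
    linarith [H.close x hx, H' x hx]
  · have h1 := norm_sub_le_norm_sub_add_norm_sub (h x) (ft x) (f x)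
    linarith [(H.edge e he).1 x hx, (He e he).1 x hx]
  · have heΩ : edge v e ⊆ Ω := by
      obtain ⟨q, hq, hqe⟩ := he
      exact (Gr.edge_subset_dyc hqe).trans (hI q hq)
    have h3 : eInt v e (fun x => ENNReal.ofReal ‖lineDeriv ℝ h x (ev e.2) - cl (F x) (ev e.2)‖) ≤
        eInt v e (fun x => ENNReal.ofReal ‖lineDeriv ℝ h x (ev e.2) - cl (Ft x) (ev e.2)‖ +
          ENNReal.ofReal ‖cl (Ft x) (ev e.2) - cl (F x) (ev e.2)‖) := by
      refine S293.eInt_mono v e fun x => ?_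
      rw [← ENNReal.ofReal_add (norm_nonneg _) (norm_nonneg _)]
      exact ENNReal.ofReal_le_ofReal (norm_sub_le_norm_sub_add_norm_sub _ _ _)
    refine h3.trans ?_
    rw [S293.eInt_add]
    · calc _ ≤ ENNReal.ofReal (δ e / 2) + ENNReal.ofReal (δ e / 2) :=
            add_le_add (H.edge e he).2 (He e he).2
        _ = ENNReal.ofReal (δ e) := by
            rw [← ENNReal.ofReal_add (by linarith [hδ e]) (by linarith [hδ e])]
            congr 1
            ring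
    · exact ((S293.aemeas_F rat' heΩ).sub (S293.aemeas_F rat heΩ)).norm.aemeasurable.ennreal_ofReal

/-- the edges of a cube -/
theorem finite_edgeOf (q : Idx) : {e : Idx × Fin 3 | EdgeOf e q}.Finite := by
  have hfin : (({q.1} : Set ℕ) ×ˢ (Set.pi univ fun j => ({q.2 j, q.2 j + 1} : Set ℤ))).Finite := by
    exact Set.Finite.prod (finite_singleton _) (Set.Finite.pi fun j => Set.toFinite _)
  refine (hfin.prod (finite_univ (α := Fin 3))).subset ?_
  rintro ⟨⟨m, z⟩, k⟩ ⟨a1, a2, a3⟩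
  refine ⟨⟨a1, fun j _ => ?_⟩, mem_univ _⟩
  by_cases hj : j = k
  · subst hj
    left; exact a2
  · exact a3 j hj

/-- finitely many edges of the partition meet a compact set -/
theorem finite_edges_meet {Ω : Set V} {v : V} {I : Set Idx} (hI : Part Ω v I) {C : Set V}
    (hC : IsCompact C) (hCΩ : C ⊆ Ω) :
    {e : Idx × Fin 3 | (∃ q ∈ I, EdgeOf e q) ∧ (edge v e ∩ C).Nonempty}.Finite := by
  refine ((hI.fin C hCΩ hC).biUnion fun q _ => finite_edgeOf q).subset ?_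
  rintro e ⟨⟨q, hq, he⟩, x, hx, hxC⟩
  exact mem_biUnion (show q ∈ {q | q ∈ I ∧ (dyc v q.1 q.2 ∩ C).Nonempty} from
    ⟨hq, x, Gr.edge_subset_dyc he hx, hxC⟩) he

/-! ### Passive cubes -/

/-- a closed cube through a point of an open set -/
theorem dyc_meet {v : V} {q : Idx} {y : V} (hy : y ∈ dyc v q.1 q.2) {U : Set V} (hU : IsOpen U)
    (hyU : y ∈ U) : (dyo v q.1 q.2 ∩ U).Nonempty := by
  have h1 : y ∈ closure (dyo v q.1 q.2) := by rwa [H333.closure_dyo]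
  obtain ⟨w, hw, hw'⟩ := mem_closure_iff.1 h1 U hU hyU
  exact ⟨w, hw', hw⟩

/-- the inner block is in the open box -/
theorem blkS_sub_dyo {v : V} {k : Idx} {n : ℕ} (hn : k.1 < n) :
    blkS v k n ⊆ dyo v k.1 k.2 := by
  intro w hwb i
  obtain ⟨z, hz, hwz⟩ := mem_iUnion₂.1 hwb
  have p1 : (0:ℝ) < 1 / 2 ^ n := by positivity
  have e2 : (2:ℝ) ^ n = 2 ^ (n - k.1) * 2 ^ k.1 := by
    rw [← pow_add, Nat.sub_add_cancel hn.le]
  have h3 : ((2:ℝ) ^ (n - k.1) * k.2 i + 3) ≤ z i := by exact_mod_cast (hz i).1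
  have h3' : (z i : ℝ) + 4 ≤ (2:ℝ) ^ (n - k.1) * (k.2 i + 1) := by exact_mod_cast (hz i).2
  have h4 : (k.2 i : ℝ) / 2 ^ k.1 + 3 * (1 / 2 ^ n) ≤ (z i : ℝ) / 2 ^ n := by
    calc (k.2 i : ℝ) / 2 ^ k.1 + 3 * (1 / 2 ^ n)
        = ((2:ℝ) ^ (n - k.1) * k.2 i + 3) / 2 ^ n := by
          rw [e2]
          field_simp
      _ ≤ _ := by gcongr
  have h5 : ((z i : ℝ) + 1) / 2 ^ n + 3 * (1 / 2 ^ n) ≤ ((k.2 i : ℝ) + 1) / 2 ^ k.1 := by
    calc ((z i : ℝ) + 1) / 2 ^ n + 3 * (1 / 2 ^ n) = ((z i : ℝ) + 4) / 2 ^ n := by ring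
      _ ≤ ((2:ℝ) ^ (n - k.1) * (k.2 i + 1)) / 2 ^ n := by gcongr
      _ = _ := by
          rw [e2]
          field_simp
  have h6 := hwz i
  constructor <;> linarith [h6.1, h6.2]

/-- there is a passive cube in every box -/
theorem exists_passive {Ω : Set V} {v : V} {H : V → ℝ≥0∞} {K I : Set Idx} {n N N' : Idx → ℕ}
    {r : V → ℝ} {ε : ℝ≥0∞} {tol : Idx → ℝ≥0∞} (Dm : Dom Ω v H K n N r ε tol I N') {k : Idx}
    (hk : k ∈ K) (hkΩ : dyc v k.1 k.2 ⊆ Ω) (hn : k.1 < n k) (hN : n k + 2 ≤ N k) :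
    ∃ q ∈ I, dyc v q.1 q.2 ⊆ dyc v k.1 k.2 ∧ q.1 = N' k ∧
      Disjoint (dyc v q.1 q.2) (blkS v k (n k)) := by
  have p1 : (0:ℝ) < 1 / 2 ^ n k := by positivity
  have p2 : (2:ℝ) * (1 / 2 ^ n k) ≤ 1 / 2 ^ k.1 := by
    have h1 : (2:ℝ) ^ (k.1 + 1) ≤ 2 ^ n k := pow_le_pow_right₀ (by norm_num) hn
    rw [mul_one_div, div_le_div_iff₀ (by positivity) (by positivity)]
    rw [pow_succ] at h1
    linarith
  set y : V := fun i => v i + (k.2 i : ℝ) / 2 ^ k.1 + 1 / 2 * (1 / 2 ^ n k) with hy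
  have hyk : y ∈ dyo v k.1 k.2 := by
    intro i
    have e1 : v i + ((k.2 i : ℝ) + 1) / 2 ^ k.1 = v i + (k.2 i : ℝ) / 2 ^ k.1 + 1 / 2 ^ k.1 := by
      ring
    simp only [hy]
    rw [e1]
    constructor <;> linarith
  have hko : IsOpen (dyo v k.1 k.2) := H333.isOpen_dyo v k.1 k.2
  have hyk' : y ∈ dyc v k.1 k.2 := by
    rw [← H333.closure_dyo]
    exact subset_closure hyk
  obtain ⟨q, hq, hyq⟩ := Dm.part.cover y (hkΩ hyk')
  have hsub : dyc v q.1 q.2 ⊆ dyc v k.1 k.2 := by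
    rcases Dm.box q hq k hk with h | h
    · exact h
    · obtain ⟨w, hw1, hw2⟩ := dyc_meet hyq hko hyk
      exact absurd (by rw [← H333.closure_dyo]; exact subset_closure hw2)
        (Set.disjoint_left.1 h hw1)
  refine ⟨q, hq, hsub, ?_⟩
  rcases Dm.out k hk q hq hsub with h | h
  · exfalso
    obtain ⟨hqN, w, hw, hwb⟩ := h
    obtain ⟨z, hz, hwz⟩ := mem_iUnion₂.1 hwb
    have h1 := (hz 0).1
    have h2 : (v 0 + (z 0 : ℝ) / 2 ^ n k) ≤ w 0 := (hwz 0).1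
    have h3 : ((2:ℝ) ^ (n k - k.1) * k.2 0 + 3) ≤ z 0 := by exact_mod_cast h1
    have h4 : (k.2 0 : ℝ) / 2 ^ k.1 + 3 * (1 / 2 ^ n k) ≤ (z 0 : ℝ) / 2 ^ n k := by
      have e2 : (2:ℝ) ^ n k = 2 ^ (n k - k.1) * 2 ^ k.1 := by
        rw [← pow_add, Nat.sub_add_cancel hn.le]
      calc (k.2 0 : ℝ) / 2 ^ k.1 + 3 * (1 / 2 ^ n k)
          = ((2:ℝ) ^ (n k - k.1) * k.2 0 + 3) / 2 ^ n k := by
            rw [e2]
            field_simp
        _ ≤ _ := by gcongr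
    have h5 := (hyq 0).1
    have h6 := (hw 0).2
    have h7 : (1:ℝ) / 2 ^ q.1 ≤ 1 / 2 ^ n k := by
      apply one_div_le_one_div_of_le (by positivity)
      exact pow_le_pow_right₀ (by norm_num) (by omega)
    have h8 : v 0 + ((q.2 0 : ℝ) + 1) / 2 ^ q.1 = v 0 + (q.2 0 : ℝ) / 2 ^ q.1 + 1 / 2 ^ q.1 := by
      ring
    rw [h8] at h6
    simp only [hy] at h5
    linarith
  · exact h

/-- the size function which forces the passive generations of the boxes to be large -/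
theorem exists_rfun {Ω : Set V} (hΩ : IsOpen Ω) {v : V} {K : Set Idx}
    (hfin : ∀ C ⊆ Ω, IsCompact C → {k ∈ K | (dyc v k.1 k.2 ∩ C).Nonempty}.Finite)
    (hsub : ∀ k ∈ K, dyc v k.1 k.2 ⊆ Ω)
    (hdisj : ∀ k ∈ K, ∀ k' ∈ K, k ≠ k' → Disjoint (dyo v k.1 k.2) (dyo v k'.1 k'.2))
    {nn : ℕ → ℕ} (hnn : StrictMono nn) (l₀ : Idx → ℕ) :
    ∃ r : V → ℝ, LBOn Ω r ∧
      ∀ {H : V → ℝ≥0∞} {n N : Idx → ℕ} {r₁ : V → ℝ} {ε : ℝ≥0∞} {tol : Idx → ℝ≥0∞} {I : Set Idx}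
        {N' : Idx → ℕ}, Dom Ω v H K n N r₁ ε tol I N' → (∀ y, r₁ y ≤ r y) →
        (∀ k ∈ K, k.1 < n k ∧ n k + 2 ≤ N k) → ∀ k ∈ K, ∀ l, N' k = nn l → l₀ k ≤ l := by
  obtain ⟨m, hmc, hm0, -, hmK⟩ := H333.exists_gauge hΩ (v := v) (J := K) hfin
    (σ := fun _ => 1) continuousOn_const (fun _ _ => one_pos) (a := fun k => 1 / 2 ^ nn (l₀ k))
    (fun _ _ => by positivity)
  refine ⟨m, ?_, ?_⟩
  · intro x hx
    refine ⟨m x / 2, half_pos (hm0 x hx), ?_⟩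
    have h3 : ∀ᶠ y in 𝓝[Ω] x, m x / 2 < m y :=
      (hmc x hx).eventually (lt_mem_nhds (half_lt_self (hm0 x hx)))
    filter_upwards [eventually_nhdsWithin_iff.1 h3] with y hy hyΩ using (hy hyΩ).le
  · intro H n N r₁ ε tol I N' Dm hr hnN k hk l hl
    obtain ⟨q, hq, hsq, hqN, hdis⟩ := exists_passive Dm hk (hsub k hk) (hnN k hk).1 (hnN k hk).2
    have hne : (dyc v q.1 q.2).Nonempty := ⟨_, P86.dyo_sub_dyc (P86.cen_mem v q.1 q.2)⟩
    obtain ⟨y, hy⟩ := hne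
    have hnear : ∀ k' ∈ K, ¬ IsNear v n N k' q := by
      intro k' hk' hcon
      by_cases hkk : k' = k
      · subst hkk
        obtain ⟨-, w, hw, hwb⟩ := hcon
        exact Set.disjoint_left.1 hdis hw hwb
      · obtain ⟨-, w, hw, hwb⟩ := hcon
        obtain ⟨w', hw1, hw2⟩ := dyc_meet (hsq hw) (H333.isOpen_dyo v k'.1 k'.2)
          (blkS_sub_dyo (hnN k' hk').1 hwb)
        exact Set.disjoint_left.1 (hdisj k hk k' hk' (Ne.symm hkk)) hw1 hw2
    have h1 := Dm.small q hq hnear y hy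
    have h2 := (h1.trans (hr y)).trans (hmK k hk y (hsub k hk (hsq hy)) (hsq hy))
    rw [hqN, hl] at h2
    have h3 : (2:ℝ) ^ nn (l₀ k) ≤ 2 ^ nn l := by
      rwa [div_le_div_iff₀ (by positivity) (by positivity), one_mul, one_mul] at h2
    have h4 : nn (l₀ k) ≤ nn l := (pow_le_pow_iff_right₀ (by norm_num)).1 h3
    exact hnn.le_iff_le.1 h4

end Vale.Agent.P073.H304
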