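import Vale.Agent.P073.H304.R1Sum
import Vale.Agent.P073.H687.MinSqEdge
import Vale.Agent.P073.H193.Refine

/-!
# P073, branch B: the mesh sum of a cell, and refinements of the partition
-/

open Set Metric Topology Filter MeasureTheory
open scoped ENNReal

namespace Vale.Agent.P073.H304

open Vale.Agent.P073
open Vale.Agent.P073.St (V)
open Vale.Agent.P073.SQ (ev)
open Vale.Agent.P073.H73 (MinEdge segP)
open Vale.Agent.P073.AB Vale.Agent.P073.AB.P86
open Vale.Agent.P073.H194 (refine Big cellT)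
open Vale.Agent.P073.H193 (refine_cases specRefine exists_sub q_eq)
open _root_.P073.Net (dyc dyo)

variable {Ω : Set V} {v : V} {I P B : Set Idx} {n : Idx → ℕ}

/-! ### Minimal squares and edges of a refinement -/

/-- the divided cubes are covered by the cells inside -/
theorem exists_cell_in (hI : Part Ω v I) (hB : Big v I P B n) {q : Idx} (hq : q ∈ I \ P)
    {x : V} (hx : x ∈ dyc v q.1 q.2) :
    ∃ r ∈ refine v I P B n, x ∈ dyc v r.1 r.2 ∧ dyc v r.1 r.2 ⊆ dyc v q.1 q.2 := by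
  obtain ⟨z, hz, hzq⟩ := exists_sub (hB.gen q hq) hx
  by_cases hb : ∃ b ∈ B, dyc v (n q) z ⊆ dyc v b.1 b.2
  · obtain ⟨b, hb, hzb⟩ := hb
    refine ⟨b, Or.inl (Or.inr hb), hzb hz, ?_⟩
    obtain ⟨q', hq', h1, -⟩ := hB.big b hb
    have h2 := h1.trans (dyo_sub_dyc (v := v))
    have h3 : q = q' := q_eq hI hq.1 hq'.1 hzq (hzb.trans h2)
    rwa [← h3] at h2
  · push Not at hb
    exact ⟨(n q, z), Or.inr ⟨q, hq, rfl, hzq, hb⟩, hz, hzq⟩

/-- a minimal square of the refinement is in a divided cube, or it is a minimal square of the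
partition -/
theorem minSq_refine (hΩ : IsOpen Ω) (hI : Part Ω v I) (hB : Big v I P B n) {s : Idx × Fin 3}
    (hs : MinSq v (refine v I P B n) s) :
    (∃ q ∈ I \ P, squ v s ⊆ dyc v q.1 q.2) ∨ MinSq v I s := by
  obtain ⟨qp, qm, h⟩ := two_of_minSq hΩ (specRefine Ω v I P B n hΩ hI hB) hs
  rcases refine_cases hB h.memp with hp | ⟨q, hq, hp, -⟩
  · rcases refine_cases hB h.memm with hm | ⟨q, hq, hm, -⟩
    · right
      refine minSq_of_two hI ⟨hB.sub hp, hB.sub hm, h.subp, h.subm⟩ ?_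
      obtain ⟨q0, hq0, hf⟩ := hs.1
      rcases H687.eq_of_squ_sub (specRefine Ω v I P B n hΩ hI hB) h hq0
        (H687.face_sub_dyc hf) with rfl | rfl
      · exact ⟨_, hB.sub hp, hf⟩
      · exact ⟨_, hB.sub hm, hf⟩
    · left
      exact ⟨q, hq, squ_sub_lo.trans (h.subm.trans hm)⟩
  · left
    exact ⟨q, hq, squ_sub_hi.trans (h.subp.trans hp)⟩

/-- the length of an edge in a cube -/
theorem edge_gen_le {e : Idx × Fin 3} {q : Idx} (h : edge v e ⊆ dyc v q.1 q.2) :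
    q.1 ≤ e.1.1 := by
  have h1 := h (left_mem_segment ℝ _ _) e.2
  have h2 := h (right_mem_segment ℝ _ _) e.2
  have e1 : (pt v e.1.1 e.1.2 + (1 / 2 ^ e.1.1 : ℝ) • ev e.2) e.2 =
      pt v e.1.1 e.1.2 e.2 + 1 / 2 ^ e.1.1 := by
    simp [_root_.P073.Gauge.C110.ev_apply]
  rw [e1] at h2
  have h3 : (1:ℝ) / 2 ^ e.1.1 ≤ 1 / 2 ^ q.1 := by
    have h4 : ((q.2 e.2 : ℝ) + 1) / 2 ^ q.1 = q.2 e.2 / 2 ^ q.1 + 1 / 2 ^ q.1 := add_div _ _ _
    linarith [h1.1, h2.2]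
  by_contra hlt
  push Not at hlt
  have h5 : (1:ℝ) / 2 ^ q.1 < 1 / 2 ^ e.1.1 :=
    one_div_lt_one_div_of_lt (by positivity) (pow_lt_pow_right₀ (by norm_num) hlt)
  linarith

/-- a minimal edge of the refinement is in a divided cube, or it is a minimal edge of the
partition -/
theorem minEdge_refine (hI : Part Ω v I) (hB : Big v I P B n) {e : Idx × Fin 3}
    (he : MinEdge v (refine v I P B n) e) :
    (∃ q ∈ I \ P, edge v e ⊆ dyc v q.1 q.2) ∨ MinEdge v I e := by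
  obtain ⟨q0, hq0, he0⟩ := he.1
  rcases refine_cases hB hq0 with hp | ⟨q, hq, hp, -⟩
  · right
    refine ⟨⟨q0, hB.sub hp, he0⟩, ?_⟩
    rintro e' ⟨q', hq', he'⟩ hgt hsub
    by_cases hP : q' ∈ P
    · exact he.2 e' ⟨q', Or.inl (Or.inl hP), he'⟩ hgt hsub
    · obtain ⟨h1, h2, h3⟩ := Gr.mid_spec v e'
      obtain ⟨r, hr, hxr, hrq⟩ := exists_cell_in hI hB ⟨hq', hP⟩ (Gr.edge_subset_dyc he' h1)
      have hx : Gr.mid v e' ∈ edge v e := hsub h1
      -- the midpoint is an inner point of the long edge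
      have ha := hsub (left_mem_segment ℝ _ _)
      have hb := hsub (right_mem_segment ℝ _ _)
      rw [Gr.mem_edge] at ha hb
      have hk : e'.2 = e.2 := by
        by_contra hne
        have h4 := ha.1 e'.2 hne
        have h5 := hb.1 e'.2 hne
        have e1 : (pt v e'.1.1 e'.1.2 + (1 / 2 ^ e'.1.1 : ℝ) • ev e'.2) e'.2 =
            pt v e'.1.1 e'.1.2 e'.2 + 1 / 2 ^ e'.1.1 := by
          simp [_root_.P073.Gauge.C110.ev_apply]
        rw [e1, h4] at h5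
        have : (0:ℝ) < 1 / 2 ^ e'.1.1 := by positivity
        linarith
      have h6 : v e.2 + (e.1.2 e.2 : ℝ) / 2 ^ e.1.1 ≤ v e.2 + e'.1.2 e.2 / 2 ^ e'.1.1 := by
        have := ha.2.1
        simpa [pt] using this
      have h7 : v e.2 + ((e'.1.2 e.2 : ℝ) + 1) / 2 ^ e'.1.1 ≤
          v e.2 + (e.1.2 e.2 + 1) / 2 ^ e.1.1 := by
        have h8 := hb.2.2
        have e1 : (pt v e'.1.1 e'.1.2 + (1 / 2 ^ e'.1.1 : ℝ) • ev e'.2) e.2 =
            v e.2 + ((e'.1.2 e.2 : ℝ) + 1) / 2 ^ e'.1.1 := by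
          rw [← hk]
          simp [pt, _root_.P073.Gauge.C110.ev_apply]
          ring
        rwa [e1] at h8
      rw [hk] at h2 h3
      have h9 := H687.edge_sub_of_inner he hr hx (h6.trans_lt h2) (h3.trans_le h7) hxr
      have h10 := edge_gen_le (h9.trans hrq)
      have h11 : e'.1.1 = q'.1 := he'.1
      omega
  · left
    exact ⟨q, hq, (Gr.edge_subset_dyc he0).trans hp⟩

/-! ### The mesh sum -/

/-- the sum over the minimal edges of the minimal squares of the cell `i` -/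
noncomputable def meshsum (p : ℝ) (v : V) (I : Set Idx) (ℓ : Idx × Fin 3 → ℝ≥0∞) (i : Idx) :
    ℝ≥0∞ :=
  ∑' s : {s : Idx × Fin 3 // MinSq v I s ∧ squ v s ⊆ dyc v i.1 i.2},
    ∑' e : {e : Idx × Fin 3 // MinEdge v I e ∧ edge v e ⊆ squ v s.1},
      ENNReal.ofReal (1 / 2 ^ i.1 * (1 / 2 ^ s.1.1.1)) *
        (ENNReal.ofReal ((1 / 2 ^ e.1.1.1) ^ (1 - p)) * ℓ e.1 ^ p)

theorem tsum_sub_le' {α : Type*} {Q Q' : α → Prop} {g g' : α → ℝ≥0∞}
    (h : ∀ a, Q a → g a ≠ 0 → Q' a ∧ g a ≤ g' a) :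
    ∑' a : {a // Q a}, g a.1 ≤ ∑' a : {a // Q' a}, g' a.1 := by
  classical
  have e1 : ∑' a : {a // Q a}, g a.1 = ∑' a, {a | Q a}.indicator g a := tsum_subtype {a | Q a} g
  have e2 : ∑' a : {a // Q' a}, g' a.1 = ∑' a, {a | Q' a}.indicator g' a :=
    tsum_subtype {a | Q' a} g'
  rw [e1, e2]
  refine ENNReal.tsum_le_tsum fun a => ?_
  by_cases ha : Q a
  · rw [indicator_of_mem (show a ∈ {a | Q a} from ha)]
    by_cases h0 : g a = 0
    · rw [h0]; exact bot_le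
    · obtain ⟨h1, h2⟩ := h a ha h0
      rwa [indicator_of_mem (show a ∈ {a | Q' a} from h1)]
  · rw [indicator_of_notMem (show a ∉ {a | Q a} from ha)]
    exact bot_le

theorem meshsum_mono {p : ℝ} (hp : 0 ≤ p) {ℓ ℓ' : Idx × Fin 3 → ℝ≥0∞} {i : Idx}
    (h : ∀ e, MinEdge v I e → edge v e ⊆ dyc v i.1 i.2 → ℓ e ≤ ℓ' e) :
    meshsum p v I ℓ i ≤ meshsum p v I ℓ' i := by
  unfold meshsum
  refine ENNReal.tsum_le_tsum fun s => ENNReal.tsum_le_tsum fun e => ?_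
  gcongr
  exact h e.1 e.2.1 (e.2.2.trans s.2.2)

/-- Lipschitz edges -/
theorem meshsum_le_lip {p : ℝ} (hp : 1 ≤ p) (hΩ : IsOpen Ω) (hI : Part Ω v I)
    {ℓ : Idx × Fin 3 → ℝ≥0∞} {i : Idx} (hi : i ∈ I) {K : ℝ≥0∞}
    (h : ∀ e, MinEdge v I e → edge v e ⊆ dyc v i.1 i.2 →
      ℓ e ≤ K * ENNReal.ofReal (1 / 2 ^ e.1.1)) :
    meshsum p v I ℓ i ≤ 24 * K ^ p * ENNReal.ofReal ((1 / 2 ^ i.1) ^ 3) := by
  have h1 := H687.cell_sum_le hp hΩ hI i (fun _ => K) ℓ fun s _ hs2 e he hes => by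
    refine (h e he (hes.trans hs2)).trans (le_of_eq ?_)
    unfold eInt
    rw [mul_comm]
    simp
  refine h1.trans ((cellT_le_sup hΩ hI hi (B := K ^ p) fun x _ => le_rfl).trans (le_of_eq ?_))
  rw [ENNReal.ofReal_mul (by norm_num : (0:ℝ) ≤ 24), ENNReal.ofReal_ofNat]
  ring

/-- the mesh sum with an additional term -/
theorem meshsum_add_le {p : ℝ} (hp : 1 ≤ p) {ℓ ℓ' : Idx × Fin 3 → ℝ≥0∞} {i : Idx} {c : ℝ≥0∞} :
    meshsum p v I (fun e => c * ℓ e + ℓ' e) i ≤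
      2 ^ (p - 1) * (c ^ p * meshsum p v I ℓ i + meshsum p v I ℓ' i) := by
  unfold meshsum
  rw [← ENNReal.tsum_mul_left, ← ENNReal.tsum_add, ← ENNReal.tsum_mul_left]
  refine ENNReal.tsum_le_tsum fun s => ?_
  rw [← ENNReal.tsum_mul_left, ← ENNReal.tsum_add, ← ENNReal.tsum_mul_left]
  refine ENNReal.tsum_le_tsum fun e => ?_
  have h1 := ENNReal.rpow_add_le_mul_rpow_add_rpow (c * ℓ e.1) (ℓ' e.1) hp
  rw [ENNReal.mul_rpow_of_nonneg _ _ (by linarith : (0:ℝ) ≤ p)] at h1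
  calc _ ≤ ENNReal.ofReal (1 / 2 ^ i.1 * (1 / 2 ^ s.1.1.1)) *
        (ENNReal.ofReal ((1 / 2 ^ e.1.1.1) ^ (1 - p)) *
          (2 ^ (p - 1) * (c ^ p * ℓ e.1 ^ p + ℓ' e.1 ^ p))) := by gcongr
    _ = _ := by ring

/-- **a cell which is not divided**: the edges in divided cubes are Lipschitz, the others are edges
of the partition -/
theorem meshsum_refine_le {p : ℝ} (hp : 1 ≤ p) (hΩ : IsOpen Ω) (hI : Part Ω v I)
    (hB : Big v I P B n) {ℓ ℓ' : Idx × Fin 3 → ℝ≥0∞} {i : Idx} (hi : i ∈ refine v I P B n)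
    {K : ℝ≥0∞}
    (hD : ∀ e, MinEdge v (refine v I P B n) e → edge v e ⊆ dyc v i.1 i.2 →
      (∃ q ∈ I \ P, edge v e ⊆ dyc v q.1 q.2) → ℓ' e ≤ K * ENNReal.ofReal (1 / 2 ^ e.1.1))
    (hN : ∀ e, MinEdge v I e → edge v e ⊆ dyc v i.1 i.2 →
      (¬ ∃ q ∈ I \ P, edge v e ⊆ dyc v q.1 q.2) → ℓ' e ≤ ℓ e) :
    meshsum p v (refine v I P B n) ℓ' i ≤
      meshsum p v I ℓ i + 24 * K ^ p * ENNReal.ofReal ((1 / 2 ^ i.1) ^ 3) := by
  classical
  have hp0 : 0 < p := by linarith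
  have hI₂ := specRefine Ω v I P B n hΩ hI hB
  set D : Idx × Fin 3 → Prop := fun e => ∃ q ∈ I \ P, edge v e ⊆ dyc v q.1 q.2 with hDdef
  have h1 : meshsum p v (refine v I P B n) ℓ' i ≤
      meshsum p v (refine v I P B n) (fun e => if D e then 0 else ℓ' e) i +
      meshsum p v (refine v I P B n) (fun e => if D e then ℓ' e else 0) i := by
    unfold meshsum
    rw [← ENNReal.tsum_add]
    refine ENNReal.tsum_le_tsum fun s => ?_
    rw [← ENNReal.tsum_add]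
    refine ENNReal.tsum_le_tsum fun e => ?_
    by_cases h : D e.1
    · simp only [h, if_true]
      exact le_add_self
    · simp only [h, if_false]
      exact le_self_add
  refine h1.trans (add_le_add ?_ ?_)
  · unfold meshsum
    refine tsum_sub_le' (g := fun s : Idx × Fin 3 =>
      ∑' e : {e : Idx × Fin 3 // MinEdge v (refine v I P B n) e ∧ edge v e ⊆ squ v s},
        ENNReal.ofReal (1 / 2 ^ i.1 * (1 / 2 ^ s.1.1)) *
          (ENNReal.ofReal ((1 / 2 ^ e.1.1.1) ^ (1 - p)) * (if D e.1 then 0 else ℓ' e.1) ^ p))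
      (g' := fun s : Idx × Fin 3 =>
      ∑' e : {e : Idx × Fin 3 // MinEdge v I e ∧ edge v e ⊆ squ v s},
        ENNReal.ofReal (1 / 2 ^ i.1 * (1 / 2 ^ s.1.1)) *
          (ENNReal.ofReal ((1 / 2 ^ e.1.1.1) ^ (1 - p)) * ℓ e.1 ^ p)) ?_
    rintro s ⟨hs1, hs2⟩ hne
    rcases minSq_refine hΩ hI hB hs1 with ⟨q, hq, hsq⟩ | hs3
    · exfalso
      apply hne
      rw [ENNReal.tsum_eq_zero]
      intro e
      have h2 : D e.1 := ⟨q, hq, e.2.2.trans hsq⟩
      simp [h2, hp0]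
    · refine ⟨⟨hs3, hs2⟩, ?_⟩
      refine tsum_sub_le' (g := fun e : Idx × Fin 3 =>
        ENNReal.ofReal (1 / 2 ^ i.1 * (1 / 2 ^ s.1.1)) *
          (ENNReal.ofReal ((1 / 2 ^ e.1.1) ^ (1 - p)) * (if D e then 0 else ℓ' e) ^ p))
        (g' := fun e : Idx × Fin 3 => ENNReal.ofReal (1 / 2 ^ i.1 * (1 / 2 ^ s.1.1)) *
          (ENNReal.ofReal ((1 / 2 ^ e.1.1) ^ (1 - p)) * ℓ e ^ p)) ?_
      rintro e ⟨he1, he2⟩ hne'
      by_cases hDe : D e
      · exfalso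
        apply hne'
        simp [hDe, hp0]
      · rcases minEdge_refine hI hB he1 with h2 | h2
        · exact absurd h2 hDe
        · refine ⟨⟨h2, he2⟩, ?_⟩
          simp only [hDe, if_false]
          gcongr
          exact hN e h2 (he2.trans hs2) hDe
  · refine meshsum_le_lip hp hΩ hI₂ hi fun e he hei => ?_
    by_cases hDe : D e
    · simp only [hDe, if_true]
      exact hD e he hei hDe
    · simp only [hDe, if_false]
      exact bot_le

end Vale.Agent.P073.H304
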