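import Vale.Agent.P073.H304.Round1All

/-!
# P073, branch B: Round 1, all blocks
-/

open Set Metric Topology
open scoped ENNReal

namespace Vale.Agent.P073.H304

open Vale.Agent.P073
open Vale.Agent.P073.St (V)
open Vale.Agent.P073.H73 (Mesh ctr)
open _root_.P073 (ConHomeo)

/-- The blocks of Round 1: for each `k` the affine map `af (L k) (b k)`, the generation `n k`, the
cells `B k`, the width `c₀ k` of the zone, a cube in the coordinates `k` which contains the zone,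
the protected and the drawn cells. -/
structure Blocks {Ω : Set V} (Λ : Set V) (J : ℝ → ℕ) (Δ : ℝ → ℝ) (v : V) (M : Mesh Ω)
    (h : V → V) where
  K : Type
  L : K → V ≃L[ℝ] V
  b : K → V
  n : K → ℕ
  B : K → Set (Fin 3 → ℤ)
  c₀ : K → ℝ
  a : K → V
  r : K → ℝ
  P : K → Set M.ι
  Z : K → Set M.ι
  pos : ∀ k, 0 < c₀ k
  le : ∀ k, c₀ k ≤ 1 / 64
  inp : ∀ k, In1 (1 / 2 ^ J (c₀ k)) (Δ (c₀ k)) (c₀ k) v (n k) (B k) (af (L k) (b k) ⁻¹' Λ) M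
    (afi (L k) (b k) ∘ h) (P k) (Z k)
  rpos : ∀ k, 0 < r k
  zone : ∀ k, Nb v (bl (n k) (B k)) (c₀ k) ⊆ ball (a k) (r k)
  sub : ∀ k, closedBall (a k) (r k) ⊆ af (L k) (b k) ⁻¹' Λ
  dis : ∀ k l, k ≠ l → Disjoint (af (L k) (b k) '' closedBall (a k) (r k))
    (af (L l) (b l) '' closedBall (a l) (r l))
  lf : ∀ y ∈ Λ, ∃ O ∈ 𝓝 y, {k | (af (L k) (b k) '' closedBall (a k) (r k) ∩ O).Nonempty}.Finite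

/-- The output of Round 1: in the cube `k` the new map is `af (L k) (b k) ∘ g k`, where `g k` has
all properties `Out`; nothing changes outside of the zones. -/
structure R1Out {Ω Λ : Set V} {J : ℝ → ℕ} {Δ : ℝ → ℝ} {v : V} {M : Mesh Ω} {h : V → V}
    (p D : ℝ) (Mg : ℝ → ℝ) (𝓑 : Blocks Λ J Δ v M h) (ε : M.κ → ℝ) (h₁ : ConHomeo Ω Λ)
    (g : ∀ k, ConHomeo Ω (af (𝓑.L k) (𝓑.b k) ⁻¹' Λ)) : Prop where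
  out : ∀ k, OutB p D D (1 / 2 ^ J (𝓑.c₀ k)) (𝓑.c₀ k) (Mg (𝓑.c₀ k)) v
    (szf (af (𝓑.L k) (𝓑.b k) ⁻¹' Λ) (𝓑.n k)) M (afi (𝓑.L k) (𝓑.b k) ∘ h) (bl (𝓑.n k) (𝓑.B k)) (bl (𝓑.n k) (𝓑.B k)) (𝓑.P k) (𝓑.Z k) ∅ ε (g k)
  osc1 : ∀ k, OscOut D D (𝓑.c₀ k) v M (afi (𝓑.L k) (𝓑.b k) ∘ h) (bl (𝓑.n k) (𝓑.B k)) (𝓑.P k)
    (𝓑.Z k) ∅ (g k).toFun
  eq : ∀ k, ∀ x ∈ Ω, afi (𝓑.L k) (𝓑.b k) (h x) ∈ closedBall (𝓑.a k) (𝓑.r k) →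
    h₁.toFun x = af (𝓑.L k) (𝓑.b k) ((g k).toFun x)
  off : ∀ x ∈ Ω, (∀ k, afi (𝓑.L k) (𝓑.b k) (h x) ∉ Nb v (bl (𝓑.n k) (𝓑.B k)) (𝓑.c₀ k)) →
    h₁.toFun x = h x

/-- **[R1]** Round 1 -/
theorem round1_all {p : ℝ} (hK : K3C p) :
    ∃ (D : ℝ) (J : ℝ → ℕ) (Δ Mg : ℝ → ℝ), 0 < D ∧
      (∀ c₀, 0 < c₀ → c₀ ≤ 1 / 64 → 1 / 2 ^ J c₀ < c₀ ∧ 0 < Δ c₀ ∧ 0 < Mg c₀ ∧ Mg c₀ ≤ c₀) ∧
      ∀ (Ω Λ : Set V), St.IsBoundedDomain Ω → St.IsBoundedDomain Λ →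
      ∀ (v : V) (M : Mesh Ω) (h : ConHomeo Ω Λ) (𝓑 : Blocks Λ J Δ v M h.toFun) (ε : M.κ → ℝ),
        (∀ k, 0 < ε k) → ∃ h₁ g, R1Out p D Mg 𝓑 ε h₁ g := by
  classical
  obtain ⟨D, hD, H⟩ := round1 hK
  choose! J hJ Δ hΔ Mg hM hMc H using H
  refine ⟨D, J, Δ, Mg, hD, fun c₀ h1 h2 =>
    ⟨hJ c₀ h1 h2, hΔ c₀ h1 h2, hM c₀ h1 h2, hMc c₀ h1 h2⟩, ?_⟩
  intro Ω Λ hΩ hΛ v M h 𝓑 ε hε
  have h1 : ∀ k, ∃ g : ConHomeo Ω (af (𝓑.L k) (𝓑.b k) ⁻¹' Λ),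
      OutB p D D (1 / 2 ^ J (𝓑.c₀ k)) (𝓑.c₀ k) (Mg (𝓑.c₀ k)) v
        (szf (af (𝓑.L k) (𝓑.b k) ⁻¹' Λ) (𝓑.n k)) M (afi (𝓑.L k) (𝓑.b k) ∘ h.toFun) (bl (𝓑.n k) (𝓑.B k)) (bl (𝓑.n k) (𝓑.B k)) (𝓑.P k)
        (𝓑.Z k) ∅ ε g ∧ OscOut D D (𝓑.c₀ k) v M (afi (𝓑.L k) (𝓑.b k) ∘ h.toFun)
        (bl (𝓑.n k) (𝓑.B k)) (𝓑.P k) (𝓑.Z k) ∅ g.toFun := fun k =>
    H _ (𝓑.pos k) (𝓑.le k) Ω Λ hΩ hΛ (𝓑.L k) (𝓑.b k) v (𝓑.n k) (𝓑.B k) M h (𝓑.P k) (𝓑.Z k)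
      (𝓑.inp k) ε hε
  choose g hg using h1
  obtain ⟨h₁, e1, e2⟩ := exists_glue_af hΩ.1 hΛ.1 h 𝓑.L 𝓑.b 𝓑.a 𝓑.r 𝓑.rpos 𝓑.sub 𝓑.dis 𝓑.lf g
    fun k x hx hb => (hg k).1.off x hx fun hn => hb (𝓑.zone k hn)
  refine ⟨h₁, g, fun k => (hg k).1, fun k => (hg k).2, e1, fun x hx hn => ?_⟩
  by_cases hb : ∀ k, afi (𝓑.L k) (𝓑.b k) (h.toFun x) ∉ ball (𝓑.a k) (𝓑.r k)
  · exact e2 x hx hb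
  · push Not at hb
    obtain ⟨k, hk⟩ := hb
    rw [e1 k x hx (ball_subset_closedBall hk), (hg k).1.off x hx (hn k)]
    exact af_afi _ _ _

end Vale.Agent.P073.H304
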