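import Vale.Agent.P073.H304.Darb
import Vale.Agent.P073.H687.MinSum
import Vale.Agent.P073.H687.Area
import Vale.Agent.P073.H194.MeshLoc

/-!
# P073, branch B: edge sums of a bounded upper semicontinuous function over the cubes of one
generation in a dyadic cube
-/

open Set Metric Topology Filter MeasureTheory
open scoped ENNReal

namespace Vale.Agent.P073.H304

open Vale.Agent.P073
open Vale.Agent.P073.St (V)
open Vale.Agent.P073.SQ (ev)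
open Vale.Agent.P073.AB
open Vale.Agent.P073.H194 (cellT)
open _root_.P073.Net (dyc dyo)

variable {Ω : Set V} {v : V} {I : Set Idx}

theorem eInt_le_sup {e : Idx × Fin 3} {H : V → ℝ≥0∞} {B : ℝ≥0∞}
    (hB : ∀ t ∈ Icc (0:ℝ) 1, H (pt v e.1.1 e.1.2 + t • ((1 / 2 ^ e.1.1 : ℝ) • ev e.2)) ≤ B) :
    eInt v e H ≤ ENNReal.ofReal (1 / 2 ^ e.1.1) * B := by
  unfold eInt
  gcongr
  calc ∫⁻ t in Icc (0:ℝ) 1, H (pt v e.1.1 e.1.2 + t • ((1 / 2 ^ e.1.1 : ℝ) • ev e.2))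
      ≤ ∫⁻ _t in Icc (0:ℝ) 1, B := setLIntegral_mono' measurableSet_Icc hB
    _ = B := by simp

/-- the weighted edge sum of a cell is bounded by the supremum -/
theorem cellT_le_sup (hΩ : IsOpen Ω) (hI : Part Ω v I) {i : Idx} (hi : i ∈ I) {H : V → ℝ≥0∞}
    {B : ℝ≥0∞} (hB : ∀ x ∈ dyc v i.1 i.2, H x ≤ B) :
    cellT v I univ H i ≤ ENNReal.ofReal (24 * (1 / 2 ^ i.1) ^ 3) * B := by
  have h1 : ∀ F : {F : Idx × Fin 3 // MinSq v I F ∧ squ v F ⊆ dyc v i.1 i.2 ∧ squ v F ⊆ univ},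
      ∑' e : {e : Idx × Fin 3 // EdgeOfSq e F.1},
        ENNReal.ofReal (1 / 2 ^ i.1 * (1 / 2 ^ F.1.1.1)) * eInt v e.1 H ≤
      ENNReal.ofReal (4 * (1 / 2 ^ i.1)) * B * ENNReal.ofReal ((1 / 2 ^ F.1.1.1) ^ 2) := by
    intro F
    rw [H687.tsum_sqE F.1 fun e => ENNReal.ofReal (1 / 2 ^ i.1 * (1 / 2 ^ F.1.1.1)) * eInt v e H]
    have h2 : ∀ e ∈ sqE F.1, ENNReal.ofReal (1 / 2 ^ i.1 * (1 / 2 ^ F.1.1.1)) * eInt v e H ≤
        ENNReal.ofReal (1 / 2 ^ i.1) * B * ENNReal.ofReal ((1 / 2 ^ F.1.1.1) ^ 2) := by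
      intro e he
      rw [mem_sqE] at he
      have h3 : eInt v e H ≤ ENNReal.ofReal (1 / 2 ^ F.1.1.1) * B := by
        have h4 := eInt_le_sup (v := v) (e := e) (H := H) (B := B) fun t ht =>
          hB _ (F.2.2.1 (Vale.Agent.P073.H194.edgeOfSq_mem he ht))
        rwa [he.1] at h4
      calc ENNReal.ofReal (1 / 2 ^ i.1 * (1 / 2 ^ F.1.1.1)) * eInt v e H
          ≤ ENNReal.ofReal (1 / 2 ^ i.1 * (1 / 2 ^ F.1.1.1)) *
            (ENNReal.ofReal (1 / 2 ^ F.1.1.1) * B) := by gcongr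
        _ = ENNReal.ofReal (1 / 2 ^ i.1) * B * ENNReal.ofReal ((1 / 2 ^ F.1.1.1) ^ 2) := by
          rw [ENNReal.ofReal_mul (by positivity), pow_two, ENNReal.ofReal_mul (by positivity)]
          ring
    refine (Finset.sum_le_sum h2).trans ?_
    rw [Finset.sum_const, nsmul_eq_mul]
    have h5 : ((sqE F.1).card : ℝ≥0∞) ≤ 4 := by exact_mod_cast card_sqE_le F.1
    calc ((sqE F.1).card : ℝ≥0∞) * (ENNReal.ofReal (1 / 2 ^ i.1) * B *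
          ENNReal.ofReal ((1 / 2 ^ F.1.1.1) ^ 2))
        ≤ 4 * (ENNReal.ofReal (1 / 2 ^ i.1) * B * ENNReal.ofReal ((1 / 2 ^ F.1.1.1) ^ 2)) := by
          gcongr
      _ = _ := by
          rw [ENNReal.ofReal_mul (by norm_num : (0:ℝ) ≤ 4)]
          simp only [ENNReal.ofReal_ofNat]
          ring
  unfold cellT
  refine (ENNReal.tsum_le_tsum h1).trans ?_
  rw [ENNReal.tsum_mul_left]
  have h6 : ∑' F : {F : Idx × Fin 3 // MinSq v I F ∧ squ v F ⊆ dyc v i.1 i.2 ∧ squ v F ⊆ univ},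
      ENNReal.ofReal ((1 / 2 ^ F.1.1.1) ^ 2) ≤ ENNReal.ofReal (6 * (1 / 2 ^ i.1) ^ 2) :=
    (H687.tsum_sub_le (Q := fun s : Idx × Fin 3 => MinSq v I s ∧ squ v s ⊆ dyc v i.1 i.2 ∧
      squ v s ⊆ univ) (Q' := fun s : Idx × Fin 3 => MinSq v I s ∧ squ v s ⊆ dyc v i.1 i.2)
      (fun s h => ⟨h.1, h.2.1⟩) fun s => ENNReal.ofReal ((1 / 2 ^ s.1.1) ^ 2)).trans
      (H687.area_le hI hi hΩ)
  calc ENNReal.ofReal (4 * (1 / 2 ^ i.1)) * B * ∑' F : {F : Idx × Fin 3 // MinSq v I F ∧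
        squ v F ⊆ dyc v i.1 i.2 ∧ squ v F ⊆ univ}, ENNReal.ofReal ((1 / 2 ^ F.1.1.1) ^ 2)
      ≤ ENNReal.ofReal (4 * (1 / 2 ^ i.1)) * B * ENNReal.ofReal (6 * (1 / 2 ^ i.1) ^ 2) := by
        gcongr
    _ = ENNReal.ofReal (24 * (1 / 2 ^ i.1) ^ 3) * B := by
        have e : (24 : ℝ) * (1 / 2 ^ i.1) ^ 3 = 4 * (1 / 2 ^ i.1) * (6 * (1 / 2 ^ i.1) ^ 2) := by
          ring
        rw [e, ENNReal.ofReal_mul (by positivity : (0:ℝ) ≤ 4 * (1 / 2 ^ i.1))]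
        ring

/-- **[R1-SUM]** the weighted edge sums of `Φ` over all cells of generation `n` in the dyadic cube
`q` are bounded by the integral, for all large `n` -/
theorem r1_sum {m : ℕ} {z : Fin 3 → ℤ} {Φ : V → ℝ≥0∞}
    (hu : UpperSemicontinuousOn Φ (dyc v m z)) {B : ℝ≥0∞} (hB : B ≠ ⊤)
    (hΦ : ∀ x ∈ dyc v m z, Φ x ≤ B) {ε : ℝ≥0∞} (hε : ε ≠ 0) :
    ∀ᶠ n in atTop, ∀ (Ω : Set V) (I : Set Idx), IsOpen Ω → Part Ω v I →
      ∀ S : Finset (Fin 3 → ℤ), (∀ w ∈ S, (n, w) ∈ I ∧ dyc v n w ⊆ dyc v m z) →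
      ∑ w ∈ S, cellT v I univ Φ (n, w) ≤ 24 * ((∫⁻ x in dyc v m z, Φ x) + ε) := by
  filter_upwards [darb hu hB hΦ hε] with n hn
  intro Ω I hΩ hI S hS
  have h1 := hn S fun w hw => (hS w hw).2
  refine le_trans (Finset.sum_le_sum fun w hw => cellT_le_sup (B := ⨆ x ∈ dyc v n w, Φ x) hΩ hI
    (hS w hw).1 fun x hx => le_iSup₂_of_le (f := fun y (_ : y ∈ dyc v n w) => Φ y) x hx le_rfl) ?_
  have h2 : ∀ w, ENNReal.ofReal (24 * (1 / 2 ^ n) ^ 3) * ⨆ x ∈ dyc v n w, Φ x =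
      24 * (ENNReal.ofReal (1 / 8 ^ n) * ⨆ x ∈ dyc v n w, Φ x) := by
    intro w
    have e : (1 / 2 ^ n : ℝ) ^ 3 = 1 / 8 ^ n := by
      rw [div_pow, one_pow, ← pow_mul, mul_comm n 3, pow_mul]
      norm_num
    rw [e, ENNReal.ofReal_mul (by norm_num : (0:ℝ) ≤ 24), ENNReal.ofReal_ofNat, mul_assoc]
  show ∑ w ∈ S, ENNReal.ofReal (24 * (1 / 2 ^ n) ^ 3) * ⨆ x ∈ dyc v n w, Φ x ≤ _
  rw [Finset.sum_congr rfl fun w _ => h2 w, ← Finset.mul_sum]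
  gcongr

end Vale.Agent.P073.H304
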