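import Vale.Agent.P073.H304.K3C
import Vale.Agent.P073.Net.NC
import Vale.Agent.P073.Net.Push
import Vale.Agent.P073.AB.Sum308a

/-!
# P073, branch B, Round 1: the theorem with 3-cells in the coordinates of an affine map, around a
block of cells
-/

open Set Metric Topology
open scoped ENNReal

namespace Vale.Agent.P073.H304

open Vale.Agent.P073
open Vale.Agent.P073.St (V)
open Vale.Agent.P073.H73 (Mesh sqr ctr onSeg)
open _root_.P073 (ConHomeo ConicalOn)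
open _root_.P073.Net (len dyc dyo IsTile SizeFn Adm)

/-- the affine map `x ↦ L x + b` -/
def af (L : V ≃L[ℝ] V) (b x : V) : V := L x + b

/-- the inverse of `af L b` -/
def afi (L : V ≃L[ℝ] V) (b y : V) : V := L.symm (y - b)

@[simp] theorem af_afi (L : V ≃L[ℝ] V) (b y : V) : af L b (afi L b y) = y := by
  simp [af, afi]

@[simp] theorem afi_af (L : V ≃L[ℝ] V) (b x : V) : afi L b (af L b x) = x := by
  simp [af, afi]

theorem continuous_af (L : V ≃L[ℝ] V) (b : V) : Continuous (af L b) :=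
  L.continuous.add continuous_const

theorem continuous_afi (L : V ≃L[ℝ] V) (b : V) : Continuous (afi L b) :=
  L.symm.continuous.comp (continuous_id.sub continuous_const)

theorem conical_af (L : V ≃L[ℝ] V) (b : V) : ConicalOn (af L b) univ :=
  _root_.P073.conicalOn_clm_add (L : V →L[ℝ] V) b

variable {Ω Λ : Set V}

/-- `af L b` as a conical homeomorphism onto `Λ` -/
def afH (L : V ≃L[ℝ] V) (b : V) (hΛ : IsOpen Λ) : ConHomeo (af L b ⁻¹' Λ) Λ where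
  toFun := af L b
  invFun := afi L b
  mapsTo := fun _ hx => hx
  mapsTo_inv := fun y hy => by simpa using hy
  left_inv := fun x _ => afi_af L b x
  right_inv := fun y _ => af_afi L b y
  cont := (continuous_af L b).continuousOn
  cont_inv := (continuous_afi L b).continuousOn
  conical := (conical_af L b).mono (_root_.P073.IsOpen.conicalSet (hΛ.preimage (continuous_af L b)))
    (subset_univ _)

theorem isBoundedDomain_af (L : V ≃L[ℝ] V) (b : V) (hΛ : St.IsBoundedDomain Λ) :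
    St.IsBoundedDomain (af L b ⁻¹' Λ) := by
  obtain ⟨D, hD0, hD⟩ := AB.norm_bound_of_domain hΛ
  have e : af L b ⁻¹' Λ = afi L b '' Λ := by
    ext x
    constructor
    · intro hx
      exact ⟨af L b x, hx, by simp⟩
    · rintro ⟨y, hy, rfl⟩
      simpa using hy
  refine ⟨hΛ.1.preimage (continuous_af L b), ?_, ?_⟩
  · rw [e]
    exact hΛ.2.1.image _ (continuous_afi L b).continuousOn
  · refine ⟨2 * (‖(L.symm : V →L[ℝ] V)‖ * (D + ‖b‖)), ?_⟩
    intro x hx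
    refine (AB.euc_le_norm x).trans ?_
    have h1 : x = L.symm (af L b x - b) := by simp [af]
    have h2 : ‖x‖ ≤ ‖(L.symm : V →L[ℝ] V)‖ * ‖af L b x - b‖ := by
      conv_lhs => rw [h1]
      exact (L.symm : V →L[ℝ] V).le_opNorm _
    have h3 := norm_sub_le (af L b x) b
    have h4 := hD _ hx
    have h5 : ‖(L.symm : V →L[ℝ] V)‖ * ‖af L b x - b‖ ≤
        ‖(L.symm : V →L[ℝ] V)‖ * (D + ‖b‖) := by
      gcongr
      linarith
    linarith

/-! ### the size function -/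

/-- cubes of generation `n` away from the boundary of `Λ` -/
noncomputable def szf (Λ : Set V) (n : ℕ) (y : V) : ℝ := min (1 / 2 ^ n) (infDist y Λᶜ)

theorem compl_nonempty (hΛ : St.IsBoundedDomain Λ) : Λᶜ.Nonempty := by
  obtain ⟨D, hD0, hD⟩ := AB.norm_bound_of_domain hΛ
  refine ⟨fun _ => D + 1, fun h => ?_⟩
  have h1 := hD _ h
  have h2 : ‖(fun _ : Fin 3 => D + 1 : V)‖ = D + 1 := by
    rw [pi_norm_const, Real.norm_of_nonneg (by linarith)]
  linarith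

theorem sizeFn_szf (hΛ : St.IsBoundedDomain Λ) (n : ℕ) : SizeFn Λ (szf Λ n) where
  lip := fun x y => by
    have h1 := infDist_le_infDist_add_dist (s := Λᶜ) (x := x) (y := y)
    rw [dist_eq_norm] at h1
    have h2 := norm_nonneg (x - y)
    have h3 := min_le_left (1 / 2 ^ n) (infDist x Λᶜ)
    have h4 := min_le_right (1 / 2 ^ n) (infDist x Λᶜ)
    simp only [szf]
    rcases le_total ((1 : ℝ) / 2 ^ n) (infDist y Λᶜ) with h | h
    · rw [min_eq_left h]; linarith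
    · rw [min_eq_right h]; linarith
  pos := fun x hx => by
    refine lt_min (by positivity) ?_
    exact (hΛ.1.isClosed_compl.notMem_iff_infDist_pos (compl_nonempty hΛ)).1 (by simpa using hx)
  off := fun x hx => by
    refine (min_le_right _ _).trans ?_
    rw [infDist_zero_of_mem (by exact hx)]
  le_one := fun x => (min_le_left _ _).trans (by
    rw [div_le_one (by positivity)]
    exact one_le_pow₀ (by norm_num))

/-- the point has a ball of radius `1 / 2 ^ n` in `Λ` -/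
theorem szf_eq {n : ℕ} {y : V} (hΛ : St.IsBoundedDomain Λ) (h : ball y (1 / 2 ^ n) ⊆ Λ) :
    szf Λ n y = 1 / 2 ^ n := by
  rw [szf, min_eq_left]
  by_contra hlt
  rw [not_le] at hlt
  obtain ⟨z, hz, h1⟩ := (infDist_lt_iff (compl_nonempty hΛ)).1 hlt
  exact hz (h (by rwa [mem_ball, dist_comm]))

theorem isTile_szf {n : ℕ} {v : V} {z : Fin 3 → ℤ} (hΛ : St.IsBoundedDomain Λ)
    (h : ∀ y ∈ dyc v n z, ball y (1 / 2 ^ n) ⊆ Λ) : IsTile (szf Λ n) v n z := by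
  refine ⟨fun y hy => (szf_eq hΛ (h y hy)).ge, fun m' z' hm hsub hadm => ?_⟩
  have h1 : (fun k => v k + z k / 2 ^ n) ∈ dyc v n z := by
    intro k
    have h2 : (0 : ℝ) < 1 / 2 ^ n := by positivity
    have h3 : ((z k : ℝ) + 1) / 2 ^ n = z k / 2 ^ n + 1 / 2 ^ n := add_div _ _ _
    constructor
    · exact le_rfl
    · show v k + z k / 2 ^ n ≤ _
      linarith
  have h2 := hadm _ (hsub h1)
  have h3 : szf Λ n (fun k => v k + z k / 2 ^ n) ≤ 1 / 2 ^ n := min_le_left _ _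
  have h4 : (1 : ℝ) / 2 ^ n < 1 / 2 ^ m' := by
    apply one_div_lt_one_div_of_lt (by positivity)
    exact pow_lt_pow_right₀ (by norm_num) hm
  linarith

/-- tiles which touch the cube have the same generation -/
theorem gen_szf {n : ℕ} {v : V} {z : Fin 3 → ℤ} (hΛ : St.IsBoundedDomain Λ)
    (h : closedBall (ctr v n z) (5 / 2 / 2 ^ n) ⊆ Λ) {m : ℕ} {z' : Fin 3 → ℤ}
    (ht : IsTile (szf Λ n) v m z') (hne : (dyc v n z ∩ dyc v m z').Nonempty) : m = n := by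
  obtain ⟨y, hy, hy'⟩ := hne
  have h1 := ht.1 y hy'
  have h2 : szf Λ n y ≤ 1 / 2 ^ n := min_le_left _ _
  have hnm : n ≤ m := by
    by_contra hlt
    rw [not_le] at hlt
    have h4 : (1 : ℝ) / 2 ^ n < 1 / 2 ^ m := by
      apply one_div_lt_one_div_of_lt (by positivity)
      exact pow_lt_pow_right₀ (by norm_num) hlt
    linarith
  rcases hnm.eq_or_lt with h3 | h3
  · exact h3.symm
  exfalso
  obtain ⟨d, rfl⟩ := Nat.exists_eq_add_of_lt h3
  have h5 := AB.S308.dyc_sub_anc v n (d + 1) z'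
  refine ht.2 n (AB.S308.anc (d + 1) z') h3 h5 fun x hx => ?_
  refine (szf_eq hΛ fun u hu => h ?_).ge
  have h6 := h5 hy'
  have h7 := _root_.P073.Net.NC.dist_le hx h6
  have h8 := mem_ball.1 hu
  have h9 : ‖y - ctr v n z‖ ≤ 1 / 2 / 2 ^ n := by
    rw [pi_norm_le_iff_of_nonneg (by positivity)]
    intro k
    have e1 := hy k
    have e2 : ((z k : ℝ) + 1) / 2 ^ n = z k / 2 ^ n + 1 / 2 ^ n := add_div _ _ _
    have e3 : ((z k : ℝ) + 1 / 2) / 2 ^ n = z k / 2 ^ n + 1 / 2 / 2 ^ n := add_div _ _ _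
    have e4 : (1 : ℝ) / 2 ^ n = 1 / 2 / 2 ^ n + 1 / 2 / 2 ^ n := by ring
    rw [Real.norm_eq_abs, Pi.sub_apply, ctr, abs_le]
    constructor <;> linarith [e1.1, e1.2]
  rw [mem_closedBall, dist_eq_norm]
  rw [dist_eq_norm] at h8
  calc ‖u - ctr v n z‖ = ‖(u - x) + (x - y) + (y - ctr v n z)‖ := by congr 1; abel
    _ ≤ ‖u - x‖ + ‖x - y‖ + ‖y - ctr v n z‖ := norm_add₃_le
    _ ≤ 1 / 2 ^ n + 1 / 2 ^ n + 1 / 2 / 2 ^ n := by linarith
    _ = 5 / 2 / 2 ^ n := by ring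

/-! ### one block -/

/-- the tiles of a block -/
def bl (n : ℕ) (B : Set (Fin 3 → ℤ)) : Set (ℕ × (Fin 3 → ℤ)) := {t | t.1 = n ∧ t.2 ∈ B}

/-- Input of Round 1, one block `B` of cells of generation `n`, in the coordinates of the affine
map: `h` is the identity on the middle cubes of the cells of the block. -/
structure In1 {Ω : Set V} (η δ c₀ : ℝ) (v : V) (n : ℕ) (B : Set (Fin 3 → ℤ)) (Λ : Set V)
    (M : Mesh Ω) (h : V → V) (P Z : Set M.ι) : Prop where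
  room : ∀ z ∈ B, closedBall (ctr v n z) (5 / 2 / 2 ^ n) ⊆ Λ
  prot : ∀ i ∈ P, ∃ z ∈ B, M.Q i = closedBall (ctr v n z) ((1 - η) / 2 / 2 ^ n)
  surj : ∀ z ∈ B, ∃ i ∈ P, M.Q i = closedBall (ctr v n z) ((1 - η) / 2 / 2 ^ n)
  id : ∀ i ∈ P, ∀ x ∈ M.Q i, h x = x
  cube : ∀ i, i ∉ P → (h '' M.Q i ∩ Nb v (bl n B) c₀).Nonempty → ∃ m z, M.Q i = dyc v m z
  small : ∀ i, i ∉ P → (h '' M.Q i ∩ Nb v (bl n B) c₀).Nonempty →
    ∀ x ∈ M.Q i, ∀ y ∈ M.Q i, ‖h x - h y‖ ≤ δ / 2 ^ n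
  face : ∀ k, (h '' M.F k ∩ Nb v (bl n B) c₀).Nonempty →
    ∃ s : AB.Idx × Fin 3, M.F k = AB.squ v s
  drawn : ∀ i ∈ Z, i ∉ P ∧ h '' M.Q i ⊆ Nb v (bl n B) η

theorem Nb_single {v : V} {J : Set (ℕ × (Fin 3 → ℤ))} {t : ℕ × (Fin 3 → ℤ)} (ht : t ∈ J) {c : ℝ} :
    Nb v {t} c ⊆ Nb v J c := by
  rintro y ⟨t', rfl, x, hx, h⟩
  exact ⟨t', ht, x, hx, h⟩

theorem In1.toIn {η δ c₀ : ℝ} {v : V} {n : ℕ} {B : Set (Fin 3 → ℤ)} {M : Mesh Ω}
    {h : V → V} {P Z : Set M.ι} (hΛ : St.IsBoundedDomain Λ) (hη : η < 1)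
    (H : In1 η δ c₀ v n B Λ M h P Z) :
    In (Λ := Λ) η δ c₀ v v (szf Λ n) M h (bl n B) (bl n B) P Z where
  tile := fun t ht => by
    obtain ⟨h1, h2⟩ := ht
    rw [h1]
    refine isTile_szf hΛ fun y hy => ?_
    refine (ball_subset_ball' (ε₂ := 5 / 2 / 2 ^ n) ?_).trans
      (ball_subset_closedBall.trans (H.room _ h2))
    have h9 : ‖y - ctr v n t.2‖ ≤ 1 / 2 / 2 ^ n := by
      rw [pi_norm_le_iff_of_nonneg (by positivity)]
      intro k
      have e1 := hy k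
      have e2 : ((t.2 k : ℝ) + 1) / 2 ^ n = t.2 k / 2 ^ n + 1 / 2 ^ n := add_div _ _ _
      have e3 : ((t.2 k : ℝ) + 1 / 2) / 2 ^ n = t.2 k / 2 ^ n + 1 / 2 / 2 ^ n := add_div _ _ _
      have e4 : (1 : ℝ) / 2 ^ n = 1 / 2 / 2 ^ n + 1 / 2 / 2 ^ n := by ring
      rw [Real.norm_eq_abs, Pi.sub_apply, ctr, abs_le]
      constructor <;> linarith [e1.1, e1.2]
    rw [dist_eq_norm]
    have e5 : (5 : ℝ) / 2 / 2 ^ n = 1 / 2 ^ n + 1 / 2 ^ n + 1 / 2 / 2 ^ n := by ring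
    have e6 : (0 : ℝ) < 1 / 2 ^ n := by positivity
    linarith
  sub := Subset.rfl
  nbr := fun t ht t' ht' hne => by
    obtain ⟨h1, h2⟩ := ht
    right
    rw [h1]
    rw [h1] at hne
    exact gen_szf hΛ (H.room _ h2) ht' hne
  prot := fun i hi => by
    obtain ⟨z, hz, hQ⟩ := H.prot i hi
    refine ⟨(n, z), ⟨rfl, hz⟩, ctr v n z, (1 - η) / 2 / 2 ^ n, fun _ => 1,
      div_pos (by linarith) (by positivity), fun _ => Or.inl rfl, hQ, fun x hx k => ?_⟩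
    rw [H.id i hi x hx]
    have h1 : (1 - η) / 2 / 2 ^ n ≠ 0 := (div_pos (by linarith) (by positivity)).ne'
    simp only
    rw [div_self h1]
    ring
  surj := fun t ht => by
    obtain ⟨h1, h2⟩ := ht
    obtain ⟨i, hi, hQ⟩ := H.surj _ h2
    refine ⟨i, hi, ?_⟩
    have h3 : h '' M.Q i = M.Q i := by
      ext y
      constructor
      · rintro ⟨x, hx, rfl⟩
        rwa [H.id i hi x hx]
      · intro hy
        exact ⟨y, hy, H.id i hi y hy⟩
    rw [h3, hQ, mid, h1]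
  cube := H.cube
  small := fun i hi t ht hne => by
    have h1 : t.1 = n := ht.1
    rw [h1]
    exact H.small i hi (hne.mono (inter_subset_inter_right _ (Nb_single ht)))
  face := H.face
  drawn := H.drawn

/-- **Round 1, one block**, in the coordinates of the affine map -/
theorem round1 {p : ℝ} (hK : K3C p) :
    ∃ D > 0, ∀ c₀ : ℝ, 0 < c₀ → c₀ ≤ 1 / 64 →
      ∃ j : ℕ, 1 / 2 ^ j < c₀ ∧ ∃ δ > 0, ∃ m : ℝ, 0 < m ∧ m ≤ c₀ ∧
      ∀ (Ω Λ : Set V), St.IsBoundedDomain Ω → St.IsBoundedDomain Λ →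
      ∀ (L : V ≃L[ℝ] V) (b v : V) (n : ℕ) (B : Set (Fin 3 → ℤ)) (M : Mesh Ω) (h : ConHomeo Ω Λ)
        (P Z : Set M.ι),
      In1 (1 / 2 ^ j) δ c₀ v n B (af L b ⁻¹' Λ) M (afi L b ∘ h.toFun) P Z →
      ∀ ε : M.κ → ℝ, (∀ k, 0 < ε k) →
      ∃ g : ConHomeo Ω (af L b ⁻¹' Λ), OutB p D D (1 / 2 ^ j) c₀ m v (szf (af L b ⁻¹' Λ) n) M
        (afi L b ∘ h.toFun) (bl n B) (bl n B) P Z ∅ ε g ∧
        OscOut D D c₀ v M (afi L b ∘ h.toFun) (bl n B) P Z ∅ g.toFun := by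
  obtain ⟨D, hD, hK⟩ := hK
  obtain ⟨D', hD', r, hr, hK⟩ := hK 1 one_pos
  refine ⟨D, hD, fun c₀ h1 h2 => ?_⟩
  obtain ⟨j, hj, δ, hδ, m, hm, hmc, hK⟩ := hK c₀ h1 h2
  refine ⟨j, hj, δ, hδ, m, hm, hmc, fun Ω Λ hΩ hΛ L b v n B M h P Z H ε hε => ?_⟩
  have hΛ' := isBoundedDomain_af L b hΛ
  have hη : (1 : ℝ) / 2 ^ j < 1 := hj.trans (by linarith)
  obtain ⟨g, hg, -, ho⟩ := hK Ω _ hΩ hΛ' v v _ (sizeFn_szf hΛ' n) M
    (h.trans (afH L b hΛ.1).symm) _ _ P Z (H.toIn hΛ' hη) ∅ ε hε false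
  exact ⟨g, hg.empty, (ho rfl rfl (fun t ht t' ht' => ht'.1.trans ht.1.symm) rfl).empty⟩

end Vale.Agent.P073.H304
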