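import Vale.Agent.P073.H989.NetInF
import Vale.Agent.P073.H803.SegNet

/-!
# P073, block B09, [GLUE]: the interface of the filler part

`SpecGlue`: a homeomorphism `ft` which is conical on the open sets `R k` (one for every box `k`) is
approximated by a conical homeomorphism `h₀` which is equal to `ft` on the boxes minus a layer, with
all tolerances for the values and for the edges of the partition.
-/

namespace Vale.Agent.P073.H304

open MeasureTheory Set Filter Topology Metric Vale.Agent.P073.St Vale.Agent.P073.AB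
open Vale.Agent.P073.SQ (ev)
open Vale.Agent.P073.H696 (Dom)
open Vale.Agent.P073.H803 (boxD)
open Vale.Agent.P073.H989 (Near0)
open _root_.P073.Net (dyc dyo)
open _root_.P073 (ConHomeo)
open scoped ENNReal

/-- the box `k` without a layer of thickness `1 / 2 / 2 ^ n` -/
def boxH (v : V) (k : Idx) (n : ℕ) : Set V :=
  {y | ∀ i, v i + (k.2 i : ℝ) / 2 ^ k.1 + 1 / 2 / 2 ^ n ≤ y i ∧
    y i ≤ v i + ((k.2 i : ℝ) + 1) / 2 ^ k.1 - 1 / 2 / 2 ^ n}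

/-- **[GLUE]**, all boxes -/
def SpecGlue : Prop :=
  ∀ (Ω Λ : Set V) (ft : V → V) (Ft : V → Mat) (v : V) (H : V → ℝ≥0∞) (K I : Set Idx)
    (n N N' : Idx → ℕ) (r : V → ℝ) (ε : ℝ≥0∞) (tol : Idx → ℝ≥0∞) (R : Idx → Set V),
    St.IsBoundedDomain Ω → St.IsBoundedDomain Λ → St.IsHomeo Ω Λ ft → RatGood v Ω ft Ft →
    Dom Ω v H K n N r ε tol I N' →
    (∀ k ∈ K, dyc v k.1 k.2 ⊆ Ω ∧ k.1 + 4 ≤ n k ∧ n k + 2 ≤ N k) →
    (∀ k ∈ K, ∀ k' ∈ K, k ≠ k' → Disjoint (dyo v k.1 k.2) (dyo v k'.1 k'.2)) →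
    (∀ C ⊆ Ω, IsCompact C → {k ∈ K | (dyc v k.1 k.2 ∩ C).Nonempty}.Finite) →
    (∀ k ∈ K, IsOpen (R k) ∧ boxH v k (n k) ⊆ R k ∧
      closure (R k) ⊆ interior (dyc v k.1 k.2)) →
    (∀ k ∈ K, ∃ Ψ : ConHomeo (R k) (ft '' R k), EqOn Ψ.toFun ft (R k)) →
    ∀ (m : V → ℝ) (δ : Idx × Fin 3 → ℝ), ContinuousOn m Ω → (∀ x ∈ Ω, 0 < m x) →
      (∀ e, 0 < δ e) →
    ∃ h₀ : ConHomeo Ω Λ, Near0 v I ft Ft Ω m δ h₀.toFun ∧
      ∀ k ∈ K, EqOn h₀.toFun ft (boxD v k (n k))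

end Vale.Agent.P073.H304
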