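import Vale.Agent.P073.H304.JoinA
import Vale.Agent.P073.H304.SpecGlue
import Vale.Agent.P073.H989.DifR
import Vale.Agent.P073.H989.Bz

/-!
# P073, block B09, [JOIN]: the homeomorphism before Round 1 with short segments

`specSegNet_of`: `H803.SpecSegNet` from the filler part (`SpecGlue`), the hybrid maps (`SpecHyb`)
and the conical approximations on the rational boxes (`Fam`).
-/

namespace Vale.Agent.P073.H304

open MeasureTheory Set Filter Topology Metric Vale.Agent.P073.St Vale.Agent.P073.AB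
open Vale.Agent.P073.SQ (ev)
open Vale.Agent.P073.AB.S293 (gam)
open Vale.Agent.P073.H696 (Boxes HF am blk blkS Dom IsNear)
open Vale.Agent.P073.H73 (onSeg)
open Vale.Agent.P073.H622 (NetB kF CF κF)
open Vale.Agent.P073.H803 (boxD SegS SpecSegNet)
open Vale.Agent.P073.H989 (Near0 ratBoxes Bz)
open Vale.Agent.P073.H726 (LBOn)
open _root_.P073.Net (dyc dyo len)
open _root_.P073 (ConHomeo)
open scoped ENNReal

open Classical in
/-- the map `φ` on `R`, `f` outside -/
noncomputable def hyb1 {E : Type*} (R : Set V) (φ f : V → E) : V → E :=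
  fun x => if x ∈ R then φ x else f x

/-- short segments on the squares of generation `l` in `R` -/
def SegIn (v : V) (R : Set V) (φ : V → V) (l : ℕ) (B : ℝ) : Prop :=
  ∀ s : Idx × Fin 3, s.1.1 = l → squ v s ⊆ R → ∀ a ∈ squ v s,
    ∃ b ∈ intrinsicFrontier ℝ (squ v s), len (onSeg φ (a, b)) (Icc 0 1) ≤ ENNReal.ofReal B

/-- conical approximations of `f` on the open set `R`, on the net of the origin `v` -/
structure Fam (Ω : Set V) (v : V) (nn : ℕ → ℕ) (R : Set V) (f : V → V) (F : V → Mat)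
    (φ : ℕ → V → V) (G : ℕ → V → Mat) : Prop where
  con : ∀ j, ∃ Ψ : ConHomeo R (f '' R), Ψ.toFun = φ j
  close : ∀ j : ℕ, Bz R f (φ j) (1 / ((j:ℝ) + 1))
  edge : ∀ e : Idx × Fin 3, edge v e ⊆ Ω →
    Tendsto (fun j => eInt v e (R.indicator fun x =>
      ENNReal.ofReal ‖cl (G j x) (ev e.2) - cl (F x) (ev e.2)‖)) atTop (𝓝 0)
  rat : ∀ j, RatGood v Ω (hyb1 R (φ j) f) (hyb1 R (G j) F)
  seg : ∀ B > 0, ∀ᶠ l in atTop, ∀ᶠ j in atTop, SegIn v R (φ j) (nn l) B

/-- **[HYB]** the hybrid map -/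
def SpecHyb : Prop :=
  ∀ (Ω Λ : Set V) (f : V → V) (F : V → Mat) (v : V) (K : Set Idx) (R : Idx → Set V)
    (φ : Idx → V → V) (G : Idx → V → Mat), St.IsBoundedDomain Ω → St.IsBoundedDomain Λ →
    St.IsHomeo Ω Λ f → RatGood v Ω f F → (∀ k ∈ K, dyc v k.1 k.2 ⊆ Ω) →
    (∀ k ∈ K, ∀ k' ∈ K, k ≠ k' → Disjoint (dyo v k.1 k.2) (dyo v k'.1 k'.2)) →
    (∀ C ⊆ Ω, IsCompact C → {k ∈ K | (dyc v k.1 k.2 ∩ C).Nonempty}.Finite) →
    (∀ k ∈ K, IsOpen (R k) ∧ closure (R k) ⊆ interior (dyc v k.1 k.2)) →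
    (∀ k ∈ K, ∃ Ψ : ConHomeo (R k) (f '' R k), Ψ.toFun = φ k) →
    (∀ k ∈ K, Bz (R k) f (φ k) 1) →
    (∀ k ∈ K, RatGood v Ω (hyb1 (R k) (φ k) f) (hyb1 (R k) (G k) F)) →
    ∃ (ft : V → V) (Ft : V → Mat), St.IsHomeo Ω Λ ft ∧ RatGood v Ω ft Ft ∧
      (∀ k ∈ K, ∀ x ∈ R k, ft x = φ k x ∧ Ft x = G k x) ∧
      ∀ x, (∀ k ∈ K, x ∉ R k) → ft x = f x ∧ Ft x = F x

/-- two disjoint boxes: a point of the open box `k` is not in the interior of a subset of the box
`k'` -/
theorem notMem_of_disj {v : V} {K : Set Idx}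
    (hdisj : ∀ k ∈ K, ∀ k' ∈ K, k ≠ k' → Disjoint (dyo v k.1 k.2) (dyo v k'.1 k'.2)) {k k' : Idx}
    (hk : k ∈ K) (hk' : k' ∈ K) (hne : k ≠ k') {y : V} (hy : y ∈ dyo v k.1 k.2) {A : Set V}
    (hA : A ⊆ dyc v k'.1 k'.2) : y ∉ A := by
  intro hyA
  obtain ⟨w, hw1, hw2⟩ := dyc_meet (hA hyA) (H333.isOpen_dyo v k.1 k.2) hy
  exact Set.disjoint_left.1 (hdisj k hk k' hk' hne) hw2 hw1

theorem boxD_sub_dyo {v : V} {k : Idx} {n : ℕ} : boxD v k n ⊆ dyo v k.1 k.2 := by
  intro y hy i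
  have p1 : (0:ℝ) < 1 / 2 ^ n := by positivity
  have := hy i
  constructor <;> linarith [this.1, this.2]

theorem boxD_sub_boxH {v : V} {k : Idx} {n : ℕ} : boxD v k n ⊆ boxH v k n := by
  intro y hy i
  have p1 : (0:ℝ) < 1 / 2 ^ n := by positivity
  have p2 : (1:ℝ) / 2 / 2 ^ n = 1 / 2 ^ n / 2 := by ring
  have := hy i
  rw [p2]
  constructor <;> linarith [this.1, this.2]

/-- segments between two points of a square -/
theorem onSeg_mem_squ {v : V} {s : Idx × Fin 3} {a b : V} (ha : a ∈ squ v s) (hb : b ∈ squ v s)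
    {t : ℝ} (ht : t ∈ Icc (0:ℝ) 1) : a + t • (b - a) ∈ squ v s := by
  have hc : Convex ℝ (squ v s) := by
    intro x hx y hy c d hc hd hcd
    have e : ∀ i, (c • x + d • y) i = c * x i + d * y i := fun i => rfl
    refine ⟨?_, fun i hi => ?_⟩
    · rw [e, hx.1, hy.1, ← add_mul, hcd, one_mul]
    · rw [e]
      have h1 := hx.2 i hi
      have h2 := hy.2 i hi
      have h3 := mul_le_mul_of_nonneg_left h1.1 hc
      have h4 := mul_le_mul_of_nonneg_left h1.2 hc
      have h5 := mul_le_mul_of_nonneg_left h2.1 hd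
      have h6 := mul_le_mul_of_nonneg_left h2.2 hd
      have e1 : ∀ w : ℝ, c * w + d * w = w := fun w => by rw [← add_mul, hcd, one_mul]
      constructor
      · linarith [e1 (v i + (s.1.2 i : ℝ) / 2 ^ s.1.1)]
      · linarith [e1 (v i + ((s.1.2 i : ℝ) + 1) / 2 ^ s.1.1)]
  have h := hc ha hb (sub_nonneg.2 ht.2) ht.1 (by ring)
  convert h using 1
  rw [smul_sub, sub_smul, one_smul]
  abel

theorem isClosed_squ' (v : V) (s : Idx × Fin 3) : IsClosed (squ v s) := by
  have e : squ v s = {x | x s.2 = v s.2 + (s.1.2 s.2 : ℝ) / 2 ^ s.1.1} ∩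
      ⋂ i, {x | i ≠ s.2 → v i + (s.1.2 i : ℝ) / 2 ^ s.1.1 ≤ x i ∧
        x i ≤ v i + ((s.1.2 i : ℝ) + 1) / 2 ^ s.1.1} := by
    ext x
    simp [squ]
  rw [e]
  refine (isClosed_eq (continuous_apply _) continuous_const).inter (isClosed_iInter fun i => ?_)
  by_cases hi : i = s.2
  · simp [hi]
  · simp only [ne_eq, hi, not_false_eq_true, forall_const]
    exact (isClosed_le continuous_const (continuous_apply _)).inter
      (isClosed_le (continuous_apply _) continuous_const)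

/-- **[JOIN]** -/
theorem specSegNet_of {p : ℝ} (hp : 1 ≤ p) (hGl : SpecGlue) (hHy : SpecHyb)
    {GX : Set V → (V → V) → (V → Mat) → V → (ℕ → ℕ) → Prop}
    (hX : ∀ (Ω Λ : Set V) (f : V → V) (F : V → Mat) (v : V) (nn : ℕ → ℕ),
      St.IsBoundedDomain Ω → St.IsBoundedDomain Λ → St.IsHomeo Ω Λ f → St.IsSobolev p Ω f F →
      GX Ω f F v nn → ∀ R ∈ ratBoxes Ω, ∃ (φ : ℕ → V → V) (G : ℕ → V → Mat),
        Fam Ω v nn R f F φ G) :
    SpecSegNet p GX := by
  classical
  intro Ω Λ f F hΩ hΛ hf hF κ μ s ε M₀ c τ' φ₀ v nn K x B hGX a k₁ β ha hk₁ hs hκ hβ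
  set n : Idx → ℕ := fun k => k.1 + a (x k) with hn
  set N : Idx → ℕ := fun k => k.1 + s (x k) with hN
  have hkΩ : ∀ k ∈ K, dyc v k.1 k.2 ⊆ Ω := fun k hk => (B.pt k hk).2.1
  have hn4 : ∀ k, k.1 + 4 ≤ n k := fun k => by
    have := ha (x k)
    simp only [hn]
    omega
  have hN2 : ∀ k, n k + 2 ≤ N k := fun k => by
    have h1 := hs (x k)
    have h2 := hk₁ (x k)
    simp only [hn, hN]
    omega
  -- the rational boxes
  have hR : ∀ k : Idx, ∃ R : Set V, R ∈ ratBoxes (interior (dyc v k.1 k.2)) ∧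
      boxH v k (n k) ⊆ R := fun k => by
    obtain ⟨R, h1, h2⟩ := H989.exists_ratBoxes v k (n := n k) (by have := hn4 k; omega)
    exact ⟨R, h1, h2⟩
  choose R hR1 hR2 using hR
  have hRo : ∀ k, IsOpen (R k) := fun k => (H989.domain_of_ratBoxes (hR1 k)).1
  have hRc : ∀ k, closure (R k) ⊆ interior (dyc v k.1 k.2) := fun k =>
    H989.closure_sub_of_ratBoxes (hR1 k)
  have hRd : ∀ k, closure (R k) ⊆ dyo v k.1 k.2 := fun k => by
    have := hRc k
    rwa [_root_.P073.Gauge.C110.interior_dyc] at this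
  have hRk : ∀ k, IsCompact (closure (R k)) := fun k => H989.isCompact_closure_of_ratBoxes (hR1 k)
  -- the approximations
  have hFam : ∀ k : Idx, ∃ (φ : ℕ → V → V) (G : ℕ → V → Mat), k ∈ K →
      Fam Ω v nn (R k) f F φ G := by
    intro k
    by_cases hk : k ∈ K
    · obtain ⟨φ, G, h⟩ := hX Ω Λ f F v nn hΩ hΛ hf hF hGX (R k)
        (H989.ratBoxes_mono (interior_subset.trans (hkΩ k hk)) (hR1 k))
      exact ⟨φ, G, fun _ => h⟩
    · exact ⟨fun _ => f, fun _ => F, fun h => absurd h hk⟩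
  choose φ G hφ using hFam
  -- the generations
  have hl : ∀ k : Idx, ∃ l₀ : ℕ, k ∈ K → ∀ l, l₀ ≤ l → ∀ᶠ j in atTop,
      SegIn v (R k) (φ k j) (nn l) (β k) := by
    intro k
    by_cases hk : k ∈ K
    · obtain ⟨l₀, h⟩ := eventually_atTop.1 ((hφ k hk).seg (β k) (hβ k))
      exact ⟨l₀, fun _ => h⟩
    · exact ⟨0, fun h => absurd h hk⟩
  choose l₀ hl₀ using hl
  obtain ⟨r, hr, hrN⟩ := exists_rfun hΩ.1 B.fin hkΩ B.disj B.mono l₀
  refine ⟨r, hr, ?_⟩
  intro r₁ εD tolD I N' Dm hr₁ hN' σ δ hσ hσ0 hδ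
  have hSeg : ∀ k ∈ K, ∀ᶠ j in atTop, SegIn v (R k) (φ k j) (N' k) (β k) := by
    intro k hk
    obtain ⟨l, hl⟩ := hN' k hk
    have h1 := hrN Dm hr₁ (fun k _ => ⟨by have := hn4 k; omega, hN2 k⟩) k hk l hl.symm
    have h2 := hl₀ k hk l h1
    rwa [hl] at h2
  -- the tolerances of the last step
  obtain ⟨m, δ', hmc, hm0, hmσ, hδ'0, hδ'δ, hnet⟩ := H622.exists_h0F_from hp hΩ hΛ B Dm.part
    (n := n) (N := N) Dm.near k₁ (fun k _ => hk₁ (x k)) (fun k _ => by have := hn4 k; omega)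
    (fun k _ => rfl) (fun k _ => by simp only [hn, hN]; rw [hs]; omega) (fun k _ => hκ (x k))
    hσ hσ0 hδ
  -- the edges of the boxes
  set Ed : Set (Idx × Fin 3) := {e | ∃ q ∈ I, EdgeOf e q} with hEd
  have hEdΩ : ∀ e ∈ Ed, edge v e ⊆ Ω := by
    rintro e ⟨q, hq, he⟩
    exact (Gr.edge_subset_dyc he).trans (Dm.part.sub q hq)
  have hSe : ∀ e : Idx × Fin 3, ∃ S : Finset Idx, e ∈ Ed → (∀ k ∈ S, k ∈ K) ∧
      ∀ k ∈ K, (edge v e ∩ dyc v k.1 k.2).Nonempty → k ∈ S := by
    intro e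
    by_cases he : e ∈ Ed
    · have h1 := B.fin (edge v e) (hEdΩ e he) (Gr.isCompact_edge v e)
      refine ⟨h1.toFinset, fun _ => ⟨fun k hk => ((h1.mem_toFinset).1 hk).1, fun k hk hne => ?_⟩⟩
      rw [h1.mem_toFinset]
      refine ⟨hk, ?_⟩
      rwa [inter_comm]
    · exact ⟨∅, fun h => absurd h he⟩
  choose S hS using hSe
  set δ₂ : Idx × Fin 3 → ℝ := fun e => δ' e / 2 / ((S e).card + 1) with hδ₂
  have hδ₂0 : ∀ e, 0 < δ₂ e := fun e => by
    have := hδ'0 e
    simp only [hδ₂]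
    positivity
  -- the choice of the approximations
  have hj : ∀ k : Idx, ∃ j : ℕ, k ∈ K → SegIn v (R k) (φ k j) (N' k) (β k) ∧
      (∀ x ∈ R k, ‖φ k j x - f x‖ ≤ m x / 2) ∧
      ∀ e ∈ Ed, (edge v e ∩ dyc v k.1 k.2).Nonempty →
        (∀ x ∈ edge v e, x ∈ R k → ‖φ k j x - f x‖ ≤ δ' e / 2) ∧
        eInt v e ((R k).indicator fun x =>
          ENNReal.ofReal ‖cl (G k j x) (ev e.2) - cl (F x) (ev e.2)‖) ≤ ENNReal.ofReal (δ₂ e) := by
    intro k
    by_cases hk : k ∈ K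
    · have hcΩ : closure (R k) ⊆ Ω := (hRc k).trans (interior_subset.trans (hkΩ k hk))
      have hsm : ∀ t : ℝ, 0 < t → ∀ᶠ j : ℕ in atTop, ∀ x ∈ R k, ‖φ k j x - f x‖ ≤ t := by
        intro t ht
        have h1 : Tendsto (fun j : ℕ => (1:ℝ) / ((j:ℝ) + 1)) atTop (𝓝 0) :=
          tendsto_one_div_add_atTop_nhds_zero_nat
        filter_upwards [h1.eventually_le_const ht] with j hj x hx
        exact (((hφ k hk).close j).1 x hx).trans hj
      -- the smallest value of `m`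
      obtain ⟨m₀, hm₀, hmm⟩ : ∃ m₀ > 0, ∀ x ∈ R k, m₀ ≤ m x := by
        by_cases hne : (closure (R k)).Nonempty
        · obtain ⟨y, hy, hmin⟩ := (hRk k).exists_isMinOn hne (hmc.mono hcΩ)
          exact ⟨m y, hm0 y (hcΩ hy), fun x hx => hmin (subset_closure hx)⟩
        · exact ⟨1, one_pos, fun x hx => absurd ⟨x, subset_closure hx⟩ hne⟩
      have hfinE : {e : Idx × Fin 3 | e ∈ Ed ∧ (edge v e ∩ dyc v k.1 k.2).Nonempty}.Finite :=
        finite_edges_meet Dm.part (P86.isCompact_dyc v k.1 k.2) (hkΩ k hk)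
      have hev : ∀ᶠ j : ℕ in atTop,
          ∀ e ∈ {e : Idx × Fin 3 | e ∈ Ed ∧ (edge v e ∩ dyc v k.1 k.2).Nonempty},
          (∀ x ∈ edge v e, x ∈ R k → ‖φ k j x - f x‖ ≤ δ' e / 2) ∧
          eInt v e ((R k).indicator fun x =>
            ENNReal.ofReal ‖cl (G k j x) (ev e.2) - cl (F x) (ev e.2)‖) ≤
              ENNReal.ofReal (δ₂ e) := by
        rw [hfinE.eventually_all]
        intro e he
        filter_upwards [hsm (δ' e / 2) (half_pos (hδ'0 e)),
          ((hφ k hk).edge e (hEdΩ e he.1)).eventually_le_const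
            (ENNReal.ofReal_pos.2 (hδ₂0 e))] with j h1 h2
        exact ⟨fun x _ hx => h1 x hx, h2⟩
      obtain ⟨j, h1, h2, h3⟩ := ((hSeg k hk).and
        ((hsm (m₀ / 2) (half_pos hm₀)).and hev)).exists
      exact ⟨j, fun _ => ⟨h1, fun x hx => (h2 x hx).trans (by linarith [hmm x hx]),
        fun e he hne => h3 e ⟨he, hne⟩⟩⟩
    · exact ⟨0, fun h => absurd h hk⟩
  choose j hj using hj
  -- the hybrid map
  obtain ⟨ft, Ft, hft, hrat, hin, hout⟩ := hHy Ω Λ f F v K R (fun k => φ k (j k))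
    (fun k => G k (j k)) hΩ hΛ hf B.rat hkΩ B.disj B.fin (fun k _ => ⟨hRo k, hRc k⟩)
    (fun k hk => (hφ k hk).con (j k)) (fun k hk => ((hφ k hk).close (j k)).mono (by
      have : (0:ℝ) ≤ j k := by positivity
      rw [div_le_one (by linarith)]
      linarith)) (fun k hk => (hφ k hk).rat (j k))
  have hclose : ∀ x ∈ Ω, ‖ft x - f x‖ ≤ m x / 2 := by
    intro x hx
    by_cases hex : ∃ k ∈ K, x ∈ R k
    · obtain ⟨k, hk, hxk⟩ := hex
      rw [(hin k hk x hxk).1]
      exact (hj k hk).2.1 x hxk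
    · push Not at hex
      rw [(hout x hex).1, sub_self, norm_zero]
      exact (half_pos (hm0 x hx)).le
  have hedge : ∀ e : Idx × Fin 3, (∃ q ∈ I, EdgeOf e q) →
      (∀ x ∈ edge v e, ‖ft x - f x‖ ≤ δ' e / 2) ∧
      eInt v e (fun x => ENNReal.ofReal ‖cl (Ft x) (ev e.2) - cl (F x) (ev e.2)‖) ≤
        ENNReal.ofReal (δ' e / 2) := by
    intro e he
    have hmeet : ∀ k ∈ K, ∀ x ∈ edge v e, x ∈ R k → (edge v e ∩ dyc v k.1 k.2).Nonempty :=
      fun k _ x hx hxR => ⟨x, hx, interior_subset (hRc k (subset_closure hxR))⟩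
    refine ⟨fun x hx => ?_, ?_⟩
    · by_cases hex : ∃ k ∈ K, x ∈ R k
      · obtain ⟨k, hk, hxk⟩ := hex
        rw [(hin k hk x hxk).1]
        exact ((hj k hk).2.2 e he (hmeet k hk x hx hxk)).1 x hx hxk
      · push Not at hex
        rw [(hout x hex).1, sub_self, norm_zero]
        exact (half_pos (hδ'0 e)).le
    · refine (eInt_le_sum_ind (S e) (R := R) (fun k _ => hRo k) v e ?_).trans ?_
      · intro x hx h0
        have h1 : ∀ k ∈ K, x ∉ R k := fun k hk hxk =>
          h0 k ((hS e he).2 k hk (hmeet k hk x hx hxk)) hxk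
        rw [(hout x h1).2, sub_self, norm_zero, ENNReal.ofReal_zero]
      · calc ∑ k ∈ S e, eInt v e ((R k).indicator fun x =>
              ENNReal.ofReal ‖cl (Ft x) (ev e.2) - cl (F x) (ev e.2)‖)
            ≤ ∑ _k ∈ S e, ENNReal.ofReal (δ₂ e) := by
              refine Finset.sum_le_sum fun k hkS => ?_
              have hk := (hS e he).1 k hkS
              have hcg : ∀ x, ((R k).indicator fun x =>
                  ENNReal.ofReal ‖cl (Ft x) (ev e.2) - cl (F x) (ev e.2)‖) x =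
                  ((R k).indicator fun x =>
                  ENNReal.ofReal ‖cl (G k (j k) x) (ev e.2) - cl (F x) (ev e.2)‖) x := by
                intro x
                by_cases hx : x ∈ R k
                · rw [indicator_of_mem hx, indicator_of_mem hx, (hin k hk x hx).2]
                · rw [indicator_of_notMem hx, indicator_of_notMem hx]
              rw [show ((R k).indicator fun x =>
                  ENNReal.ofReal ‖cl (Ft x) (ev e.2) - cl (F x) (ev e.2)‖) =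
                  ((R k).indicator fun x =>
                  ENNReal.ofReal ‖cl (G k (j k) x) (ev e.2) - cl (F x) (ev e.2)‖) from funext hcg]
              by_cases hne : (edge v e ∩ dyc v k.1 k.2).Nonempty
              · exact ((hj k hk).2.2 e he hne).2
              · have h0 : eInt v e ((R k).indicator fun x =>
                    ENNReal.ofReal ‖cl (G k (j k) x) (ev e.2) - cl (F x) (ev e.2)‖) ≤
                    eInt v e (fun _ => 0) := by
                  refine H333.eInt_mono_on fun y hy => ?_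
                  rw [indicator_of_notMem fun hyR => hne ⟨y, hy,
                    interior_subset (hRc k (subset_closure hyR))⟩]
                refine h0.trans ?_
                rw [S293.eInt_const]
                simp
          _ = (S e).card * ENNReal.ofReal (δ₂ e) := by rw [Finset.sum_const, nsmul_eq_mul]
          _ = ENNReal.ofReal ((S e).card * δ₂ e) := by
              rw [ENNReal.ofReal_mul (by positivity), ENNReal.ofReal_natCast]
          _ ≤ ENNReal.ofReal (δ' e / 2) := by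
              apply ENNReal.ofReal_le_ofReal
              simp only [hδ₂]
              have h1 : (0:ℝ) < (S e).card + 1 := by positivity
              have h2 := hδ'0 e
              rw [mul_div_assoc', div_le_iff₀ h1]
              nlinarith
  -- the filler
  obtain ⟨h₀, hNear, hEq⟩ := hGl Ω Λ ft Ft v (HF p Ω F) K I n N N' r₁ εD tolD R hΩ hΛ hft hrat Dm
    (fun k hk => ⟨hkΩ k hk, hn4 k, hN2 k⟩) B.disj B.fin
    (fun k _ => ⟨hRo k, hR2 k, hRc k⟩) (fun k hk => by
      obtain ⟨Ψ, hΨ⟩ := (hφ k hk).con (j k)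
      have himg : f '' R k = ft '' R k := by
        have h1 : f '' R k = Ψ.toFun '' R k := by
          apply Subset.antisymm
          · intro y hy
            exact ⟨Ψ.invFun y, Ψ.mapsTo_inv hy, Ψ.right_inv hy⟩
          · rintro _ ⟨x, hx, rfl⟩
            exact Ψ.mapsTo hx
        rw [h1]
        refine image_congr fun x hx => ?_
        rw [hΨ, (hin k hk x hx).1]
      rw [← himg]
      exact ⟨Ψ, fun x hx => by rw [hΨ, (hin k hk x hx).1]⟩)
    (fun x => m x / 2) (fun e => δ' e / 2) (hmc.div_const 2) (fun x hx => half_pos (hm0 x hx))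
    (fun e => half_pos (hδ'0 e))
  have hN0 : Near0 v I f F Ω m δ' h₀.toFun :=
    near0_trans B.rat hrat Dm.part.sub hδ'0 hNear hclose hedge
  obtain ⟨h, hNB, hoff⟩ := hnet h₀ hN0
  refine ⟨h, hNB, ?_⟩
  -- short segments
  intro k hk sq hsq hsub hdis y hy
  have heq : ∀ z ∈ squ v sq, h.toFun z = φ k (j k) z := by
    intro z hz
    have hzD := hsub hz
    have hzR : z ∈ R k := hR2 k (boxD_sub_boxH hzD)
    rw [hoff z (hkΩ k hk (by
      rw [← H333.closure_dyo]; exact subset_closure (boxD_sub_dyo hzD))) ?_, hEq k hk hzD,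
      (hin k hk z hzR).1]
    intro k' hk' w hw hcon
    by_cases hkk : k' = k
    · subst hkk
      rw [_root_.P073.Gauge.C110.interior_dyc] at hcon
      exact Set.disjoint_left.1 (hdis w hw) hz hcon
    · refine notMem_of_disj B.disj hk hk' (Ne.symm hkk) (boxD_sub_dyo hzD)
        (A := interior (dyc v (n k') w)) ?_ hcon
      exact interior_subset.trans (H622.blk_sub (by have := hn4 k'; omega) hw v)
  obtain ⟨b, hb, hlen⟩ := (hj k hk).1 sq hsq
    (hsub.trans (boxD_sub_boxH.trans (hR2 k))) y hy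
  refine ⟨b, hb, ?_⟩
  have hbs : b ∈ squ v sq := intrinsicFrontier_subset (isClosed_squ' v sq) hb
  refine le_trans (le_of_eq ?_) hlen
  exact _root_.P073.Net.len_congr fun t ht => heq _ (onSeg_mem_squ hy hbs ht)

end Vale.Agent.P073.H304
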