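import Vale.Agent.P073.H304.GlueFin
import Vale.Agent.P073.H304.SegJoin
import Vale.Agent.P073.H234.Hyb
import Vale.Agent.P073.H761.GenX

/-! # P073, block B09, [JOIN]: `SpecSegNet` for `GenX`, without hypotheses -/

namespace Vale.Agent.P073.H304

/-- **[SEG-NET]** the homeomorphism before Round 1 with short segments -/
theorem specSegNet {p : ℝ} (hp : 1 ≤ p) : H803.SpecSegNet p (H761.GenX p) :=
  specSegNet_of hp specGlue H234.Hyb.specHyb fun _ _ _ _ _ _ _ _ _ _ h _ hR => h.fam hR

end Vale.Agent.P073.H304
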