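import Vale.Agent.P073.H304.St1Sol
import Vale.Agent.P073.H687.MinSum

/-!
# P073, block B09, [ST1]: the fields `elen`, `elip` and `face`
-/

open Set Metric Topology Filter MeasureTheory
open scoped ENNReal

namespace Vale.Agent.P073.H304

open Vale.Agent.P073
open Vale.Agent.P073.St (V Mat)
open Vale.Agent.P073.SQ (ev)
open Vale.Agent.P073.H73 (Mesh MinEdge segP onSeg ctr)
open Vale.Agent.P073.AB Vale.Agent.P073.AB.P86
open Vale.Agent.P073.H803 (DyM tinyT)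
open Vale.Agent.P073.H696 (am blk blkS solid deep)
open _root_.P073.Net (dyc dyo len var)
open _root_.P073.Gauge (gam)
open _root_.P073.Gauge.C110 (mem_edge_iff ev_apply)
open _root_.P073 (ConHomeo)

theorem two_rpow_eq (r : ℝ) : (2:ℝ≥0∞) ^ r = ENNReal.ofReal (2 ^ r) := by
  rw [← ENNReal.ofReal_rpow_of_pos (by norm_num : (0:ℝ) < 2), ENNReal.ofReal_ofNat]

/-- `p`-th powers of the lengths -/
theorem st1_term {p : ℝ} (hp : 1 ≤ p) {α t C : ℝ} (hα : 0 ≤ α) (hC : 0 ≤ C)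
    {w ℓ ℓ₀ X τ : ℝ≥0∞} (h1 : ℓ ≤ ENNReal.ofReal α * ℓ₀ + ENNReal.ofReal t)
    (h2 : w * ℓ₀ ^ p ≤ ENNReal.ofReal C * (X + τ)) (h3 : w * ENNReal.ofReal t ^ p ≤ τ) :
    w * ℓ ^ p ≤ ENNReal.ofReal (2 ^ (p - 1) * (α ^ p * C + 1)) * (X + τ) := by
  have hp0 : 0 ≤ p := by linarith
  calc w * ℓ ^ p ≤ w * (ENNReal.ofReal α * ℓ₀ + ENNReal.ofReal t) ^ p := by gcongr
    _ ≤ w * (2 ^ (p - 1) * ((ENNReal.ofReal α * ℓ₀) ^ p + ENNReal.ofReal t ^ p)) := by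
        gcongr
        exact ENNReal.rpow_add_le_mul_rpow_add_rpow _ _ hp
    _ = 2 ^ (p - 1) * (ENNReal.ofReal α ^ p * (w * ℓ₀ ^ p) + w * ENNReal.ofReal t ^ p) := by
        rw [ENNReal.mul_rpow_of_nonneg _ _ hp0]; ring
    _ ≤ 2 ^ (p - 1) * (ENNReal.ofReal α ^ p * (ENNReal.ofReal C * (X + τ)) + (X + τ)) := by
        gcongr
        exact h3.trans le_add_self
    _ = _ := by
        rw [ENNReal.ofReal_mul (by positivity),
          ENNReal.ofReal_add (mul_nonneg (Real.rpow_nonneg hα _) hC) zero_le_one,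
          ENNReal.ofReal_mul (Real.rpow_nonneg hα _), ← ENNReal.ofReal_rpow_of_nonneg hα hp0,
          ENNReal.ofReal_one, two_rpow_eq]
        ring

/-- conical maps have finite length on the edges -/
theorem elen_ne_top {Ω Λ : Set V} (h : ConHomeo Ω Λ) {v : V} {e : Idx × Fin 3}
    (he : edge v e ⊆ Ω) : elen h.toFun v e ≠ ⊤ := by
  have hmaps : MapsTo (gam v e) (Icc 0 1) Ω := fun t ht => he (mem_edge_iff.2 ⟨t, ht, rfl⟩)
  have hg : gam v e = fun t => AffineMap.lineMap (k := ℝ) (segP v e).1 (segP v e).2 t := by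
    funext t
    rw [AffineMap.lineMap_apply]
    simp only [gam, segP, vsub_eq_sub, vadd_eq_add, add_sub_cancel_left]
    rw [add_comm]
  have hcon : _root_.P073.ConicalOn (fun t => h.toFun (gam v e t)) (Icc 0 1) := by
    refine _root_.P073.ConicalOn.comp (g := h.toFun) (h := gam v e) h.conical ?_ hmaps ?_
    · rw [hg]
      exact _root_.P073.conicalOn_of_affine _ (_root_.P073.Convex.conicalSet (convex_Icc 0 1))
    · rw [hg]
      exact AffineMap.lineMap_continuous.continuousOn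
  unfold elen
  rw [H687.onSeg_segP]
  have h1 := _root_.P073.Net.conical_var_lt_top zero_le_one hcon
  exact ne_top_of_le_ne_top (ENNReal.mul_ne_top (by norm_num) h1.ne)
    (_root_.P073.Net.len_le_var _ _)

/-- an edge in a square of the same generation -/
theorem edgeOfSq_of_gen {Ω : Set V} {v : V} {I : Set Idx} (hΩ : IsOpen Ω) (hI : Part Ω v I)
    {s e : Idx × Fin 3} (hs : MinSq v I s) (he : MinEdge v I e) (hes : edge v e ⊆ squ v s)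
    (hg : e.1.1 = s.1.1) : EdgeOfSq e s := by
  obtain ⟨e₀, h1, h2⟩ := H687.minEdge_sub hΩ hI hs he hes
  have hg' : e.1.1 = e₀.1.1 := hg.trans h1.1.symm
  obtain ⟨h3, α, h4, h5, h6⟩ := _root_.P073.Gauge.O407.sub_edge h2
  have h7 : (2:ℝ) ^ e₀.1.1 / 2 ^ e.1.1 = 1 := by rw [hg']; exact div_self (by positivity)
  rw [h7] at h5
  have h8 : α = 0 := by linarith
  have h9 := h6 0
  rw [h8, h7] at h9
  simp only [gam, mul_zero, add_zero, zero_smul] at h9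
  have h10 : e.1.2 = e₀.1.2 := by
    funext j
    have := congrFun h9 j
    simp only [pt] at this
    rw [hg'] at this
    have h11 : (e.1.2 j : ℝ) / 2 ^ e₀.1.1 = e₀.1.2 j / 2 ^ e₀.1.1 := by linarith
    exact_mod_cast (div_left_inj' (show ((2:ℝ) ^ e₀.1.1) ≠ 0 by positivity)).1 h11
  have h12 : e = e₀ := Prod.ext (Prod.ext hg' h10) h3
  rw [h12]
  exact h1

variable {Ω Λ : Set V} {J : ℝ → ℕ} {Mg Δ : ℝ → ℝ} {v : V} {M : Mesh Ω} {h : ConHomeo Ω Λ}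
  {p D : ℝ} {𝓑 : Blocks Λ J Δ v M h.toFun} {ε : M.κ → ℝ} {h₁ : ConHomeo Ω Λ}
  {g : ∀ k, ConHomeo Ω (af (𝓑.L k) (𝓑.b k) ⁻¹' Λ)}
  {f : V → V} {F : V → Mat} {K : Set Idx} {x : Idx → V} {n N' : Idx → ℕ} {c₀ : Idx → ℝ}
  {I₁ U : Set Idx} {ek : 𝓑.K → Idx}

/-- Input for the edges of the cubes which are not solid. `Cq`: constants of the lengths of `h` on
the edges; `Eq`: constants after Round 1. -/
structure EIn (p D : ℝ) (𝓑 : Blocks Λ J Δ v M h.toFun) (ε : M.κ → ℝ) (Hd : V → ℝ≥0∞)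
    (tol : Idx → ℝ≥0∞) (Cq Eq : Idx → ℝ) (I₁ R : Set Idx) (ek : 𝓑.K → Idx) : Prop where
  ε0 : ∀ κ, 0 ≤ ε κ
  C0 : ∀ q, 0 ≤ Cq q
  len : ∀ q ∈ R, ∀ e, MinEdge v I₁ e → edge v e ⊆ dyc v q.1 q.2 →
    ENNReal.ofReal ((1 / 2 ^ e.1.1) ^ (1 - p)) * elen h.toFun v e ^ p ≤
      ENNReal.ofReal (Cq q) * (eInt v e Hd + tol q)
  tol : ∀ q ∈ R, ∀ e, MinEdge v I₁ e → edge v e ⊆ dyc v q.1 q.2 → ∀ j κ,
    dyc v q.1 q.2 ⊆ dyc v (ek j).1 (ek j).2 → edge v e ⊆ M.F κ →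
    ENNReal.ofReal ((1 / 2 ^ e.1.1) ^ (1 - p)) *
      ENNReal.ofReal ((2 + D) * nL (𝓑.L j) * ε κ) ^ p ≤ tol q
  E0 : ∀ q ∈ R, Cq q ≤ Eq q
  Ez : ∀ j, ∀ q ∈ R, dyc v q.1 q.2 ⊆ dyc v (ek j).1 (ek j).2 →
    2 ^ (p - 1) * ((4 * D * nL (𝓑.L j) * nL (𝓑.L j).symm) ^ p * Cq q + 1) ≤ Eq q

variable {Hd : V → ℝ≥0∞} {tol : Idx → ℝ≥0∞} {Cq Eq : Idx → ℝ}

/-- **field `elen`** -/
theorem st1_elen (L : Link 𝓑 f F K x n N' c₀ I₁ U ek) (H : R1Out p D Mg 𝓑 ε h₁ g) (hp : 1 ≤ p)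
    (hD : 0 < D) (G : EIn p D 𝓑 ε Hd tol Cq Eq I₁ (I₁ \ solid v K n I₁) ek) :
    ∀ q ∈ I₁ \ solid v K n I₁, ∀ e, MinEdge v I₁ e → edge v e ⊆ dyc v q.1 q.2 →
      ENNReal.ofReal ((1 / 2 ^ e.1.1) ^ (1 - p)) *
        len (onSeg h₁.toFun (segP v e)) (Icc 0 1) ^ p ≤
        ENNReal.ofReal (Eq q) * (eInt v e Hd + tol q) := by
  intro q hq e he hsub
  have hU := L.mem_U hq
  by_cases hz : ∃ k, Zn 𝓑 k q
  · obtain ⟨k, hk⟩ := hz
    obtain ⟨κ, s, hs, hκ, hes⟩ := L.dy.exists_face_of_edge he hU hsub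
    have heκ : edge v e ⊆ M.F κ := hκ ▸ hes
    have h0 : 0 ≤ nL (𝓑.L k) := norm_nonneg _
    have h0' : 0 ≤ nL (𝓑.L k).symm := norm_nonneg _
    have h1 : elen h₁.toFun v e = elen (fun y => af (𝓑.L k) (𝓑.b k) ((g k).toFun y)) v e :=
      elen_congr fun y hy => eq_of_Zn L H hU hk (hsub hy)
    have h2 := elen_af_le (𝓑.L k) (𝓑.b k) (g k).toFun v e
    have h3 := L.dy.len_edge (H.out k) he hU hsub heκ
    have h4 := elen_afi_le (𝓑.L k) (𝓑.b k) h.toFun v e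
    have h5 : elen h₁.toFun v e ≤
        ENNReal.ofReal (4 * D * nL (𝓑.L k) * nL (𝓑.L k).symm) * elen h.toFun v e +
          ENNReal.ofReal ((2 + D) * nL (𝓑.L k) * ε κ) := by
      rw [h1]
      refine h2.trans ?_
      calc ENNReal.ofReal (2 * nL (𝓑.L k)) * elen (g k).toFun v e
          ≤ ENNReal.ofReal (2 * nL (𝓑.L k)) * (ENNReal.ofReal D *
            (ENNReal.ofReal (2 * nL (𝓑.L k).symm) * elen h.toFun v e) +
              ENNReal.ofReal (ε κ)) := by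
            gcongr
            exact h3.trans (by gcongr; exact h4)
        _ = ENNReal.ofReal (4 * D * nL (𝓑.L k) * nL (𝓑.L k).symm) * elen h.toFun v e +
            ENNReal.ofReal (2 * nL (𝓑.L k) * ε κ) := by
            rw [mul_add, ← mul_assoc, ← mul_assoc, ← ENNReal.ofReal_mul (by positivity),
              ← ENNReal.ofReal_mul (by positivity), ← ENNReal.ofReal_mul (by positivity)]
            congr 3
            ring
        _ ≤ _ := by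
            gcongr
            · exact G.ε0 κ
            · linarith
    have hbox := (L.zone k q hU hk).1
    refine (st1_term hp (by positivity) (G.C0 q) h5 (G.len q hq e he hsub)
      (G.tol q hq e he hsub k κ hbox heκ)).trans ?_
    gcongr
    exact G.Ez k q hq hbox
  · push Not at hz
    have h1 : elen h₁.toFun v e = elen h.toFun v e :=
      elen_congr fun y hy => eq_of_not_Zn L H hq.1 hz (hsub hy)
    show ENNReal.ofReal ((1 / 2 ^ e.1.1) ^ (1 - p)) * elen h₁.toFun v e ^ p ≤ _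
    rw [h1]
    refine (G.len q hq e he hsub).trans ?_
    gcongr
    exact G.E0 q hq

/-- the length in the coordinates of a block -/
theorem st1_speed (_L : Link 𝓑 f F K x n N' c₀ I₁ U ek) (hp : 1 ≤ p)
    (hD : 0 < D) (G : EIn p D 𝓑 ε Hd tol Cq Eq I₁ (I₁ \ solid v K n I₁) ek) {q : Idx}
    (hq : q ∈ I₁ \ solid v K n I₁) {e : Idx × Fin 3} (he : MinEdge v I₁ e)
    (hsub : edge v e ⊆ dyc v q.1 q.2) {k : 𝓑.K} {κ : M.κ} (heκ : edge v e ⊆ M.F κ)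
    (hbox : dyc v q.1 q.2 ⊆ dyc v (ek k).1 (ek k).2) {ℓ C : ℝ} (hℓ : 0 ≤ ℓ)
    (hℓ2 : ENNReal.ofReal ℓ ≤ elen (afi (𝓑.L k) (𝓑.b k) ∘ h.toFun) v e)
    (hC : C = nL (𝓑.L k) * (D * ((ℓ + ε κ) * 2 ^ e.1.1))) :
    ENNReal.ofReal (C ^ p / 2 ^ e.1.1) ≤ ENNReal.ofReal (Eq q) * (eInt v e Hd + tol q) := by
  have h0 : 0 ≤ nL (𝓑.L k) := norm_nonneg _
  have h0' : 0 ≤ nL (𝓑.L k).symm := norm_nonneg _
  have hp0 : 0 ≤ p := by linarith
  have hε := G.ε0 κ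
  have hT : (0:ℝ) < 2 ^ e.1.1 := by positivity
  -- the power
  have h1 : C ^ p / 2 ^ e.1.1 = (1 / 2 ^ e.1.1) ^ (1 - p) * (nL (𝓑.L k) * D * (ℓ + ε κ)) ^ p := by
    have h2 : C = (nL (𝓑.L k) * D * (ℓ + ε κ)) * 2 ^ e.1.1 := by rw [hC]; ring
    rw [h2, Real.mul_rpow (by positivity) hT.le, one_div, Real.inv_rpow hT.le,
      ← Real.rpow_neg hT.le, neg_sub, Real.rpow_sub hT, Real.rpow_one]
    ring
  rw [h1, ENNReal.ofReal_mul (Real.rpow_nonneg (by positivity) _),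
    ← ENNReal.ofReal_rpow_of_nonneg (by positivity) hp0]
  have h5 : ENNReal.ofReal (nL (𝓑.L k) * D * (ℓ + ε κ)) ≤
      ENNReal.ofReal (4 * D * nL (𝓑.L k) * nL (𝓑.L k).symm) * elen h.toFun v e +
        ENNReal.ofReal ((2 + D) * nL (𝓑.L k) * ε κ) := by
    calc ENNReal.ofReal (nL (𝓑.L k) * D * (ℓ + ε κ))
        = ENNReal.ofReal (nL (𝓑.L k) * D) * ENNReal.ofReal ℓ +
          ENNReal.ofReal (nL (𝓑.L k) * D * ε κ) := by
          rw [← ENNReal.ofReal_mul (by positivity), ← ENNReal.ofReal_add (by positivity)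
            (by positivity)]
          congr 1
          ring
      _ ≤ ENNReal.ofReal (nL (𝓑.L k) * D) *
          (ENNReal.ofReal (2 * nL (𝓑.L k).symm) * elen h.toFun v e) +
          ENNReal.ofReal ((2 + D) * nL (𝓑.L k) * ε κ) := by
          have h6 : nL (𝓑.L k) * D * ε κ ≤ (2 + D) * nL (𝓑.L k) * ε κ := by
            nlinarith [mul_nonneg h0 hε]
          exact add_le_add (mul_le_mul_right (hℓ2.trans (elen_afi_le _ _ _ _ _)) _)
            (ENNReal.ofReal_le_ofReal h6)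
      _ ≤ _ := by
          have h6 : nL (𝓑.L k) * D * (2 * nL (𝓑.L k).symm) ≤
              4 * D * nL (𝓑.L k) * nL (𝓑.L k).symm := by
            nlinarith [mul_nonneg (mul_nonneg h0 hD.le) h0']
          rw [← mul_assoc, ← ENNReal.ofReal_mul (by positivity)]
          exact add_le_add (mul_le_mul_left (ENNReal.ofReal_le_ofReal h6) _) le_rfl
  refine (st1_term hp (by positivity) (G.C0 q) h5 (G.len q hq e he hsub)
    (G.tol q hq e he hsub k κ hbox heκ)).trans ?_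
  gcongr
  exact G.Ez k q hq hbox

/-- a solid cube which touches a cube outside is drawn, and the cube outside is in the same box -/
theorem Link.touch (L : Link 𝓑 f F K x n N' c₀ I₁ U ek)
    (hJ : ∀ k, 1 / 2 ^ J (𝓑.c₀ k) < 𝓑.c₀ k) {q q' : Idx} (hq : q ∈ I₁ \ solid v K n I₁)
    (hq' : q' ∈ solid v K n I₁) {y : V} (hy : y ∈ dyc v q.1 q.2) (hy' : y ∈ dyc v q'.1 q'.2) :
    q' ∈ U ∧ ∃ k, ∃ i ∈ 𝓑.Z k, M.Q i = dyc v q'.1 q'.2 ∧
      dyc v q.1 q.2 ⊆ dyc v (ek k).1 (ek k).2 := by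
  have hU' : q' ∈ U := L.mem_U_of_touch hq hq'.1 ⟨y, hy', hy⟩
  obtain ⟨k, -, i, hi, hiq⟩ := L.drawn q' hU' hq'
  refine ⟨hU', k, i, hi, hiq, (L.zone k q (L.mem_U hq) ⟨y, hy, ?_⟩).1⟩
  have h1 := ((𝓑.inp k).drawn i hi).2
  obtain ⟨t, ht, z, hz, hz'⟩ := h1 ⟨y, by rw [hiq]; exact hy', rfl⟩
  refine ⟨t, ht, z, hz, hz'.trans ?_⟩
  have := (hJ k).le
  gcongr

/-- **field `elip`** -/
theorem st1_elip (L : Link 𝓑 f F K x n N' c₀ I₁ U ek) (H : R1Out p D Mg 𝓑 ε h₁ g) (hp : 1 ≤ p)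
    (hD : 0 < D) (hJ : ∀ k, 1 / 2 ^ J (𝓑.c₀ k) < 𝓑.c₀ k)
    (G : EIn p D 𝓑 ε Hd tol Cq Eq I₁ (I₁ \ solid v K n I₁) ek) :
    ∀ q ∈ I₁ \ solid v K n I₁, ∀ e, MinEdge v I₁ e → edge v e ⊆ dyc v q.1 q.2 →
      (∃ q' ∈ solid v K n I₁, edge v e ⊆ dyc v q'.1 q'.2) → ∃ C : ℝ, 0 ≤ C ∧
      (∀ a ∈ edge v e, ∀ b ∈ edge v e, ‖h₁.toFun a - h₁.toFun b‖ ≤ C * ‖a - b‖) ∧
      ENNReal.ofReal (C ^ p / 2 ^ e.1.1) ≤ ENNReal.ofReal (Eq q) * (eInt v e Hd + tol q) := by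
  rintro q hq e he hsub ⟨q', hq', hsub'⟩
  obtain ⟨y, hy⟩ := Gr.edge_nonempty v e
  obtain ⟨hU', k, i, hi, hiq, hbox⟩ := L.touch hJ hq hq' (hsub hy) (hsub' hy)
  obtain ⟨κ, s, hs, hκ, hes⟩ := L.dy.exists_face_of_edge he hU' hsub'
  have heκ : edge v e ⊆ M.F κ := hκ ▸ hes
  have hΩ : edge v e ⊆ Ω := hsub.trans (L.dy.part.sub q hq.1)
  have h0 : 0 ≤ nL (𝓑.L k) := norm_nonneg _
  set ℓ : ℝ := (elen (afi (𝓑.L k) (𝓑.b k) ∘ h.toFun) v e).toReal with hℓ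
  have hfin : elen (afi (𝓑.L k) (𝓑.b k) ∘ h.toFun) v e ≠ ⊤ :=
    ne_top_of_le_ne_top (ENNReal.mul_ne_top ENNReal.ofReal_ne_top (elen_ne_top h hΩ))
      (elen_afi_le _ _ _ _ _)
  have hℓ2 : ENNReal.ofReal ℓ = elen (afi (𝓑.L k) (𝓑.b k) ∘ h.toFun) v e :=
    ENNReal.ofReal_toReal hfin
  have hℓ0 : 0 ≤ ℓ := ENNReal.toReal_nonneg
  have hε := G.ε0 κ
  have h1 := L.dy.elip (H.out k) he hU' hsub' heκ (C := D) (ℓ := ℓ) (by
    rintro _ ⟨z, hz, rfl⟩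
    exact ((𝓑.inp k).drawn i hi).2 ⟨z, by rw [hiq]; exact hsub' hz, rfl⟩)
    (cst_empty le_rfl _) hℓ2.ge
  refine ⟨nL (𝓑.L k) * (D * ((ℓ + ε κ) * 2 ^ e.1.1)), by positivity, fun a ha b hb => ?_,
    st1_speed L hp hD G hq he hsub heκ hbox hℓ0 hℓ2.le rfl⟩
  have heq : ∀ y ∈ edge v e, h₁.toFun y = af (𝓑.L k) (𝓑.b k) ((g k).toFun y) :=
    fun y hy => eq_of_drawn H hi (by rw [hiq]; exact hsub' hy) (hJ k).le
  rw [heq a ha, heq b hb]
  refine (af_lip _ _ _ _).trans ?_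
  rw [mul_assoc]
  exact mul_le_mul_of_nonneg_left (h1 a ha b hb) h0

/-- **field `face`** -/
theorem st1_face (L : Link 𝓑 f F K x n N' c₀ I₁ U ek) (H : R1Out p D Mg 𝓑 ε h₁ g) (hp : 1 ≤ p)
    (hD : 0 < D) (hJ : ∀ k, 1 / 2 ^ J (𝓑.c₀ k) < 𝓑.c₀ k)
    (G : EIn p D 𝓑 ε Hd tol Cq Eq I₁ (I₁ \ solid v K n I₁) ek) :
    ∀ q ∈ I₁ \ solid v K n I₁, ∀ s, MinSq v I₁ s → squ v s ⊆ dyc v q.1 q.2 →
      (∃ q' ∈ solid v K n I₁, squ v s ⊆ dyc v q'.1 q'.2) → ∃ C : ℝ, 0 ≤ C ∧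
      (∀ a ∈ squ v s, ∀ b ∈ squ v s, ‖h₁.toFun a - h₁.toFun b‖ ≤ C * ‖a - b‖) ∧
      ENNReal.ofReal (C ^ p / 2 ^ s.1.1) ≤ ENNReal.ofReal (Eq q) *
        (∑' e : {e : Idx × Fin 3 // EdgeOfSq e s}, (eInt v e.1 Hd + tol q)) := by
  classical
  rintro q hq s hs hsub ⟨q', hq', hsub'⟩
  have hne : (squ v s).Nonempty := ⟨_, rel_sub sc_mem⟩
  obtain ⟨y, hy⟩ := hne
  obtain ⟨hU', k, i, hi, hiq, hbox⟩ := L.touch hJ hq hq' (hsub hy) (hsub' hy)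
  obtain ⟨κ, hκ⟩ := L.dy.squ s hs ⟨q', hU', hsub'⟩
  have hκi : M.F κ ⊆ M.Q i := by rw [hκ, hiq]; exact hsub'
  have h0 : 0 ≤ nL (𝓑.L k) := norm_nonneg _
  have hε := G.ε0 κ
  have heq : ∀ y ∈ squ v s, h₁.toFun y = af (𝓑.L k) (𝓑.b k) ((g k).toFun y) :=
    fun y hy => eq_of_drawn H hi (by rw [hiq]; exact hsub' hy) (hJ k).le
  -- the edges
  set T := (H687.finite_minEdge L.dy.part hs).toFinset with hT
  have hTm : ∀ e, e ∈ T ↔ MinEdge v I₁ e ∧ edge v e ⊆ squ v s := by simp [hT]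
  set ℓ : Idx × Fin 3 → ℝ := fun e => (elen (afi (𝓑.L k) (𝓑.b k) ∘ h.toFun) v e).toReal with hℓ
  have hℓ0 : ∀ e, 0 ≤ ℓ e := fun e => ENNReal.toReal_nonneg
  have hfin : ∀ e ∈ T, ENNReal.ofReal (ℓ e) = elen (afi (𝓑.L k) (𝓑.b k) ∘ h.toFun) v e := by
    intro e he
    refine ENNReal.ofReal_toReal (ne_top_of_le_ne_top (ENNReal.mul_ne_top
      ENNReal.ofReal_ne_top (elen_ne_top h ?_)) (elen_afi_le _ _ _ _ _))
    exact ((hTm e).1 he).2.trans (hsub.trans (L.dy.part.sub q hq.1))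
  have hgen : ∀ e ∈ T, e.1.1 = s.1.1 := fun e he =>
    L.uni s hs ⟨q, hq, hsub⟩ ⟨q', hq', hsub'⟩ e ((hTm e).1 he).1 ((hTm e).1 he).2
  rcases T.eq_empty_or_nonempty with hTe | hTn
  · -- no edges
    refine ⟨0, le_rfl, fun a ha b hb => ?_, ?_⟩
    · have h1 := L.dy.flip (H.out k) hi hκi hs hκ (C := D) (cst_empty le_rfl _) (K := 0)
        (fun e he hes => by
          have := (hTm e).2 ⟨he, hes⟩
          rw [hTe] at this
          exact absurd this (Finset.notMem_empty e)) a ha b hb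
      rw [heq a ha, heq b hb]
      refine (af_lip _ _ _ _).trans ?_
      rw [mul_zero, zero_mul] at h1
      have h2 : ‖(g k).toFun a - (g k).toFun b‖ = 0 := le_antisymm h1 (norm_nonneg _)
      rw [h2, mul_zero, zero_mul]
    · rw [Real.zero_rpow (by linarith), zero_div, ENNReal.ofReal_zero]
      exact zero_le
  · obtain ⟨e₀, he₀, hmax⟩ := T.exists_max_image ℓ hTn
    obtain ⟨hm₀, hs₀⟩ := (hTm e₀).1 he₀
    have h1 := L.dy.flip (H.out k) hi hκi hs hκ (C := D) (cst_empty le_rfl _)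
      (K := (ℓ e₀ + ε κ) * 2 ^ e₀.1.1) (fun e he hes => by
        have heT := (hTm e).2 ⟨he, hes⟩
        have h2 := hfin e heT
        have h3 : len (onSeg (afi (𝓑.L k) (𝓑.b k) ∘ h.toFun) (segP v e)) (Icc 0 1) =
          ENNReal.ofReal (ℓ e) := h2.symm
        rw [h3, ← ENNReal.ofReal_add (hℓ0 e) hε, hgen e heT, hgen e₀ he₀]
        refine ENNReal.ofReal_le_ofReal ?_
        have h4 : (ℓ e₀ + ε κ) * 2 ^ s.1.1 * (1 / 2 ^ s.1.1) = ℓ e₀ + ε κ := by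
          field_simp
        rw [h4]
        linarith [hmax e heT])
    have hg0 := hgen e₀ he₀
    refine ⟨nL (𝓑.L k) * (D * ((ℓ e₀ + ε κ) * 2 ^ e₀.1.1)), by
      have := hℓ0 e₀; positivity, fun a ha b hb => ?_, ?_⟩
    · rw [heq a ha, heq b hb]
      refine (af_lip _ _ _ _).trans ?_
      rw [mul_assoc]
      exact mul_le_mul_of_nonneg_left (h1 a ha b hb) h0
    · have h2 := st1_speed L hp hD G hq hm₀ (hs₀.trans hsub) (hs₀.trans hκ.ge) hbox (hℓ0 e₀)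
        (hfin e₀ he₀).le rfl
      rw [hg0] at h2 ⊢
      refine h2.trans ?_
      gcongr
      exact ENNReal.le_tsum (f := fun e : {e : Idx × Fin 3 // EdgeOfSq e s} =>
        (eInt v e.1 Hd + tol q)) ⟨e₀, edgeOfSq_of_gen L.dy.opn L.dy.part hs hm₀ hs₀ hg0⟩

end Vale.Agent.P073.H304
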