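import Vale.Agent.P073.H304.R1Deep
import Vale.Agent.P073.H304.R1CostB
import Vale.Agent.P073.H803.Dict2
import Vale.Agent.P073.H696.BSpec

/-!
# P073, block B09, [ST1]: the link between the blocks of Round 1 and the partition of the domain
-/

open Set Metric Topology Filter MeasureTheory
open scoped ENNReal

namespace Vale.Agent.P073.H304

open Vale.Agent.P073
open Vale.Agent.P073.St (V Mat)
open Vale.Agent.P073.SQ (ev)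
open Vale.Agent.P073.H73 (Mesh MinEdge segP onSeg ctr)
open Vale.Agent.P073.AB
open Vale.Agent.P073.H803 (DyM)
open Vale.Agent.P073.H696 (am blk blkS solid deep)
open _root_.P073.Net (dyc dyo len var)
open _root_.P073 (ConHomeo)

/-- the cube `q` meets the zone of the block `k` -/
def Zn {Ω Λ : Set V} {J : ℝ → ℕ} {Δ : ℝ → ℝ} {v : V} {M : Mesh Ω} {h : V → V}
    (𝓑 : Blocks Λ J Δ v M h) (k : 𝓑.K) (q : Idx) : Prop :=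
  ∃ y ∈ dyc v q.1 q.2, afi (𝓑.L k) (𝓑.b k) (h y) ∈ Nb v (bl (𝓑.n k) (𝓑.B k)) (𝓑.c₀ k)

/-- The blocks `𝓑` of Round 1 belong to the boxes `K` of the domain and to the partition `I₁`
(cubes of `U` are not merged). -/
structure Link {Ω Λ : Set V} {J : ℝ → ℕ} {Δ : ℝ → ℝ} {v : V} {M : Mesh Ω} {h : V → V}
    (𝓑 : Blocks Λ J Δ v M h) (f : V → V) (F : V → Mat) (K : Set Idx) (x : Idx → V)
    (n N' : Idx → ℕ) (c₀ : Idx → ℝ) (I₁ U : Set Idx) (ek : 𝓑.K → Idx) : Prop where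
  dy : DyM M v I₁ U
  mem : ∀ k, ek k ∈ K
  surj : ∀ k ∈ K, ∃ k', ek k' = k
  am : ∀ k y, af (𝓑.L k) (𝓑.b k) y = am f F (x (ek k)) y
  n_eq : ∀ k, 𝓑.n k = n (ek k)
  B_eq : ∀ k, 𝓑.B k = blk (ek k) (n (ek k))
  c_eq : ∀ k, 𝓑.c₀ k = c₀ (ek k)
  /-- the solid cubes are drawn -/
  drawn : ∀ q ∈ U, q ∈ solid v K n I₁ → ∃ k, dyc v q.1 q.2 ⊆ dyc v (ek k).1 (ek k).2 ∧
    ∃ i ∈ 𝓑.Z k, M.Q i = dyc v q.1 q.2
  /-- the merged cubes are in protected cells -/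
  prot : ∀ q ∈ I₁, q ∉ U → ∃ k, dyc v q.1 q.2 ⊆ blkS v (ek k) (n (ek k)) ∧
    dyc v q.1 q.2 ⊆ dyc v (ek k).1 (ek k).2 ∧ ∃ i ∈ 𝓑.P k, dyc v q.1 q.2 ⊆ M.Q i
  /-- the cubes which meet the zone of a block -/
  zone : ∀ k, ∀ q ∈ U, Zn 𝓑 k q → dyc v q.1 q.2 ⊆ dyc v (ek k).1 (ek k).2 ∧
    ∀ y ∈ dyc v q.1 q.2, afi (𝓑.L k) (𝓑.b k) (h y) ∈ closedBall (𝓑.a k) (𝓑.r k)
  /-- the interface squares have uniform edges -/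
  uni : ∀ s, MinSq v I₁ s → (∃ q ∈ I₁ \ solid v K n I₁, squ v s ⊆ dyc v q.1 q.2) →
    (∃ q ∈ solid v K n I₁, squ v s ⊆ dyc v q.1 q.2) → ∀ e, MinEdge v I₁ e →
    edge v e ⊆ squ v s → e.1.1 = s.1.1
  /-- the passive cells near a passive cell in the zone -/
  nbd : ∀ k, ∀ q ∈ I₁ \ solid v K n I₁, Zn 𝓑 k q → ∀ i', i' ∉ 𝓑.P k → i' ∉ 𝓑.Z k →
    (∃ y ∈ dyc v q.1 q.2, ∃ y' ∈ M.Q i',
      ‖afi (𝓑.L k) (𝓑.b k) (h y) - afi (𝓑.L k) (𝓑.b k) (h y')‖ ≤ 𝓑.c₀ k / 2 ^ 𝓑.n k) →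
    ∃ q' ∈ I₁ \ solid v K n I₁, M.Q i' = dyc v q'.1 q'.2 ∧
      dyc v q'.1 q'.2 ⊆ dyc v (ek k).1 (ek k).2 ∧
      ∀ e, MinEdge v I₁ e → edge v e ⊆ dyc v q'.1 q'.2 → e.1.1 ≤ N' (ek k)

variable {Ω Λ : Set V} {J : ℝ → ℕ} {Mg Δ : ℝ → ℝ} {v : V} {M : Mesh Ω} {h : ConHomeo Ω Λ}
  {p D : ℝ} {𝓑 : Blocks Λ J Δ v M h.toFun} {ε : M.κ → ℝ} {h₁ : ConHomeo Ω Λ}
  {g : ∀ k, ConHomeo Ω (af (𝓑.L k) (𝓑.b k) ⁻¹' Λ)}
  {f : V → V} {F : V → Mat} {K : Set Idx} {x : Idx → V} {n N' : Idx → ℕ} {c₀ : Idx → ℝ}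
  {I₁ U : Set Idx} {ek : 𝓑.K → Idx}

/-- cubes which are not solid are not merged -/
theorem Link.mem_U (L : Link 𝓑 f F K x n N' c₀ I₁ U ek) {q : Idx}
    (hq : q ∈ I₁ \ solid v K n I₁) : q ∈ U := by
  by_contra hU
  obtain ⟨k, h1, -, -⟩ := L.prot q hq.1 hU
  refine hq.2 ⟨hq.1, ek k, L.mem k, ?_⟩
  have h2 : (dyc v q.1 q.2).Nonempty := by
    rw [dyc_eq_closedBall]
    exact ⟨_, mem_closedBall_self (by positivity)⟩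
  obtain ⟨y, hy⟩ := h2
  exact ⟨y, hy, h1 hy⟩

/-- a solid cube which touches a cube outside is not merged -/
theorem Link.mem_U_of_touch (L : Link 𝓑 f F K x n N' c₀ I₁ U ek) {q q' : Idx}
    (hq : q ∈ I₁ \ solid v K n I₁) (hq' : q' ∈ I₁)
    (hne : (dyc v q'.1 q'.2 ∩ dyc v q.1 q.2).Nonempty) : q' ∈ U := by
  by_contra hU
  obtain ⟨k, h1, -, -⟩ := L.prot q' hq' hU
  obtain ⟨y, hy, hy'⟩ := hne
  exact hq.2 ⟨hq.1, ek k, L.mem k, y, hy', h1 hy⟩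

/-- off the zones nothing changes -/
theorem eq_of_not_Zn (L : Link 𝓑 f F K x n N' c₀ I₁ U ek) (H : R1Out p D Mg 𝓑 ε h₁ g) {q : Idx}
    (hq : q ∈ I₁) (hn : ∀ k, ¬ Zn 𝓑 k q) {y : V} (hy : y ∈ dyc v q.1 q.2) :
    h₁.toFun y = h.toFun y :=
  H.off y (L.dy.part.sub q hq hy) fun k hk => hn k ⟨y, hy, hk⟩

/-- in the zones -/
theorem eq_of_Zn (L : Link 𝓑 f F K x n N' c₀ I₁ U ek) (H : R1Out p D Mg 𝓑 ε h₁ g) {q : Idx}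
    (hq : q ∈ U) {k : 𝓑.K} (hk : Zn 𝓑 k q) {y : V} (hy : y ∈ dyc v q.1 q.2) :
    h₁.toFun y = af (𝓑.L k) (𝓑.b k) ((g k).toFun y) :=
  H.eq k y (L.dy.part.sub q (L.dy.sub hq) hy) ((L.zone k q hq hk).2 y hy)

/-- in the drawn cells -/
theorem eq_of_drawn (H : R1Out p D Mg 𝓑 ε h₁ g) {k : 𝓑.K} {i : M.ι}
    (hi : i ∈ 𝓑.Z k) {y : V} (hy : y ∈ M.Q i)
    (hc : 1 / 2 ^ J (𝓑.c₀ k) ≤ 𝓑.c₀ k) :
    h₁.toFun y = af (𝓑.L k) (𝓑.b k) ((g k).toFun y) := by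
  refine H.eq k y (M.sub i hy) (ball_subset_closedBall (𝓑.zone k ?_))
  have h1 := ((𝓑.inp k).drawn i hi).2
  obtain ⟨t, ht, z, hz, hz'⟩ := h1 ⟨y, hy, rfl⟩
  refine ⟨t, ht, z, hz, hz'.trans ?_⟩
  gcongr

end Vale.Agent.P073.H304
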