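import Vale.Agent.P073.H304.St1Link
import Vale.Agent.P073.H471.Stage

/-!
# P073, block B09, [ST1]: the fields `kept` and `sol`
-/

open Set Metric Topology Filter MeasureTheory
open scoped ENNReal

namespace Vale.Agent.P073.H304

open Vale.Agent.P073
open Vale.Agent.P073.St (V Mat)
open Vale.Agent.P073.SQ (ev)
open Vale.Agent.P073.H73 (Mesh MinEdge segP onSeg ctr)
open Vale.Agent.P073.AB Vale.Agent.P073.AB.P86
open Vale.Agent.P073.H803 (DyM tinyT)
open Vale.Agent.P073.H696 (am blk blkS solid deep)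
open _root_.P073.Net (dyc dyo len var)
open _root_.P073 (ConHomeo)

/-! ### Affine maps -/

/-- the norm of the linear part -/
noncomputable abbrev nL (L : V ≃L[ℝ] V) : ℝ := ‖(L : V →L[ℝ] V)‖

theorem af_lip (L : V ≃L[ℝ] V) (b x y : V) : ‖af L b x - af L b y‖ ≤ nL L * ‖x - y‖ := by
  unfold af
  rw [add_sub_add_right_eq_sub, ← map_sub]
  exact (L : V →L[ℝ] V).le_opNorm (x - y)

theorem afi_lip (L : V ≃L[ℝ] V) (b x y : V) : ‖afi L b x - afi L b y‖ ≤ nL L.symm * ‖x - y‖ := by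
  unfold afi
  rw [← map_sub, sub_sub_sub_cancel_right]
  exact (L.symm : V →L[ℝ] V).le_opNorm (x - y)

theorem len_comp_le {q : ℝ → V} {A : V → V} {K : ℝ} (hK : 0 ≤ K)
    (hA : ∀ x y, ‖A x - A y‖ ≤ K * ‖x - y‖) (s : Set ℝ) :
    len (fun t => A (q t)) s ≤ ENNReal.ofReal (2 * K) * len q s := by
  refine (_root_.P073.Net.len_le_var _ _).trans ?_
  have h1 : var (fun t => A (q t)) s ≤ ENNReal.ofReal K * var q s :=
    _root_.P073.Net.eVariationOn_le_of_edist fun a _ b _ => by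
      rw [edist_dist, edist_dist, dist_eq_norm, dist_eq_norm, ← ENNReal.ofReal_mul hK]
      exact ENNReal.ofReal_le_ofReal (hA _ _)
  calc 2 * var (fun t => A (q t)) s ≤ 2 * (ENNReal.ofReal K * len q s) := by
        gcongr
        exact h1.trans (by gcongr; exact H471.var_le_len _ _)
    _ = _ := by rw [ENNReal.ofReal_mul (by norm_num), ENNReal.ofReal_ofNat, mul_assoc]

/-- the length of an edge in the coordinates of a block -/
theorem elen_afi_le (L : V ≃L[ℝ] V) (b : V) (h : V → V) (v : V) (e : Idx × Fin 3) :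
    elen (afi L b ∘ h) v e ≤ ENNReal.ofReal (2 * nL L.symm) * elen h v e :=
  len_comp_le (A := afi L b) (q := onSeg h (segP v e)) (norm_nonneg _) (afi_lip L b) _

theorem elen_af_le (L : V ≃L[ℝ] V) (b : V) (g : V → V) (v : V) (e : Idx × Fin 3) :
    elen (fun y => af L b (g y)) v e ≤ ENNReal.ofReal (2 * nL L) * elen g v e :=
  len_comp_le (A := af L b) (q := onSeg g (segP v e)) (norm_nonneg _) (af_lip L b) _

theorem elen_congr {h h' : V → V} {v : V} {e : Idx × Fin 3} (H : EqOn h h' (edge v e)) :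
    elen h v e = elen h' v e := by
  refine _root_.P073.Net.len_congr fun t ht => H ?_
  rw [← H687.segment_segP, segment_eq_image']
  exact ⟨t, ht, rfl⟩

/-- local Lipschitz bounds under affine maps -/
theorem LipBd.af {g h : V → V} {Q : Set V} {G : V → ℝ} (hG : LipBd g Q G) (L : V ≃L[ℝ] V) (b : V)
    (he : ∀ y ∈ Q, h y = af L b (g y)) : LipBd h Q fun y => nL L * G y where
  usc := by
    have hc : Continuous fun t : ℝ => nL L * t := by fun_prop
    exact hc.comp_upperSemicontinuousOn hG.usc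
      fun a b hab => mul_le_mul_of_nonneg_left hab (norm_nonneg _)
  nonneg y hy := mul_nonneg (norm_nonneg _) (hG.nonneg y hy)
  bdd := by
    obtain ⟨c, hc⟩ := hG.bdd
    refine ⟨nL L * c, ?_⟩
    rintro _ ⟨y, hy, rfl⟩
    exact mul_le_mul_of_nonneg_left (hc ⟨y, hy, rfl⟩) (norm_nonneg _)
  lip y hy := by
    filter_upwards [hG.lip y hy, self_mem_nhdsWithin] with z hz hzQ
    rw [he y hy, he z hzQ]
    refine (af_lip L b _ _).trans ?_
    rw [mul_assoc]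
    exact mul_le_mul_of_nonneg_left hz (norm_nonneg _)

theorem LipBd.of_lip {h : V → V} {Q : Set V} {K : ℝ} (hK : 0 ≤ K)
    (H : ∀ x ∈ Q, ∀ y ∈ Q, ‖h x - h y‖ ≤ K * ‖x - y‖) : LipBd h Q fun _ => K where
  usc := upperSemicontinuousOn_const
  nonneg _ _ := hK
  bdd := ⟨K, by rintro _ ⟨y, -, rfl⟩; exact le_rfl⟩
  lip y hy := by
    filter_upwards [self_mem_nhdsWithin] with z hz
    exact H z hz y hy

theorem dyc_nonempty (v : V) (m : ℕ) (z : Fin 3 → ℤ) : (dyc v m z).Nonempty := by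
  rw [dyc_eq_closedBall]
  exact ⟨_, mem_closedBall_self (by positivity)⟩

/-- the box of a cube is unique -/
theorem box_unique {v : V} {K : Set Idx}
    (hK : ∀ k ∈ K, ∀ k' ∈ K, k ≠ k' → Disjoint (dyo v k.1 k.2) (dyo v k'.1 k'.2)) {k k' q : Idx}
    (hk : k ∈ K) (hk' : k' ∈ K) (h : dyc v q.1 q.2 ⊆ dyc v k.1 k.2)
    (h' : dyc v q.1 q.2 ⊆ dyc v k'.1 k'.2) : k = k' := by
  by_contra hne
  exact disjoint_left.1 (hK k hk k' hk' hne) (H193.dyo_sub h (cen_mem v q.1 q.2))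
    (H193.dyo_sub h' (cen_mem v q.1 q.2))

variable {Ω Λ : Set V} {J : ℝ → ℕ} {Mg Δ : ℝ → ℝ} {v : V} {M : Mesh Ω} {h : ConHomeo Ω Λ}
  {p D : ℝ} {𝓑 : Blocks Λ J Δ v M h.toFun} {ε : M.κ → ℝ} {h₁ : ConHomeo Ω Λ}
  {g : ∀ k, ConHomeo Ω (af (𝓑.L k) (𝓑.b k) ⁻¹' Λ)}
  {f : V → V} {F : V → Mat} {K : Set Idx} {x : Idx → V} {n N' : Idx → ℕ} {c₀ : Idx → ℝ}
  {I₁ U : Set Idx} {ek : 𝓑.K → Idx}

/-- **field `kept`** -/
theorem st1_kept (L : Link 𝓑 f F K x n N' c₀ I₁ U ek) (H : R1Out p D Mg 𝓑 ε h₁ g)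
    (hJ : ∀ k, 1 / 2 ^ J (𝓑.c₀ k) < 𝓑.c₀ k) {k : Idx} (hk : k ∈ K) {y : V}
    (hy : y ∈ deep v n (2 * c₀ k) k) : h₁.toFun y = am f F (x k) y := by
  obtain ⟨k', rfl⟩ := L.surj k hk
  obtain ⟨z, hz, hyz⟩ := mem_iUnion₂.1 hy
  rw [← L.am]
  refine (H.deep_eq hJ (z := z) (by rw [L.B_eq]; exact hz) ?_).1
  unfold Blocks.deep
  rw [L.n_eq, L.c_eq]
  refine closedBall_subset_closedBall ?_ hyz
  have h1 := 𝓑.pos k'
  rw [L.c_eq] at h1
  have h2 : 1 - 2 * (2 * c₀ (ek k')) ≤ 1 - 3 * c₀ (ek k') := by linarith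
  exact div_le_div_of_nonneg_right (div_le_div_of_nonneg_right h2 (by norm_num)) (by positivity)

/-- cells outside of the set of sharp faces -/
theorem cst_empty {D C : ℝ} (h : D ≤ C) (S : Set V) : Cst M ∅ D D S C :=
  Or.inl h

/-- **field `sol`** -/
theorem st1_sol (L : Link 𝓑 f F K x n N' c₀ I₁ U ek) (H : R1Out p D Mg 𝓑 ε h₁ g) (hp : 1 ≤ p)
    (hD : 0 < D) (hJ : ∀ k, 1 / 2 ^ J (𝓑.c₀ k) < 𝓑.c₀ k)
    (hK : ∀ k ∈ K, ∀ k' ∈ K, k ≠ k' → Disjoint (dyo v k.1 k.2) (dyo v k'.1 k'.2))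
    (hε : ∀ k, 0 ≤ ε k) {εs : Idx × Fin 3 → ℝ}
    (hεs : ∀ k s, M.F k = AB.squ v s → 2 * ε k ≤ εs s) {E E₀ : Idx → ℝ} (hE₀ : ∀ k, 0 ≤ E₀ k)
    (htiny : ∀ q ∈ I₁, tinyT v I₁ p εs q ≤ volume (dyc v q.1 q.2))
    (hsolid : ∀ q ∈ U, q ∈ solid v K n I₁ → ∀ k, dyc v q.1 q.2 ⊆ dyc v (ek k).1 (ek k).2 →
      meshsum p v I₁ (elen h.toFun v) q ≤ ENNReal.ofReal (E₀ (ek k)) * volume (dyc v q.1 q.2))
    (hE1 : ∀ k, nL (𝓑.L k) ^ p * (2 ^ (p - 1) * D *
      ((2 * nL (𝓑.L k).symm) ^ p * E₀ (ek k) + 1)) ≤ E (ek k))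
    (hE2 : ∀ k, (D * nL (𝓑.L k)) ^ p ≤ E (ek k)) :
    ∀ k ∈ K, ∀ q ∈ solid v K n I₁, dyc v q.1 q.2 ⊆ dyc v k.1 k.2 → ∃ G : V → ℝ,
      LipBd h₁.toFun (dyc v q.1 q.2) G ∧
      ∫⁻ y in dyc v q.1 q.2, ENNReal.ofReal (G y ^ p) ≤
        ENNReal.ofReal (E k) * volume (dyc v q.1 q.2) := by
  intro k hk q hq hqk
  have hp0 : 0 ≤ p := by linarith
  by_cases hU : q ∈ U
  · -- drawn cells
    obtain ⟨k', hk', i, hi, hiq⟩ := L.drawn q hU hq
    have hkk : ek k' = k := box_unique hK (L.mem k') hk hk' hqk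
    subst hkk
    obtain ⟨G, hG, hG2⟩ := L.dy.drawn_meshsum (H.out k') hp hε hεs hi hiq hD.le
      (cst_empty le_rfl _)
    have heq : ∀ y ∈ dyc v q.1 q.2, h₁.toFun y = af (𝓑.L k') (𝓑.b k') ((g k').toFun y) :=
      fun y hy => eq_of_drawn H hi (by rw [hiq]; exact hy) (hJ k').le
    refine ⟨_, hG.af (𝓑.L k') (𝓑.b k') heq, ?_⟩
    have h1 := hG2 (elen (afi (𝓑.L k') (𝓑.b k') ∘ h.toFun) v) fun e _ _ => le_rfl
    have h2 : H803.meshsum p v I₁ (elen (afi (𝓑.L k') (𝓑.b k') ∘ h.toFun) v) q ≤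
        ENNReal.ofReal (2 * nL (𝓑.L k').symm) ^ p * H803.meshsum p v I₁ (elen h.toFun v) q :=
      H803.meshsum_le hp0 fun e _ _ => elen_afi_le _ _ _ _ _
    have h3 := hsolid q hU hq k' hqk
    have hL0 : 0 ≤ nL (𝓑.L k') := norm_nonneg _
    have hI0 : 0 ≤ nL (𝓑.L k').symm := norm_nonneg _
    have h4 : ∫⁻ y in dyc v q.1 q.2, ENNReal.ofReal ((nL (𝓑.L k') * G y) ^ p) =
        ENNReal.ofReal (nL (𝓑.L k') ^ p) * ∫⁻ y in dyc v q.1 q.2, ENNReal.ofReal (G y ^ p) := by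
      rw [← lintegral_const_mul' _ _ ENNReal.ofReal_ne_top]
      refine setLIntegral_congr_fun
        (_root_.P073.Gauge.O407.isCompact_dyc v q.1 q.2).measurableSet fun y hy => ?_
      show ENNReal.ofReal ((nL (𝓑.L k') * G y) ^ p) = _
      rw [Real.mul_rpow hL0 (hG.nonneg y hy), ENNReal.ofReal_mul (Real.rpow_nonneg hL0 _)]
    rw [h4]
    calc ENNReal.ofReal (nL (𝓑.L k') ^ p) * ∫⁻ y in dyc v q.1 q.2, ENNReal.ofReal (G y ^ p)
        ≤ ENNReal.ofReal (nL (𝓑.L k') ^ p) * (ENNReal.ofReal (2 ^ (p - 1) * D) *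
          (ENNReal.ofReal (2 * nL (𝓑.L k').symm) ^ p *
            (ENNReal.ofReal (E₀ (ek k')) * volume (dyc v q.1 q.2)) + volume (dyc v q.1 q.2))) := by
          gcongr
          exact h1.trans (by
            gcongr
            · exact h2.trans (by gcongr; exact h3)
            · exact htiny q hq.1)
      _ = ENNReal.ofReal (nL (𝓑.L k') ^ p * (2 ^ (p - 1) * D *
          ((2 * nL (𝓑.L k').symm) ^ p * E₀ (ek k') + 1))) * volume (dyc v q.1 q.2) := by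
          rw [ENNReal.ofReal_mul (Real.rpow_nonneg hL0 _),
            ENNReal.ofReal_mul (p := 2 ^ (p - 1) * D) (by positivity),
            ENNReal.ofReal_add (mul_nonneg (by positivity) (hE₀ _)) zero_le_one,
            ENNReal.ofReal_mul (p := (2 * nL (𝓑.L k').symm) ^ p) (by positivity),
            ENNReal.ofReal_rpow_of_nonneg (by positivity) hp0, ENNReal.ofReal_one]
          ring
      _ ≤ _ := by
          gcongr
          exact hE1 k'
  · -- merged cubes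
    obtain ⟨k', -, hk', i, hi, hiq⟩ := L.prot q hq.1 hU
    have hkk : ek k' = k := box_unique hK (L.mem k') hk hk' hqk
    subst hkk
    obtain ⟨z, hz, hQ⟩ := (𝓑.inp k').prot i hi
    have heq : ∀ y ∈ dyc v q.1 q.2, h₁.toFun y = af (𝓑.L k') (𝓑.b k') ((g k').toFun y) := by
      intro y hy
      refine H.eq k' y (M.sub i (hiq hy)) ?_
      have h1 := (𝓑.inp k').id i hi y (hiq hy)
      rw [Function.comp_apply] at h1
      rw [h1]
      refine ball_subset_closedBall (𝓑.cell_subset hz ?_)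
      rw [dyc_eq_closedBall]
      have h2 := hiq hy
      rw [hQ] at h2
      refine closedBall_subset_closedBall ?_ h2
      have h3 : (0:ℝ) < 1 / 2 ^ J (𝓑.c₀ k') := by positivity
      gcongr
      linarith
    have hlip : ∀ y ∈ dyc v q.1 q.2, ∀ y' ∈ dyc v q.1 q.2,
        ‖h₁.toFun y - h₁.toFun y'‖ ≤ (D * nL (𝓑.L k')) * ‖y - y'‖ := by
      intro y hy y' hy'
      rw [heq y hy, heq y' hy']
      have h1 := (𝓑.inp k').id i hi y (hiq hy)
      have h2 := (𝓑.inp k').id i hi y' (hiq hy')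
      have h3 := (H.out k').prot i hi y (hiq hy) y' (hiq hy')
      rw [h1, h2] at h3
      calc _ ≤ nL (𝓑.L k') * ‖(g k').toFun y - (g k').toFun y'‖ := af_lip _ _ _ _
        _ ≤ nL (𝓑.L k') * (D * ‖y - y'‖) := by gcongr
        _ = _ := by ring
    have hK0 : 0 ≤ D * nL (𝓑.L k') := mul_nonneg hD.le (norm_nonneg _)
    refine ⟨_, LipBd.of_lip hK0 hlip, ?_⟩
    rw [setLIntegral_const]
    gcongr
    exact hE2 k'

end Vale.Agent.P073.H304
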