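import Vale.Agent.P073.H304.St1Edge
import Vale.Agent.P073.H803.RD

/-!
# P073, block B09, [ST1]: the tolerances of Round 1
-/

open Set Metric Topology Filter MeasureTheory
open scoped ENNReal

namespace Vale.Agent.P073.H304

open Vale.Agent.P073
open Vale.Agent.P073.St (V Mat)
open Vale.Agent.P073.SQ (ev)
open Vale.Agent.P073.H73 (Mesh MinEdge segP onSeg ctr)
open Vale.Agent.P073.AB Vale.Agent.P073.AB.P86
open Vale.Agent.P073.H803 (DyM tinyT outI len_out pow_of_len' min_cases RD)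
open Vale.Agent.P073.H622 (LF)
open Vale.Agent.P073.H696 (am blk blkS solid deep part1 HF Boxes)
open _root_.P073.Net (dyc dyo len var)
open _root_.P073 (ConHomeo)

/-! ### Existence of small numbers -/

theorem exists_small_pow {p : ℝ} (hp : 0 < p) (w A : ℝ) {τ : ℝ≥0∞} (hτ : τ ≠ 0) :
    ∃ b > 0, ENNReal.ofReal w * ENNReal.ofReal (A * b) ^ p ≤ τ := by
  obtain ⟨t, ht, htτ⟩ : ∃ t : ℝ, 0 < t ∧ ENNReal.ofReal t ≤ τ := by
    by_cases h : τ = ⊤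
    · exact ⟨1, one_pos, by rw [h]; exact le_top⟩
    · exact ⟨τ.toReal, ENNReal.toReal_pos hτ h, (ENNReal.ofReal_toReal h).le⟩
  set W : ℝ := |w| + 1 with hW
  have hW0 : 0 < W := by positivity
  set B : ℝ := |A| + 1 with hB
  have hB0 : 0 < B := by positivity
  set s : ℝ := (t / W) ^ (1 / p) with hs
  have hs0 : 0 < s := Real.rpow_pos_of_pos (div_pos ht hW0) _
  have hsp : s ^ p = t / W := by
    rw [hs, ← Real.rpow_mul (div_pos ht hW0).le, one_div_mul_cancel hp.ne', Real.rpow_one]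
  refine ⟨s / B, by positivity, le_trans ?_ htτ⟩
  have h1 : A * (s / B) ≤ s := by
    calc A * (s / B) ≤ B * (s / B) := by
          gcongr
          linarith [le_abs_self A]
      _ = s := by field_simp
  calc ENNReal.ofReal w * ENNReal.ofReal (A * (s / B)) ^ p
      ≤ ENNReal.ofReal W * ENNReal.ofReal s ^ p := by
        gcongr
        linarith [le_abs_self w]
    _ = ENNReal.ofReal t := by
        rw [ENNReal.ofReal_rpow_of_nonneg hs0.le hp.le, hsp, ← ENNReal.ofReal_mul hW0.le]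
        congr 1
        field_simp

/-- a number for every square below finitely many numbers -/
theorem exists_epsS {Ω : Set V} {v : V} {I : Set Idx} (hI : Part Ω v I)
    (b : Idx → Idx × Fin 3 → ℝ) (hb : ∀ q e, 0 < b q e) :
    ∃ τ' : Idx × Fin 3 → ℝ, (∀ s, 0 < τ' s) ∧ ∀ s, MinSq v I s → ∀ q ∈ I, ∀ e,
      MinEdge v I e → edge v e ⊆ squ v s → edge v e ⊆ dyc v q.1 q.2 → τ' s ≤ b q e := by
  classical
  have hex : ∀ s, ∃ t : ℝ, 0 < t ∧ (MinSq v I s → ∀ q ∈ I, ∀ e,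
      MinEdge v I e → edge v e ⊆ squ v s → edge v e ⊆ dyc v q.1 q.2 → t ≤ b q e) := by
    intro s
    by_cases hs : MinSq v I s
    · have h1 : {q | q ∈ I ∧ (dyc v q.1 q.2 ∩ squ v s).Nonempty}.Finite :=
        hI.fin _ (H687.squ_sub_Ω hI hs) (H687.isCompact_squ v s)
      have h2 := h1.prod (H687.finite_minEdge hI hs)
      obtain ⟨ε, hε, h3⟩ := H803.exists_le_finite h2 (fun a => b a.1 a.2) fun a _ => hb _ _
      refine ⟨ε, hε, fun _ q hq e he hes heq => ?_⟩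
      obtain ⟨y, hy⟩ := Gr.edge_nonempty v e
      exact h3 (q, e) ⟨⟨hq, y, heq hy, hes hy⟩, he, hes⟩
    · exact ⟨1, one_pos, fun h => absurd h hs⟩
  choose τ' h1 h2 using hex
  exact ⟨τ', h1, h2⟩

/-- a number for every edge below finitely many numbers -/
theorem exists_deltaE {Ω : Set V} {v : V} {I : Set Idx} (hI : Part Ω v I)
    (b : Idx → Idx × Fin 3 → ℝ) (hb : ∀ q e, 0 < b q e) (δ' : Idx × Fin 3 → ℝ)
    (hδ' : ∀ e, 0 < δ' e) :
    ∃ δ : Idx × Fin 3 → ℝ, (∀ e, 0 < δ e ∧ δ e ≤ δ' e) ∧ ∀ e, edge v e ⊆ Ω → ∀ q ∈ I,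
      edge v e ⊆ dyc v q.1 q.2 → δ e ≤ b q e := by
  classical
  have hex : ∀ e : Idx × Fin 3, ∃ t : ℝ, (0 < t ∧ t ≤ δ' e) ∧ (edge v e ⊆ Ω → ∀ q ∈ I,
      edge v e ⊆ dyc v q.1 q.2 → t ≤ b q e) := by
    intro e
    by_cases hs : edge v e ⊆ Ω
    · have h1 : {q | q ∈ I ∧ (dyc v q.1 q.2 ∩ edge v e).Nonempty}.Finite :=
        hI.fin _ hs (Gr.isCompact_edge v e)
      obtain ⟨ε, hε, h3⟩ := H803.exists_le_finite h1 (fun a => b a e) fun a _ => hb _ _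
      refine ⟨min ε (δ' e), ⟨lt_min hε (hδ' e), min_le_right _ _⟩, fun _ q hq heq => ?_⟩
      obtain ⟨y, hy⟩ := Gr.edge_nonempty v e
      exact (min_le_left _ _).trans (h3 q ⟨hq, y, heq hy, hy⟩)
    · exact ⟨δ' e, ⟨hδ' e, le_rfl⟩, fun h => absurd h hs⟩
  choose δ h1 h2 using hex
  exact ⟨δ, h1, h2⟩

/-- a function on the boxes as a function on the cubes -/
theorem exists_boxfn {v : V} {K : Set Idx}
    (hK : ∀ k ∈ K, ∀ k' ∈ K, k ≠ k' → Disjoint (dyo v k.1 k.2) (dyo v k'.1 k'.2))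
    (a : Idx → ℝ) (b : ℝ) : ∃ A : Idx → ℝ,
      (∀ k ∈ K, ∀ q : Idx, dyc v q.1 q.2 ⊆ dyc v k.1 k.2 → A q = a k) ∧
      ∀ q : Idx, (∀ k ∈ K, ¬ dyc v q.1 q.2 ⊆ dyc v k.1 k.2) → A q = b := by
  classical
  refine ⟨fun q => if h : ∃ k ∈ K, dyc v q.1 q.2 ⊆ dyc v k.1 k.2 then a h.choose else b,
    fun k hk q hq => ?_, fun q hq => ?_⟩
  · have h : ∃ k ∈ K, dyc v q.1 q.2 ⊆ dyc v k.1 k.2 := ⟨k, hk, hq⟩
    simp only [h, dif_pos]
    rw [box_unique hK h.choose_spec.1 hk h.choose_spec.2 hq]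
  · have h : ¬ ∃ k ∈ K, dyc v q.1 q.2 ⊆ dyc v k.1 k.2 := fun ⟨k, hk, h⟩ => hq k hk h
    simp only [h, dif_neg, not_false_eq_true]

/-! ### The input for the edges -/

variable {p D : ℝ} {J : ℝ → ℕ} {Δ Mg : ℝ → ℝ} {Ω Λ : Set V} {f : V → V} {F : V → Mat} {v : V}
  {I K : Set Idx} {x : Idx → V} {n N N' : Idx → ℕ} {k₁ : V → ℕ} {c₀ τ rσ : V → ℝ}
  {δ εs : Idx × Fin 3 → ℝ} {ε M₀ : ℝ} {c : ℝ≥0∞} {τ' φ κ μ : V → ℝ} {s : V → ℕ} {nn : ℕ → ℕ}

/-- the minimal edges of the cubes which are not solid -/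
theorem rd_len (hp : 1 ≤ p) (X : RD p D J Δ Mg Ω Λ f F v I K x n N N' k₁ c₀ τ rσ δ εs)
    (B : Boxes p ε M₀ c τ' φ κ μ s Ω Λ f F v nn K x) {q : Idx}
    (hq : q ∈ part1 v K n (fun k => k₁ (x k)) I \
      solid v K n (part1 v K n (fun k => k₁ (x k)) I)) {e : Idx × Fin 3}
    (he : MinEdge v (part1 v K n (fun k => k₁ (x k)) I) e)
    (hsub : edge v e ⊆ dyc v q.1 q.2) :
    ENNReal.ofReal ((1 / 2 ^ e.1.1) ^ (1 - p)) * elen X.h.toFun v e ^ p ≤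
      4 ^ p * (eInt v e (HF p Ω F) +
        ENNReal.ofReal ((1 / 2 ^ e.1.1) ^ (1 - p)) * ENNReal.ofReal (δ e) ^ p) := by
  have hΩ : edge v e ⊆ Ω := hsub.trans (X.G.part1.sub q hq.1)
  obtain ⟨y, hy⟩ := Gr.edge_nonempty v e
  rcases min_cases he with ⟨k, hk, z, hz, h1⟩ | ⟨q', hq', h1⟩
  · exact absurd ⟨hq.1, k, hk, y, hsub hy, mem_iUnion₂.2 ⟨z, hz, h1 hy⟩⟩ hq.2
  · have h2 := len_out B X.NB X.G hq' h1
    refine (pow_of_len' hp h2).trans (le_of_eq ?_)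
    congr 2
    refine PK.eInt_congr fun y hy => ?_
    unfold HF
    rw [indicator_of_mem (hΩ hy)]

/-- **the input for the edges**, from the data of Round 1 -/
theorem rd_eIn (hp : 1 ≤ p) (hD : 0 < D)
    (X : RD p D J Δ Mg Ω Λ f F v I K x n N N' k₁ c₀ τ rσ δ εs)
    (B : Boxes p ε M₀ c τ' φ κ μ s Ω Λ f F v nn K x) {tol : Idx → ℝ≥0∞} {A Eq : Idx → ℝ}
    (hδ : ∀ q ∈ part1 v K n (fun k => k₁ (x k)) I, ∀ e,
      MinEdge v (part1 v K n (fun k => k₁ (x k)) I) e → edge v e ⊆ dyc v q.1 q.2 →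
      ENNReal.ofReal ((1 / 2 ^ e.1.1) ^ (1 - p)) * ENNReal.ofReal (δ e) ^ p ≤ tol q)
    (hεs : ∀ q ∈ part1 v K n (fun k => k₁ (x k)) I, ∀ e,
      MinEdge v (part1 v K n (fun k => k₁ (x k)) I) e → edge v e ⊆ dyc v q.1 q.2 →
      ∀ s, MinSq v (part1 v K n (fun k => k₁ (x k)) I) s → edge v e ⊆ squ v s →
      ENNReal.ofReal ((1 / 2 ^ e.1.1) ^ (1 - p)) * ENNReal.ofReal (A q * εs s) ^ p ≤ tol q)
    (hA : ∀ k ∈ K, ∀ q : Idx, dyc v q.1 q.2 ⊆ dyc v k.1 k.2 →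
      (2 + D) * nL (LF F (x k)) ≤ A q)
    (hE0 : ∀ q, (4:ℝ) ^ p ≤ Eq q)
    (hEz : ∀ k ∈ K, ∀ q : Idx, dyc v q.1 q.2 ⊆ dyc v k.1 k.2 →
      2 ^ (p - 1) * ((4 * D * nL (LF F (x k)) * nL (LF F (x k)).symm) ^ p * 4 ^ p + 1) ≤ Eq q) :
    EIn p D (X.G.blocks X.T) X.ε (HF p Ω F) tol (fun _ => 4 ^ p) Eq
      (part1 v K n (fun k => k₁ (x k)) I)
      (part1 v K n (fun k => k₁ (x k)) I \
        solid v K n (part1 v K n (fun k => k₁ (x k)) I)) (fun k => k.1) where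
  ε0 κ := (X.ε0 κ).le
  C0 _ := by positivity
  len q hq e he hsub := by
    refine (rd_len hp X B hq he hsub).trans ?_
    have h4 : (4:ℝ≥0∞) ^ p = ENNReal.ofReal (4 ^ p) := by
      rw [← ENNReal.ofReal_rpow_of_pos (by norm_num : (0:ℝ) < 4), ENNReal.ofReal_ofNat]
    rw [h4]
    gcongr
    exact hδ q hq.1 e he hsub
  tol q hq e he hsub j κ hbox hκ := by
    obtain ⟨s, hs, hκs, -⟩ := X.link.dy.face κ
    have h2 := X.ε2 κ s hκs
    refine le_trans ?_ (hεs q hq.1 e he hsub s hs (hκs ▸ hκ))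
    have h3 := hA j.1 j.2 q hbox
    have h4 := X.ε0 κ
    have h5 : 0 ≤ (2 + D) * nL (LF F (x j.1)) := by positivity
    have h6 : (2 + D) * nL ((X.G.blocks X.T).L j) * X.ε κ ≤ A q * εs s :=
      mul_le_mul h3 (by linarith) h4.le (h5.trans h3)
    exact mul_le_mul_right (ENNReal.rpow_le_rpow (ENNReal.ofReal_le_ofReal h6) (by linarith)) _
  E0 q _ := hE0 q
  Ez j q _ hbox := hEz j.1 j.2 q hbox

end Vale.Agent.P073.H304
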